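import Vale.Agent.P170.MathlibUsed
import Vale.Agent.P170.Defs

set_option linter.all false

section

section

/-!
Finite product model: each element `e` of a finite type is present independently with
probability `1 - exp (-r e)`.
-/

namespace Vale.Agent.P170

open Finset

section Rate
variable {E : Type*} [Fintype E]

open Classical in
/-- weight of the configuration `S` -/
noncomputable def wt (r : E → ℝ) (S : Finset E) : ℝ :=
  ∏ e, if e ∈ S then 1 - Real.exp (-r e) else Real.exp (-r e)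

/-- expectation in the product model with rates `r` -/
noncomputable def Ex (r : E → ℝ) (f : Finset E → ℝ) : ℝ :=
  ∑ S : Finset E, wt r S * f S

open Classical in
/-- the indicator of `S ⊆ T` -/
noncomputable def zeta (T : Finset E) : Finset E → ℝ := fun S => if S ⊆ T then 1 else 0

theorem wt_nonneg {r : E → ℝ} (hr : ∀ e, 0 ≤ r e) (S : Finset E) : 0 ≤ wt r S := by
  unfold wt
  apply Finset.prod_nonneg
  intro e _
  split_ifs
  · have : Real.exp (-r e) ≤ 1 := Real.exp_le_one_iff.mpr (by linarith only [hr e])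
    linarith only [this]
  · exact (Real.exp_pos _).le

theorem Ex_add (r : E → ℝ) (f g : Finset E → ℝ) :
    Ex r (fun S => f S + g S) = Ex r f + Ex r g := by
  unfold Ex
  rw [← Finset.sum_add_distrib]
  apply Finset.sum_congr rfl
  intro S _
  ring

theorem Ex_sub (r : E → ℝ) (f g : Finset E → ℝ) :
    Ex r (fun S => f S - g S) = Ex r f - Ex r g := by
  unfold Ex
  rw [← Finset.sum_sub_distrib]
  apply Finset.sum_congr rfl
  intro S _
  ring

theorem Ex_smul (r : E → ℝ) (c : ℝ) (f : Finset E → ℝ) :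
    Ex r (fun S => c * f S) = c * Ex r f := by
  unfold Ex
  rw [Finset.mul_sum]
  apply Finset.sum_congr rfl
  intro S _
  ring

theorem Ex_mul_const (r : E → ℝ) (c : ℝ) (f : Finset E → ℝ) :
    Ex r (fun S => f S * c) = Ex r f * c := by
  unfold Ex
  rw [Finset.sum_mul]
  apply Finset.sum_congr rfl
  intro S _
  ring

theorem Ex_sum {ι : Type*} (r : E → ℝ) (s : Finset ι) (f : ι → Finset E → ℝ) :
    Ex r (fun S => ∑ i ∈ s, f i S) = ∑ i ∈ s, Ex r (f i) := by
  unfold Ex
  rw [Finset.sum_comm]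
  apply Finset.sum_congr rfl
  intro S _
  rw [Finset.mul_sum]

theorem Ex_zeta [DecidableEq E] (r : E → ℝ) (T : Finset E) :
    Ex r (zeta T) = Real.exp (-∑ e ∈ Tᶜ, r e) := by
  have h0 : ∀ S : Finset E, zeta T S = if S ⊆ T then (1:ℝ) else 0 := by
    intro S
    unfold zeta
    congr
  unfold Ex
  simp only [h0]
  have h1 : ∑ S : Finset E, wt r S * (if S ⊆ T then (1:ℝ) else 0)
      = ∑ S ∈ T.powerset, wt r S := by
    rw [← Finset.sum_filter_add_sum_filter_not Finset.univ (fun S => S ⊆ T)]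
    have h2 : ∑ S ∈ Finset.univ.filter (fun S : Finset E => ¬ S ⊆ T),
        wt r S * (if S ⊆ T then (1:ℝ) else 0) = 0 := by
      apply Finset.sum_eq_zero
      intro S hS
      rw [Finset.mem_filter] at hS
      rw [if_neg hS.2, mul_zero]
    rw [h2, add_zero]
    have h3 : Finset.univ.filter (fun S : Finset E => S ⊆ T) = T.powerset := by
      ext S
      simp only [mem_filter, mem_univ, true_and, mem_powerset]
    rw [h3]
    apply Finset.sum_congr rfl
    intro S hS
    rw [Finset.mem_powerset] at hS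
    rw [if_pos hS, mul_one]
  rw [h1]
  have h4 : ∀ S ∈ T.powerset, wt r S =
      ((∏ e ∈ S, (1 - Real.exp (-r e))) * ∏ e ∈ T \ S, Real.exp (-r e)) *
        ∏ e ∈ Tᶜ, Real.exp (-r e) := by
    intro S hS
    rw [Finset.mem_powerset] at hS
    have hw : wt r S = ∏ e, if e ∈ S then 1 - Real.exp (-r e) else Real.exp (-r e) := by
      unfold wt
      apply Finset.prod_congr rfl
      intro e _
      congr
    rw [hw]
    have h5 : Tᶜ ∪ (T \ S ∪ S) = Finset.univ := by
      ext e
      simp only [Finset.mem_sdiff, Finset.mem_univ, iff_true, Finset.mem_union,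
        Finset.mem_compl]
      by_cases he : e ∈ T
      · by_cases he' : e ∈ S
        · exact Or.inr (Or.inr he')
        · exact Or.inr (Or.inl ⟨he, he'⟩)
      · exact Or.inl he
    have h6 : Disjoint Tᶜ (T \ S ∪ S) := by
      rw [Finset.disjoint_left]
      intro e he
      simp only [Finset.mem_compl] at he
      simp only [Finset.mem_union, Finset.mem_sdiff, not_or]
      exact ⟨fun h => he h.1, fun h => he (hS h)⟩
    have h7 : Disjoint (T \ S) S := Finset.sdiff_disjoint
    rw [← h5, Finset.prod_union h6, Finset.prod_union h7]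
    have e1 : ∀ e ∈ Tᶜ, (if e ∈ S then 1 - Real.exp (-r e) else Real.exp (-r e)) = Real.exp (-r e) := by
      intro e he
      rw [Finset.mem_compl] at he
      exact if_neg (fun h => he (hS h))
    have e2 : ∀ e ∈ T \ S, (if e ∈ S then 1 - Real.exp (-r e) else Real.exp (-r e)) = Real.exp (-r e) := by
      intro e he
      rw [Finset.mem_sdiff] at he
      exact if_neg he.2
    have e3 : ∀ e ∈ S, (if e ∈ S then 1 - Real.exp (-r e) else Real.exp (-r e)) = 1 - Real.exp (-r e) := by
      intro e he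
      exact if_pos he
    rw [Finset.prod_congr rfl e1, Finset.prod_congr rfl e2, Finset.prod_congr rfl e3]
    ring
  rw [Finset.sum_congr rfl h4, ← Finset.sum_mul, ← Finset.prod_add]
  have h7 : ∀ e ∈ T, (1 - Real.exp (-r e) + Real.exp (-r e)) = 1 := by
    intro e _; ring
  rw [Finset.prod_congr rfl h7, Finset.prod_const_one, one_mul, ← Real.exp_sum,
    Finset.sum_neg_distrib]

theorem Ex_one (r : E → ℝ) : Ex r (fun _ => 1) = 1 := by
  classical
  have h := Ex_zeta r (Finset.univ : Finset E)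
  have h2 : zeta (Finset.univ : Finset E) = fun _ => (1:ℝ) := by
    funext S
    simp only [zeta, subset_univ, ↓reduceIte]
  rw [h2] at h
  rw [h]
  simp only [compl_univ, sum_empty, neg_zero, Real.exp_zero]

theorem Ex_const (r : E → ℝ) (c : ℝ) : Ex r (fun _ => c) = c := by
  have h := Ex_smul r c (fun _ => 1)
  simp only [mul_one] at h
  rw [h, Ex_one, mul_one]

theorem Ex_mono {r : E → ℝ} (hr : ∀ e, 0 ≤ r e) {f g : Finset E → ℝ} (h : ∀ S, f S ≤ g S) :
    Ex r f ≤ Ex r g := by
  unfold Ex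
  apply Finset.sum_le_sum
  intro S _
  exact mul_le_mul_of_nonneg_left (h S) (wt_nonneg hr S)

theorem Ex_nonneg {r : E → ℝ} (hr : ∀ e, 0 ≤ r e) {f : Finset E → ℝ} (h : ∀ S, 0 ≤ f S) :
    0 ≤ Ex r f := by
  have := Ex_mono hr (f := fun _ => 0) (g := f) h
  rwa [Ex_const] at this

/-- every function is a linear combination of the functions `zeta T` -/
theorem zeta_induction (P : (Finset E → ℝ) → Prop)
    (hz : ∀ T, P (zeta T))
    (hadd : ∀ f g, P f → P g → P (fun S => f S + g S))
    (hsmul : ∀ (c : ℝ) f, P f → P (fun S => c * f S)) : ∀ f, P f := by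
  classical
  let W : Submodule ℝ (Finset E → ℝ) := Submodule.span ℝ (Set.range zeta)
  have hsingle : ∀ T : Finset E, (Pi.single T (1:ℝ) : Finset E → ℝ) ∈ W := by
    intro T
    induction T using Finset.strongInduction with
    | H T ih =>
      have h1 : (Pi.single T (1:ℝ) : Finset E → ℝ)
          = zeta T - ∑ S ∈ T.ssubsets, Pi.single S (1:ℝ) := by
        funext U
        simp only [Pi.sub_apply, Finset.sum_apply, zeta]
        simp only [Pi.single_apply, Finset.sum_ite_eq, Finset.mem_ssubsets]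
        by_cases hU : U = T
        · subst hU
          simp
        · by_cases hUT : U ⊆ T
          · have : U ⊂ T := lt_of_le_of_ne hUT hU
            simp [hU, hUT, this]
          · have : ¬ U ⊂ T := fun h => hUT h.subset
            simp [hU, hUT, this]
      rw [h1]
      apply Submodule.sub_mem
      · exact Submodule.subset_span ⟨T, rfl⟩
      · apply Submodule.sum_mem
        intro S hS
        exact ih S (Finset.mem_ssubsets.mp hS)
  intro f
  have hf : f ∈ W := by
    have h1 : f = ∑ S : Finset E, f S • (Pi.single S (1:ℝ) : Finset E → ℝ) := by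
      funext U
      simp only [Finset.sum_apply, Pi.smul_apply, Pi.single_apply, smul_eq_mul, mul_ite, mul_one, mul_zero, sum_ite_eq, mem_univ, ↓reduceIte]
    rw [h1]
    apply Submodule.sum_mem
    intro S _
    exact Submodule.smul_mem _ _ (hsingle S)
  have hP0 : P 0 := by
    have := hsmul 0 _ (hz ∅)
    simp only [zero_mul] at this
    exact this
  induction hf using Submodule.span_induction with
  | mem x hx =>
    obtain ⟨T, rfl⟩ := hx
    exact hz T
  | zero => exact hP0
  | add x y _ _ hx hy => exact hadd x y hx hy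
  | smul a x _ hx => exact hsmul a x hx

/-- a linear functional with the right values on `zeta T` is the expectation -/
theorem Ex_eq_of_zeta [DecidableEq E] (r : E → ℝ) (L : (Finset E → ℝ) → ℝ)
    (hadd : ∀ f g, L (fun S => f S + g S) = L f + L g)
    (hsmul : ∀ (c : ℝ) f, L (fun S => c * f S) = c * L f)
    (hz : ∀ T, L (zeta T) = Real.exp (-∑ e ∈ Tᶜ, r e)) (f : Finset E → ℝ) :
    L f = Ex r f := by
  apply zeta_induction (P := fun f => L f = Ex r f)
  · intro T
    rw [hz, Ex_zeta]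
  · intro f g hf hg
    rw [hadd, Ex_add, hf, hg]
  · intro c f hf
    rw [hsmul, Ex_smul, hf]

variable [DecidableEq E]

/-- combine `S` on `A` with `S'` off `A` -/
def mix (A S S' : Finset E) : Finset E := (S ∩ A) ∪ (S' \ A)

omit [Fintype E] in
theorem mem_mix {A S S' : Finset E} {e : E} :
    e ∈ mix A S S' ↔ (e ∈ A ∧ e ∈ S) ∨ (e ∉ A ∧ e ∈ S') := by
  unfold mix
  simp only [Finset.mem_union, Finset.mem_inter, Finset.mem_sdiff]
  tauto

theorem Ex_mix (r : E → ℝ) (B : Finset E) (h : Finset E → ℝ) :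
    Ex r (fun S' => Ex r (fun S'' => h (mix B S' S''))) = Ex r h := by
  apply Ex_eq_of_zeta r (fun h => Ex r (fun S' => Ex r (fun S'' => h (mix B S' S''))))
  · intro f g
    simp only [Ex_add]
  · intro c f
    simp only [Ex_smul]
  · intro T
    have h1 : ∀ S' S'' : Finset E, zeta T (mix B S' S'') = zeta (T ∪ Bᶜ) S' * zeta (T ∪ B) S'' := by
      intro S' S''
      unfold zeta
      have h2 : mix B S' S'' ⊆ T ↔ (S' ⊆ T ∪ Bᶜ ∧ S'' ⊆ T ∪ B) := by
        constructor
        · intro h
          constructor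
          · intro e he
            by_cases heB : e ∈ B
            · exact Finset.mem_union_left _ (h (mem_mix.mpr (Or.inl ⟨heB, he⟩)))
            · exact Finset.mem_union_right _ (Finset.mem_compl.mpr heB)
          · intro e he
            by_cases heB : e ∈ B
            · exact Finset.mem_union_right _ heB
            · exact Finset.mem_union_left _ (h (mem_mix.mpr (Or.inr ⟨heB, he⟩)))
        · rintro ⟨h1, h2⟩ e he
          rcases mem_mix.mp he with ⟨heB, he'⟩ | ⟨heB, he'⟩
          · have := h1 he'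
            simp only [Finset.mem_union, Finset.mem_compl] at this
            (clear * - this heB; tauto)
          · have := h2 he'
            simp only [Finset.mem_union] at this
            (clear * - this heB; tauto)
      by_cases ha : S' ⊆ T ∪ Bᶜ <;> by_cases hb : S'' ⊆ T ∪ B <;> simp [h2, ha, hb]
    simp only [h1]
    simp only [Ex_smul, Ex_mul_const]
    rw [Ex_zeta, Ex_zeta, ← Real.exp_add]
    congr 1
    rw [← neg_add, neg_inj]
    rw [← Finset.sum_union]
    · apply Finset.sum_congr _ (fun _ _ => rfl)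
      ext e
      simp only [Finset.mem_union, Finset.mem_compl]
      (clear * -; tauto)
    · rw [Finset.disjoint_left]
      intro e
      simp only [Finset.mem_union, Finset.mem_compl]
      tauto

/-- conditional expectation given the part of the configuration inside `A` -/
noncomputable def CE (r : E → ℝ) (A : Finset E) (f : Finset E → ℝ) : Finset E → ℝ :=
  fun S => Ex r (fun S' => f (mix A S S'))

/-- `f` only looks at the part of the configuration inside `A` -/
def DepOn (f : Finset E → ℝ) (A : Finset E) : Prop :=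
  ∀ S S' : Finset E, S ∩ A = S' ∩ A → f S = f S'

omit [Fintype E] in
theorem mix_inter (A S S' : Finset E) : mix A S S' ∩ A = S ∩ A := by
  ext e
  simp only [Finset.mem_inter, mem_mix]
  tauto

theorem CE_depOn (r : E → ℝ) (A : Finset E) (f : Finset E → ℝ) : DepOn (CE r A f) A := by
  intro S S' h
  unfold CE
  congr 1
  funext S''
  have : mix A S S'' = mix A S' S'' := by
    unfold mix
    rw [h]
  rw [this]

theorem CE_of_depOn (r : E → ℝ) {A : Finset E} {f : Finset E → ℝ} (hf : DepOn f A) :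
    CE r A f = f := by
  funext S
  unfold CE
  have : (fun S' => f (mix A S S')) = fun _ => f S := by
    funext S'
    exact hf _ _ (mix_inter A S S')
  rw [this, Ex_const]

theorem CE_CE (r : E → ℝ) (A B : Finset E) (f : Finset E → ℝ) :
    CE r A (CE r B f) = CE r (A ∩ B) f := by
  funext S
  unfold CE
  rw [← Ex_mix r B (fun S' => f (mix (A ∩ B) S S'))]
  congr 1
  funext S'
  congr 1
  funext S''
  congr 1
  ext e
  simp only [mem_mix, Finset.mem_inter]
  tauto

theorem CE_empty (r : E → ℝ) (f : Finset E → ℝ) (S : Finset E) : CE r ∅ f S = Ex r f := by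
  unfold CE
  congr 1
  funext S'
  congr 1
  ext e
  simp [mem_mix]

theorem CE_inter_of_depOn (r : E → ℝ) (A : Finset E) {B : Finset E} {f : Finset E → ℝ}
    (hf : DepOn f B) : CE r A f = CE r (A ∩ B) f := by
  conv_lhs => rw [← CE_of_depOn r hf]
  rw [CE_CE]

theorem CE_add (r : E → ℝ) (A : Finset E) (f g : Finset E → ℝ) :
    CE r A (fun S => f S + g S) = fun S => CE r A f S + CE r A g S := by
  funext S
  exact Ex_add r (fun S' => f (mix A S S')) (fun S' => g (mix A S S'))

theorem CE_sub (r : E → ℝ) (A : Finset E) (f g : Finset E → ℝ) :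
    CE r A (fun S => f S - g S) = fun S => CE r A f S - CE r A g S := by
  funext S
  exact Ex_sub r (fun S' => f (mix A S S')) (fun S' => g (mix A S S'))

theorem CE_smul (r : E → ℝ) (A : Finset E) (c : ℝ) (f : Finset E → ℝ) :
    CE r A (fun S => c * f S) = fun S => c * CE r A f S := by
  funext S
  exact Ex_smul r c (fun S' => f (mix A S S'))

theorem CE_mono {r : E → ℝ} (hr : ∀ e, 0 ≤ r e) (A : Finset E) {f g : Finset E → ℝ}
    (h : ∀ S, f S ≤ g S) (S : Finset E) : CE r A f S ≤ CE r A g S :=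
  Ex_mono hr (fun S' => h (mix A S S'))

/-- pull out a factor that is known -/
theorem CE_mul_of_depOn (r : E → ℝ) {A : Finset E} {f : Finset E → ℝ} (hf : DepOn f A)
    (g : Finset E → ℝ) : CE r A (fun S => f S * g S) = fun S => f S * CE r A g S := by
  funext S
  unfold CE
  rw [← Ex_smul]
  congr 1
  funext S'
  show f (mix A S S') * g (mix A S S') = f S * g (mix A S S')
  rw [hf (mix A S S') S (mix_inter A S S')]

omit [Fintype E] in
theorem DepOn.mono {f : Finset E → ℝ} {A B : Finset E} (hf : DepOn f A) (h : A ⊆ B) :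
    DepOn f B := by
  intro S S' hS
  apply hf
  have h1 : ∀ X : Finset E, X ∩ A = (X ∩ B) ∩ A := by
    intro X
    rw [Finset.inter_assoc, Finset.inter_eq_right.mpr h]
  rw [h1 S, h1 S', hS]

/-- conditional independence -/
theorem CE_mul_of_indep (r : E → ℝ) {A B C : Finset E} {f g : Finset E → ℝ}
    (hf : DepOn f B) (hg : DepOn g C) (h : B ∩ C ⊆ A) :
    CE r A (fun S => f S * g S) = fun S => CE r A f S * CE r A g S := by
  have h1 : CE r A (fun S => f S * g S) = CE r A (CE r (A ∪ B) (fun S => f S * g S)) := by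
    rw [CE_CE]
    congr 1
    ext e
    simp only [Finset.mem_inter, Finset.mem_union]
    (clear * -; tauto)
  have h2 : CE r (A ∪ B) (fun S => f S * g S) = fun S => f S * CE r A g S := by
    rw [CE_mul_of_depOn r (hf.mono Finset.subset_union_right)]
    funext S
    congr 1
    rw [CE_inter_of_depOn r (A ∪ B) hg, CE_inter_of_depOn r A hg]
    congr 1
    ext e
    simp only [Finset.mem_inter, Finset.mem_union]
    constructor
    · rintro ⟨h1 | h1, h2⟩
      · exact ⟨h1, h2⟩
      · exact ⟨h (Finset.mem_inter.mpr ⟨h1, h2⟩), h2⟩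
    · rintro ⟨h1, h2⟩
      exact ⟨Or.inl h1, h2⟩
  rw [h1, h2]
  have h3 : (fun S => f S * CE r A g S) = fun S => CE r A g S * f S := by
    funext S
    ring
  rw [h3, CE_mul_of_depOn r (CE_depOn r A g)]
  funext S
  ring

/-- independence -/
theorem Ex_mul_of_indep (r : E → ℝ) {B C : Finset E} {f g : Finset E → ℝ}
    (hf : DepOn f B) (hg : DepOn g C) (h : Disjoint B C) :
    Ex r (fun S => f S * g S) = Ex r f * Ex r g := by
  have := CE_mul_of_indep r (A := ∅) hf hg (by rw [Finset.disjoint_iff_inter_eq_empty.mp h])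
  have h2 := congrFun this ∅
  simpa only [CE_empty] using h2

/-- derivative of the expectation in the direction `v` -/
theorem hasDerivAt_Ex (r v : E → ℝ) (f : Finset E → ℝ) (s : ℝ) :
    HasDerivAt (fun s => Ex (fun e => r e + s * v e) f)
      (∑ e, v e * (Ex (fun e => r e + s * v e) (fun S => f (insert e S))
        - Ex (fun e => r e + s * v e) f)) s := by
  apply zeta_induction (P := fun f => HasDerivAt (fun s => Ex (fun e => r e + s * v e) f)
      (∑ e, v e * (Ex (fun e => r e + s * v e) (fun S => f (insert e S))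
        - Ex (fun e => r e + s * v e) f)) s)
  · intro T
    have h1 : ∀ s : ℝ, Ex (fun e => r e + s * v e) (zeta T)
        = Real.exp (-(∑ e ∈ Tᶜ, r e + s * ∑ e ∈ Tᶜ, v e)) := by
      intro s
      rw [Ex_zeta, Finset.sum_add_distrib, Finset.mul_sum]
    have h2 : ∀ e : E, Ex (fun e => r e + s * v e) (fun S => zeta T (insert e S))
        = (if e ∈ T then 1 else 0) * Ex (fun e => r e + s * v e) (zeta T) := by
      intro e
      rw [← Ex_smul]
      congr 1
      funext S
      unfold zeta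
      by_cases he : e ∈ T
      · simp only [insert_subset_iff, he, true_and, ↓reduceIte, mul_ite, mul_one, mul_zero]
      · simp [he, Finset.insert_subset_iff]
    have h3 : (∑ e, v e * (Ex (fun e => r e + s * v e) (fun S => zeta T (insert e S))
        - Ex (fun e => r e + s * v e) (zeta T)))
        = -(∑ e ∈ Tᶜ, v e) * Ex (fun e => r e + s * v e) (zeta T) := by
      have h4 : ∀ e ∈ (Finset.univ : Finset E),
          v e * (Ex (fun e => r e + s * v e) (fun S => zeta T (insert e S))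
          - Ex (fun e => r e + s * v e) (zeta T))
          = (if e ∈ Tᶜ then -v e else 0) * Ex (fun e => r e + s * v e) (zeta T) := by
        intro e _
        rw [h2 e]
        by_cases he : e ∈ T
        · simp [he]
        · simp [he]
      rw [Finset.sum_congr rfl h4, ← Finset.sum_mul]
      congr 1
      rw [Finset.sum_ite_mem, Finset.univ_inter, Finset.sum_neg_distrib]
    rw [h3]
    have h5 : (fun s => Ex (fun e => r e + s * v e) (zeta T))
        = fun s => Real.exp (-(∑ e ∈ Tᶜ, r e + s * ∑ e ∈ Tᶜ, v e)) := by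
      funext s
      exact h1 s
    rw [h5, h1 s]
    have h6 : HasDerivAt (fun s : ℝ => -(∑ e ∈ Tᶜ, r e + s * ∑ e ∈ Tᶜ, v e))
        (-(∑ e ∈ Tᶜ, v e)) s := by
      have h := (((hasDerivAt_id s).mul_const (∑ e ∈ Tᶜ, v e)).const_add (∑ e ∈ Tᶜ, r e)).neg
      rw [one_mul] at h
      exact h
    have h7 := h6.exp
    rw [mul_comm] at h7
    exact h7
  · intro f g hf hg
    simp only [Ex_add]
    refine (hf.fun_add hg).congr_deriv ?_
    rw [← Finset.sum_add_distrib]
    apply Finset.sum_congr rfl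
    intro e _
    ring
  · intro c f hf
    simp only [Ex_smul]
    refine (hf.const_mul c).congr_deriv ?_
    rw [Finset.mul_sum]
    apply Finset.sum_congr rfl
    intro e _
    ring

end Rate

section Push
variable {E E' : Type*} [Fintype E] [Fintype E']

open Classical in
/-- image of a configuration under a partial map -/
noncomputable def push (φ : E' → Option E) (S : Finset E') : Finset E :=
  Finset.univ.filter (fun e => ∃ e' ∈ S, φ e' = some e)

omit [Fintype E'] in
theorem mem_push {φ : E' → Option E} {S : Finset E'} {e : E} :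
    e ∈ push φ S ↔ ∃ e' ∈ S, φ e' = some e := by
  simp only [push, mem_filter, mem_univ, true_and]

open Classical in
/-- push-forward of the product model under a partial map -/
theorem Ex_push (φ : E' → Option E) (r' : E' → ℝ) (f : Finset E → ℝ) :
    Ex r' (fun S => f (push φ S))
      = Ex (fun e => ∑ e' ∈ Finset.univ.filter (fun e' => φ e' = some e), r' e') f := by
  apply Ex_eq_of_zeta (fun e => ∑ e' ∈ Finset.univ.filter (fun e' => φ e' = some e), r' e')
    (fun f => Ex r' (fun S => f (push φ S)))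
  · intro f g
    exact Ex_add r' (fun S => f (push φ S)) (fun S => g (push φ S))
  · intro c f
    exact Ex_smul r' c (fun S => f (push φ S))
  · intro T
    let T' : Finset E' := Finset.univ.filter (fun e' => ∀ e, φ e' = some e → e ∈ T)
    have h1 : (fun S => zeta T (push φ S)) = zeta T' := by
      funext S
      unfold zeta
      have h2 : push φ S ⊆ T ↔ S ⊆ T' := by
        constructor
        · intro h e' he'
          simp only [T', Finset.mem_filter, Finset.mem_univ, true_and]
          intro e he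
          exact h (mem_push.mpr ⟨e', he', he⟩)
        · intro h e he
          obtain ⟨e', he', hee⟩ := mem_push.mp he
          have := h he'
          simp only [T', Finset.mem_filter, Finset.mem_univ, true_and] at this
          exact this e hee
      by_cases h3 : S ⊆ T'
      · rw [if_pos (h2.mpr h3), if_pos h3]
      · rw [if_neg (fun h => h3 (h2.mp h)), if_neg h3]
    show Ex r' (fun S => zeta T (push φ S)) = _
    rw [h1, Ex_zeta]
    congr 1
    rw [neg_inj]
    rw [← Finset.sum_biUnion]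
    · apply Finset.sum_congr _ (fun _ _ => rfl)
      ext e'
      simp only [T', Finset.mem_compl, Finset.mem_filter, Finset.mem_univ, true_and,
        Finset.mem_biUnion]
      push Not
      constructor
      · rintro ⟨e, h1, h2⟩
        exact ⟨e, h2, h1⟩
      · rintro ⟨e, h1, h2⟩
        exact ⟨e, h2, h1⟩
    · intro e _ e2 _ hne
      rw [Function.onFun, Finset.disjoint_left]
      intro e' h1 h2
      simp only [Finset.mem_filter, Finset.mem_univ, true_and] at h1 h2
      rw [h1] at h2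
      exact hne (Option.some.inj h2)

end Push

end Vale.Agent.P170
end
end

section

section

/-!
The mixed model: `(j+1)`-tuples and `j`-tuples of literals over a finite set `V` of variables,
each `(j+1)`-tuple present at rate `r`, each `j`-tuple at rate `ρ`.
-/

namespace Vale.Agent.P170

open Finset

open Classical in
/-- indicator of a proposition -/
noncomputable def ind (p : Prop) : ℝ := if p then 1 else 0

/-- literals -/
abbrev Lit (V : Type) := V × Bool

/-- tuples of literals -/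
abbrev Tup (j : ℕ) (V : Type) := Fin j → Lit V

/-- clauses of the mixed model -/
abbrev Cl (j : ℕ) (V : Type) := Tup (j + 1) V ⊕ Tup j V

section
variable {j : ℕ} {V : Type}

/-- the assignment `a` violates the clause `e` (all its literals are false) -/
def Viol (a : V → Bool) : Cl j V → Prop
  | Sum.inl e => ∀ i, a (e i).1 ≠ (e i).2
  | Sum.inr e => ∀ i, a (e i).1 ≠ (e i).2

/-- the variable `x` occurs in the clause `e` -/
def Occ (x : V) : Cl j V → Prop
  | Sum.inl e => ∃ i, (e i).1 = x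
  | Sum.inr e => ∃ i, (e i).1 = x

/-- no assignment satisfying `B` satisfies all clauses of `S` -/
def UnsatOn (B : (V → Bool) → Prop) (S : Finset (Cl j V)) : Prop :=
  ∀ a, B a → ∃ e ∈ S, Viol a e

/-- `S` is unsatisfiable -/
def Unsat (S : Finset (Cl j V)) : Prop := UnsatOn (fun _ => True) S

open Classical in
/-- the clauses of `S` in which `x` does not occur -/
noncomputable def avoid (x : V) (S : Finset (Cl j V)) : Finset (Cl j V) :=
  S.filter (fun e => ¬ Occ x e)

/-- rates of the mixed model -/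
def rate (j : ℕ) (V : Type) (r ρ : ℝ) : Cl j V → ℝ := Sum.elim (fun _ => r) (fun _ => ρ)

variable [Fintype V]

open Classical in
/-- the literals that are false in every satisfying assignment -/
noncomputable def Fz (S : Finset (Cl j V)) : Finset (Lit V) :=
  Finset.univ.filter (fun l => UnsatOn (fun a => a l.1 = l.2) S)

end

/-- probability that the mixed formula is unsatisfiable -/
noncomputable def Phi (j : ℕ) (V : Type) [Fintype V] (r ρ : ℝ) : ℝ :=
  Ex (rate j V r ρ) (fun S => ind (Unsat S))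

/-- probability that the clauses avoiding `x` are satisfiable, but no satisfying assignment
gives `x` the value `b` -/
noncomputable def Eta (j : ℕ) (V : Type) [Fintype V] (x : V) (b : Bool) (r ρ : ℝ) : ℝ :=
  Ex (rate j V r ρ) (fun S => ind (¬ Unsat (avoid x S) ∧ UnsatOn (fun a => a x = b) S))

/-- expected `p`-th power of the number of frozen literals, on the event of satisfiability -/
noncomputable def FzMom (j : ℕ) (V : Type) [Fintype V] (p : ℕ) (r ρ : ℝ) : ℝ :=
  Ex (rate j V r ρ) (fun S => ind (¬ Unsat S) * ((Fz S).card : ℝ) ^ p)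

/-- rate giving mean number `c * n` of `(j+1)`-tuples on `n` variables -/
noncomputable def rt (j n : ℕ) (c : ℝ) : ℝ := c * n / (2 * n) ^ (j + 1)

/-- unsatisfiability probability at density `c` on `n` variables -/
noncomputable def U (j n : ℕ) (c : ℝ) : ℝ := Phi j (Fin n) (rt j n c) 0

/-! basic facts -/

theorem ind_nonneg (p : Prop) : 0 ≤ ind p := by
  unfold ind; split_ifs <;> norm_num

theorem ind_le_one (p : Prop) : ind p ≤ 1 := by
  unfold ind; split_ifs <;> norm_num

theorem ind_true {p : Prop} (h : p) : ind p = 1 := by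
  unfold ind; simp [h]

theorem ind_false {p : Prop} (h : ¬ p) : ind p = 0 := by
  unfold ind; simp [h]

theorem ind_mono {p q : Prop} (h : p → q) : ind p ≤ ind q := by
  by_cases hp : p
  · rw [ind_true hp, ind_true (h hp)]
  · rw [ind_false hp]; exact ind_nonneg q

theorem ind_not (p : Prop) : ind (¬ p) = 1 - ind p := by
  by_cases hp : p
  · rw [ind_true hp, ind_false (not_not.mpr hp)]; ring
  · rw [ind_false hp, ind_true hp]; ring

theorem ind_and (p q : Prop) : ind (p ∧ q) = ind p * ind q := by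
  by_cases hp : p
  · by_cases hq : q
    · rw [ind_true hp, ind_true hq, ind_true ⟨hp, hq⟩]; ring
    · rw [ind_true hp, ind_false hq, ind_false (fun h => hq h.2)]; ring
  · rw [ind_false hp, ind_false (fun h => hp h.1)]; ring

theorem ind_congr {p q : Prop} (h : p ↔ q) : ind p = ind q := by
  rw [propext h]

section
variable {j : ℕ} {V : Type}

theorem UnsatOn.mono {B B' : (V → Bool) → Prop} {S S' : Finset (Cl j V)} (hB : ∀ a, B' a → B a)
    (hS : S ⊆ S') (h : UnsatOn B S) : UnsatOn B' S' := by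
  intro a ha
  obtain ⟨e, he, hv⟩ := h a (hB a ha)
  exact ⟨e, hS he, hv⟩

theorem rate_nonneg {r ρ : ℝ} (hr : 0 ≤ r) (hρ : 0 ≤ ρ) (e : Cl j V) : 0 ≤ rate j V r ρ e := by
  cases e <;> simp [rate, hr, hρ]

theorem mem_avoid {x : V} {S : Finset (Cl j V)} {e : Cl j V} :
    e ∈ avoid x S ↔ e ∈ S ∧ ¬ Occ x e := by
  simp [avoid]

variable [Fintype V]

theorem mem_Fz {S : Finset (Cl j V)} {l : Lit V} :
    l ∈ Fz S ↔ UnsatOn (fun a => a l.1 = l.2) S := by
  simp only [Fz, mem_filter, mem_univ, true_and]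

end

end Vale.Agent.P170
end
end

section

section

/-!
Derivatives and continuity of `Phi`, `FzMom`, `Eta`.
-/

namespace Vale.Agent.P170

open Finset

theorem continuous_wt {T E : Type*} [TopologicalSpace T] [Fintype E] {r : T → E → ℝ}
    (hr : ∀ e, Continuous (fun t => r t e)) (S : Finset E) :
    Continuous (fun t => wt (r t) S) := by
  unfold wt
  apply continuous_finsetProd
  intro e _
  by_cases he : e ∈ S
  · simp only [he, if_true]
    exact continuous_const.sub (hr e).neg.rexp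
  · simp only [he, if_false]
    exact (hr e).neg.rexp

/-- the expectation depends continuously on the rates -/
theorem continuous_Ex {T E : Type*} [TopologicalSpace T] [Fintype E] {r : T → E → ℝ}
    (hr : ∀ e, Continuous (fun t => r t e)) (f : Finset E → ℝ) :
    Continuous (fun t => Ex (r t) f) := by
  unfold Ex
  exact continuous_finsetSum _ fun S _ => (continuous_wt hr S).mul continuous_const

theorem continuous_rate (j : ℕ) (V : Type) (e : Cl j V) :
    Continuous (fun p : ℝ × ℝ => rate j V p.1 p.2 e) := by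
  cases e with
  | inl e => exact continuous_fst
  | inr e => exact continuous_snd

theorem continuous_FzMom (j : ℕ) (V : Type) [Fintype V] (p : ℕ) :
    Continuous (fun q : ℝ × ℝ => FzMom j V p q.1 q.2) :=
  continuous_Ex (continuous_rate j V) _

theorem continuous_Eta (j : ℕ) (V : Type) [Fintype V] (x : V) (b : Bool) :
    Continuous (fun q : ℝ × ℝ => Eta j V x b q.1 q.2) :=
  continuous_Ex (continuous_rate j V) _

section
variable {j : ℕ} {V : Type} [Fintype V] [DecidableEq V]

theorem unsat_insert_inl (S : Finset (Cl j V)) (e : Tup (j + 1) V) :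
    Unsat (insert (Sum.inl e) S) ↔ ∀ i, e i ∈ Fz S := by
  constructor
  · intro h i
    rw [mem_Fz]
    intro a ha
    obtain ⟨c, hc, hv⟩ := h a trivial
    rcases Finset.mem_insert.1 hc with rfl | hc
    · exact absurd ha (hv i)
    · exact ⟨c, hc, hv⟩
  · intro h a _
    by_cases hS : ∃ c ∈ S, Viol a c
    · obtain ⟨c, hc, hv⟩ := hS
      exact ⟨c, Finset.mem_insert_of_mem hc, hv⟩
    · refine ⟨Sum.inl e, Finset.mem_insert_self _ _, fun i hi => hS ?_⟩
      exact mem_Fz.1 (h i) a hi

theorem unsat_insert_inr (S : Finset (Cl j V)) (e : Tup j V) :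
    Unsat (insert (Sum.inr e) S) ↔ Unsat S ∨ ∀ i, e i ∈ Fz S := by
  constructor
  · intro h
    by_cases hS : Unsat S
    · exact Or.inl hS
    · refine Or.inr fun i => ?_
      rw [mem_Fz]
      intro a ha
      obtain ⟨c, hc, hv⟩ := h a trivial
      rcases Finset.mem_insert.1 hc with rfl | hc
      · exact absurd ha (hv i)
      · exact ⟨c, hc, hv⟩
  · rintro (h | h)
    · exact UnsatOn.mono (fun a ha => ha) (Finset.subset_insert _ _) h
    · intro a _
      by_cases hS : ∃ c ∈ S, Viol a c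
      · obtain ⟨c, hc, hv⟩ := hS
        exact ⟨c, Finset.mem_insert_of_mem hc, hv⟩
      · refine ⟨Sum.inr e, Finset.mem_insert_self _ _, fun i hi => hS ?_⟩
        exact mem_Fz.1 (h i) a hi

theorem sum_ind_forall (p : ℕ) (F : Finset (Lit V)) :
    ∑ e : Fin p → Lit V, ind (∀ i, e i ∈ F) = (F.card : ℝ) ^ p := by
  have h1 : ∀ e : Fin p → Lit V, ind (∀ i, e i ∈ F) =
      if e ∈ Fintype.piFinset (fun _ : Fin p => F) then (1 : ℝ) else 0 := by
    intro e
    by_cases h : ∀ i, e i ∈ F
    · rw [ind_true h, if_pos (Fintype.mem_piFinset.2 h)]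
    · rw [ind_false h, if_neg (fun h' => h (Fintype.mem_piFinset.1 h'))]
  rw [Finset.sum_congr rfl (fun e _ => h1 e), Finset.sum_ite_mem, Finset.univ_inter,
    Finset.sum_const, Fintype.card_piFinset, Finset.prod_const, Finset.card_univ, Fintype.card_fin]
  simp only [nsmul_eq_mul, Nat.cast_pow, mul_one]

theorem sum_insert_inl (S : Finset (Cl j V)) :
    ∑ e : Tup (j + 1) V, (ind (Unsat (insert (Sum.inl e) S)) - ind (Unsat S)) =
      ind (¬ Unsat S) * ((Fz S).card : ℝ) ^ (j + 1) := by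
  rw [← sum_ind_forall, Finset.mul_sum]
  apply Finset.sum_congr rfl
  intro e _
  by_cases hS : Unsat S
  · have h1 : Unsat (insert (Sum.inl e) S) :=
      UnsatOn.mono (fun a ha => ha) (Finset.subset_insert _ _) hS
    rw [ind_true h1, ind_true hS, ind_false (not_not.2 hS)]
    ring
  · rw [ind_congr (unsat_insert_inl S e), ind_false hS, ind_true hS]
    ring

theorem sum_insert_inr (S : Finset (Cl j V)) :
    ∑ e : Tup j V, (ind (Unsat (insert (Sum.inr e) S)) - ind (Unsat S)) =
      ind (¬ Unsat S) * ((Fz S).card : ℝ) ^ j := by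
  rw [← sum_ind_forall, Finset.mul_sum]
  apply Finset.sum_congr rfl
  intro e _
  by_cases hS : Unsat S
  · have h1 : Unsat (insert (Sum.inr e) S) :=
      UnsatOn.mono (fun a ha => ha) (Finset.subset_insert _ _) hS
    rw [ind_true h1, ind_true hS, ind_false (not_not.2 hS)]
    ring
  · have h2 : Unsat (insert (Sum.inr e) S) ↔ ∀ i, e i ∈ Fz S := by
      rw [unsat_insert_inr]
      (clear * - hS; tauto)
    rw [ind_congr h2, ind_false hS, ind_true hS]
    ring

end

theorem hasDerivAt_Phi_left (j : ℕ) (V : Type) [Fintype V] (r ρ : ℝ) :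
    HasDerivAt (fun r => Phi j V r ρ) (FzMom j V (j + 1) r ρ) r := by
  classical
  have h := hasDerivAt_Ex (rate j V 0 ρ) (Sum.elim (fun _ => 1) (fun _ => 0))
    (fun S => ind (Unsat S)) r
  have hr : ∀ s : ℝ, (fun e => rate j V 0 ρ e +
      s * (Sum.elim (fun _ => 1) (fun _ => 0) : Cl j V → ℝ) e) = rate j V s ρ := by
    intro s
    funext e
    cases e <;> simp [rate]
  simp only [hr] at h
  refine HasDerivAt.congr_deriv h ?_
  rw [Fintype.sum_sum_type]
  simp only [Sum.elim_inl, Sum.elim_inr, one_mul, zero_mul, Finset.sum_const_zero, add_zero]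
  unfold FzMom
  rw [← funext (sum_insert_inl (j := j) (V := V)), Ex_sum]
  apply Finset.sum_congr rfl
  intro e _
  rw [Ex_sub]

theorem hasDerivAt_Phi_right (j : ℕ) (V : Type) [Fintype V] (r ρ : ℝ) :
    HasDerivAt (fun ρ => Phi j V r ρ) (FzMom j V j r ρ) ρ := by
  classical
  have h := hasDerivAt_Ex (rate j V r 0) (Sum.elim (fun _ => 0) (fun _ => 1))
    (fun S => ind (Unsat S)) ρ
  have hr : ∀ s : ℝ, (fun e => rate j V r 0 e +
      s * (Sum.elim (fun _ => 0) (fun _ => 1) : Cl j V → ℝ) e) = rate j V r s := by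
    intro s
    funext e
    cases e <;> simp [rate]
  simp only [hr] at h
  refine HasDerivAt.congr_deriv h ?_
  rw [Fintype.sum_sum_type]
  simp only [Sum.elim_inl, Sum.elim_inr, one_mul, zero_mul, Finset.sum_const_zero, zero_add]
  unfold FzMom
  rw [← funext (sum_insert_inr (j := j) (V := V)), Ex_sum]
  apply Finset.sum_congr rfl
  intro e _
  rw [Ex_sub]

end Vale.Agent.P170
end
end

section

section

/-!
Elementary bounds on the unsatisfiability probability `U`.
-/

namespace Vale.Agent.P170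

open Finset

theorem rt_nonneg (j n : ℕ) {c : ℝ} (hc : 0 ≤ c) : 0 ≤ rt j n c := by
  unfold rt
  (clear * - hc; positivity)

theorem Phi_nonneg (j : ℕ) (V : Type) [Fintype V] {r ρ : ℝ} (hr : 0 ≤ r) (hρ : 0 ≤ ρ) :
    0 ≤ Phi j V r ρ :=
  Ex_nonneg (rate_nonneg hr hρ) fun _ => ind_nonneg _

theorem Phi_le_one (j : ℕ) (V : Type) [Fintype V] {r ρ : ℝ} (hr : 0 ≤ r) (hρ : 0 ≤ ρ) :
    Phi j V r ρ ≤ 1 := by
  have := Ex_mono (rate_nonneg (j := j) (V := V) hr hρ) (f := fun S => ind (Unsat S))
    (g := fun _ => 1) fun _ => ind_le_one _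
  rwa [Ex_const] at this

theorem U_nonneg (j n : ℕ) {c : ℝ} (hc : 0 ≤ c) : 0 ≤ U j n c :=
  Phi_nonneg j (Fin n) (rt_nonneg j n hc) le_rfl

theorem U_le_one (j n : ℕ) {c : ℝ} (hc : 0 ≤ c) : U j n c ≤ 1 :=
  Phi_le_one j (Fin n) (rt_nonneg j n hc) le_rfl

/-- monotonicity in the rate -/
theorem Ex_smul_rate_mono {E : Type*} [Fintype E] [DecidableEq E] {v : E → ℝ} (hv : ∀ e, 0 ≤ v e)
    {f : Finset E → ℝ} (hf : ∀ S e, f S ≤ f (insert e S)) :
    MonotoneOn (fun s : ℝ => Ex (fun e => s * v e) f) (Set.Ici 0) := by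
  have hd : ∀ s : ℝ, HasDerivAt (fun s : ℝ => Ex (fun e => s * v e) f)
      (∑ e, v e * (Ex (fun e => s * v e) (fun S => f (insert e S))
        - Ex (fun e => s * v e) f)) s := by
    intro s
    have h := hasDerivAt_Ex (fun _ : E => (0:ℝ)) v f s
    simpa only [zero_add] using h
  apply monotoneOn_of_deriv_nonneg (convex_Ici 0)
  · exact fun s _ => (hd s).continuousAt.continuousWithinAt
  · exact fun s _ => (hd s).differentiableAt.differentiableWithinAt
  · intro s hs
    rw [interior_Ici, Set.mem_Ioi] at hs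
    rw [(hd s).deriv]
    apply Finset.sum_nonneg
    intro e _
    apply mul_nonneg (hv e)
    rw [sub_nonneg]
    exact Ex_mono (fun e => mul_nonneg hs.le (hv e)) fun S => hf S e

theorem U_mono (j n : ℕ) {a b : ℝ} (ha : 0 ≤ a) (hab : a ≤ b) : U j n a ≤ U j n b := by
  classical
  have h := Ex_smul_rate_mono (E := Cl j (Fin n)) (v := rate j (Fin n) 1 0)
    (rate_nonneg zero_le_one le_rfl) (f := fun S => ind (Unsat S)) (by
      intro S e
      exact ind_mono fun h => UnsatOn.mono (fun _ h => h) (Finset.subset_insert e S) h)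
  have hrate : ∀ s : ℝ, (fun e : Cl j (Fin n) => s * rate j (Fin n) 1 0 e) =
      rate j (Fin n) s 0 := by
    intro s
    funext e
    cases e <;> simp [rate]
  simp only [hrate] at h
  have hb : 0 ≤ b := ha.trans hab
  refine h (rt_nonneg j n ha) (rt_nonneg j n hb) ?_
  unfold rt
  (clear * - hab; gcongr)

theorem one_sub_Phi (j : ℕ) (V : Type) [Fintype V] (r ρ : ℝ) :
    1 - Phi j V r ρ = Ex (rate j V r ρ) (fun S => ind (¬ Unsat S)) := by
  have h : (fun S : Finset (Cl j V) => ind (¬ Unsat S)) = fun S => 1 - ind (Unsat S) := by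
    funext S
    exact ind_not _
  rw [h, Ex_sub, Ex_one]
  rfl

/-- the number of `k`-tuples violated by an assignment -/
theorem card_viol (k : ℕ) (V : Type) [Fintype V] (a : V → Bool)
    [DecidablePred fun e : Tup k V => ∀ i, a (e i).1 ≠ (e i).2] :
    (Finset.univ.filter fun e : Tup k V => ∀ i, a (e i).1 ≠ (e i).2).card =
      Fintype.card V ^ k := by
  classical
  have h : (Finset.univ.filter fun e : Tup k V => ∀ i, a (e i).1 ≠ (e i).2) =
      Finset.univ.image (fun g : Fin k → V => (fun i => (g i, !a (g i)) : Tup k V)) := by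
    ext e
    simp only [Finset.mem_filter, Finset.mem_univ, true_and, Finset.mem_image]
    constructor
    · intro he
      refine ⟨fun i => (e i).1, ?_⟩
      funext i
      refine Prod.ext rfl ?_
      have := he i
      revert this
      cases a (e i).1 <;> cases (e i).2 <;> simp
    · rintro ⟨g, rfl⟩ i
      simp
  rw [h, Finset.card_image_of_injective]
  · simp only [card_univ, Fintype.card_pi, prod_const, Fintype.card_fin]
  · intro g g' hg
    funext i
    exact congrArg Prod.fst (congrFun hg i)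

theorem one_sub_U_le (j n : ℕ) (hn : 1 ≤ n) {c : ℝ} (hc : 0 ≤ c) :
    1 - U j n c ≤ 2 ^ n * Real.exp (-(c * n / 2 ^ (j + 1))) := by
  classical
  have hr : 0 ≤ rt j n c := rt_nonneg j n hc
  unfold U
  rw [one_sub_Phi]
  set r := rt j n c with hrdef
  let T : (Fin n → Bool) → Finset (Cl j (Fin n)) := fun a =>
    Finset.univ.filter fun e => ¬ Viol a e
  have h1 : ∀ S : Finset (Cl j (Fin n)), ind (¬ Unsat S) ≤ ∑ a, zeta (T a) S := by
    intro S
    by_cases hS : Unsat S
    · rw [ind_false (not_not.mpr hS)]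
      apply Finset.sum_nonneg
      intro a _
      unfold zeta
      split_ifs <;> norm_num
    · rw [ind_true hS]
      unfold Unsat UnsatOn at hS
      push Not at hS
      obtain ⟨a, _, ha⟩ := hS
      have h2 : zeta (T a) S = 1 := by
        unfold zeta
        rw [if_pos]
        intro e he
        simp only [T, Finset.mem_filter, Finset.mem_univ, true_and]
        exact ha e he
      rw [← h2]
      apply Finset.single_le_sum (f := fun a => zeta (T a) S) _ (Finset.mem_univ a)
      intro a _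
      unfold zeta
      split_ifs <;> norm_num
  have h3 : Ex (rate j (Fin n) r 0) (fun S => ind (¬ Unsat S)) ≤
      ∑ a, Ex (rate j (Fin n) r 0) (zeta (T a)) := by
    rw [← Ex_sum]
    exact Ex_mono (rate_nonneg hr le_rfl) h1
  refine h3.trans ?_
  have h4 : ∀ a : Fin n → Bool, Ex (rate j (Fin n) r 0) (zeta (T a)) =
      Real.exp (-(c * n / 2 ^ (j + 1))) := by
    intro a
    rw [Ex_zeta]
    congr 2
    have h5 : (T a)ᶜ = Finset.univ.filter fun e => Viol a e := by
      ext e
      simp only [compl_filter, Decidable.not_not, mem_filter, mem_univ, true_and, T]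
    rw [h5, Finset.sum_filter, Fintype.sum_sum_type]
    have h6 : ∑ x : Tup j (Fin n), (if Viol a (Sum.inr x : Cl j (Fin n)) then
        rate j (Fin n) r 0 (Sum.inr x) else 0) = 0 := by
      apply Finset.sum_eq_zero
      intro x _
      simp [rate]
    rw [h6, add_zero]
    have h7 : ∀ x : Tup (j + 1) (Fin n), (if Viol a (Sum.inl x : Cl j (Fin n)) then
        rate j (Fin n) r 0 (Sum.inl x) else 0) =
        if (∀ i, a (x i).1 ≠ (x i).2) then r else 0 := by
      intro x
      by_cases h : ∀ i, a (x i).1 ≠ (x i).2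
      · rw [if_pos h, if_pos (show Viol a (Sum.inl x : Cl j (Fin n)) from h)]
        rfl
      · rw [if_neg h, if_neg (show ¬ Viol a (Sum.inl x : Cl j (Fin n)) from h)]
    rw [Finset.sum_congr rfl fun x _ => h7 x, ← Finset.sum_filter, Finset.sum_const, card_viol,
      Fintype.card_fin, nsmul_eq_mul, hrdef]
    unfold rt
    have hn0 : (n : ℝ) ≠ 0 := by
      have : 0 < n := hn
      positivity
    push_cast
    rw [mul_pow]
    field_simp
  rw [Finset.sum_congr rfl fun a _ => h4 a, Finset.sum_const, Finset.card_univ, nsmul_eq_mul]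
  simp only [Fintype.card_pi, Fintype.card_bool, prod_const, card_univ, Fintype.card_fin, Nat.cast_pow, Nat.cast_ofNat, Std.le_refl]

theorem le_one_sub_U (j n : ℕ) {c : ℝ} (hc : 0 ≤ c) :
    Real.exp (-(c * n)) ≤ 1 - U j n c := by
  classical
  have hr : 0 ≤ rt j n c := rt_nonneg j n hc
  unfold U
  rw [one_sub_Phi]
  have h1 : ∀ S : Finset (Cl j (Fin n)), zeta ∅ S ≤ ind (¬ Unsat S) := by
    intro S
    unfold zeta
    split_ifs with h
    · rw [ind_true]
      intro hS
      obtain ⟨e, he, _⟩ := hS (fun _ => true) trivial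
      exact absurd (h he) (Finset.notMem_empty e)
    · exact ind_nonneg _
  refine le_trans (le_of_eq ?_) (Ex_mono (rate_nonneg hr le_rfl) h1)
  rw [Ex_zeta]
  congr 2
  rw [Finset.compl_empty, Fintype.sum_sum_type]
  simp only [rate, Sum.elim_inl, Sum.elim_inr, Finset.sum_const, smul_zero, add_zero,
    Finset.card_univ, nsmul_eq_mul]
  rw [Fintype.card_fun, Fintype.card_prod, Fintype.card_fin, Fintype.card_fin, Fintype.card_bool]
  unfold rt
  push_cast
  rcases Nat.eq_zero_or_pos n with rfl | hn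
  · simp only [CharP.cast_eq_zero, mul_zero, zero_mul, ne_eq, Nat.add_eq_zero_iff, one_ne_zero, and_false, not_false_eq_true, zero_pow, div_zero]
  · have hn0 : (n : ℝ) ≠ 0 := by positivity
    rw [mul_comm (n : ℝ) 2]
    field_simp

end Vale.Agent.P170
end
end

section

section

/-!
Invariance of the mixed model under renaming of variables and flipping of signs.
-/

namespace Vale.Agent.P170

open Finset

section General
variable {E E' : Type*} [Fintype E] [Fintype E']

/-- reindexing the product model along a bijection -/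
theorem Ex_map (g : E' ≃ E) (r' : E' → ℝ) (f : Finset E → ℝ) :
    Ex r' (fun S => f (S.map g.toEmbedding)) = Ex (fun e => r' (g.symm e)) f := by
  classical
  have h := Ex_push (fun e' => some (g e')) r' f
  have h1 : ∀ S : Finset E', push (fun e' => some (g e')) S = S.map g.toEmbedding := by
    intro S
    ext e
    simp only [mem_push, Option.some.injEq, Finset.mem_map, Equiv.coe_toEmbedding]
  simp only [h1] at h
  rw [h]
  congr 1
  funext e
  rw [Finset.sum_eq_single (g.symm e)]
  · intro b hb hne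
    simp only [Finset.mem_filter, Finset.mem_univ, true_and, Option.some.injEq] at hb
    exact absurd (by rw [← hb]; simp) hne
  · intro h
    simp only [Option.some.injEq, mem_filter, mem_univ, Equiv.apply_symm_apply, and_self, not_true_eq_false] at h

end General

section
variable {j : ℕ} {V W : Type}

/-- relabelling of literals -/
def litEquiv (σ : V ≃ W) (c : V → Bool) : Lit V ≃ Lit W where
  toFun l := (σ l.1, xor l.2 (c l.1))
  invFun l := (σ.symm l.1, xor l.2 (c (σ.symm l.1)))
  left_inv := by rintro ⟨v, b⟩; simp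
  right_inv := by rintro ⟨w, b⟩; simp

/-- relabelling of clauses -/
def clEquiv (j : ℕ) (σ : V ≃ W) (c : V → Bool) : Cl j V ≃ Cl j W :=
  Equiv.sumCongr (Equiv.arrowCongr (Equiv.refl _) (litEquiv σ c))
    (Equiv.arrowCongr (Equiv.refl _) (litEquiv σ c))

/-- pulled back assignment -/
def asg (σ : V ≃ W) (c : V → Bool) (a : W → Bool) : V → Bool := fun v => xor (a (σ v)) (c v)

theorem xor_ne_iff (x y z : Bool) : x ≠ xor y z ↔ xor x z ≠ y := by
  cases x <;> cases y <;> cases z <;> decide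

theorem Viol_clEquiv (σ : V ≃ W) (c : V → Bool) (a : W → Bool) (e : Cl j V) :
    Viol a (clEquiv j σ c e) ↔ Viol (asg σ c a) e := by
  cases e with
  | inl e =>
    show (∀ i, a (σ (e i).1) ≠ xor (e i).2 (c (e i).1)) ↔ ∀ i, xor (a (σ (e i).1)) (c (e i).1) ≠ (e i).2
    exact forall_congr' (fun i => xor_ne_iff _ _ _)
  | inr e =>
    show (∀ i, a (σ (e i).1) ≠ xor (e i).2 (c (e i).1)) ↔ ∀ i, xor (a (σ (e i).1)) (c (e i).1) ≠ (e i).2
    exact forall_congr' (fun i => xor_ne_iff _ _ _)

theorem Occ_clEquiv (σ : V ≃ W) (c : V → Bool) (x : V) (e : Cl j V) :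
    Occ (σ x) (clEquiv j σ c e) ↔ Occ x e := by
  cases e with
  | inl e =>
    show (∃ i, σ (e i).1 = σ x) ↔ ∃ i, (e i).1 = x
    exact exists_congr (fun i => σ.injective.eq_iff)
  | inr e =>
    show (∃ i, σ (e i).1 = σ x) ↔ ∃ i, (e i).1 = x
    exact exists_congr (fun i => σ.injective.eq_iff)

theorem asg_surj (σ : V ≃ W) (c : V → Bool) (a' : V → Bool) : ∃ a, asg σ c a = a' := by
  refine ⟨fun w => xor (a' (σ.symm w)) (c (σ.symm w)), ?_⟩
  funext v
  simp [asg]

theorem UnsatOn_map (σ : V ≃ W) (c : V → Bool) {B : (W → Bool) → Prop} {B' : (V → Bool) → Prop}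
    (h : ∀ a, B a ↔ B' (asg σ c a)) (S : Finset (Cl j V)) :
    UnsatOn B (S.map (clEquiv j σ c).toEmbedding) ↔ UnsatOn B' S := by
  constructor
  · intro hS a' ha'
    obtain ⟨a, rfl⟩ := asg_surj σ c a'
    obtain ⟨e, he, hv⟩ := hS a ((h a).mpr ha')
    obtain ⟨e', he', rfl⟩ := Finset.mem_map.mp he
    exact ⟨e', he', (Viol_clEquiv σ c a e').mp hv⟩
  · intro hS a ha
    obtain ⟨e', he', hv⟩ := hS _ ((h a).mp ha)
    exact ⟨_, Finset.mem_map_of_mem _ he', (Viol_clEquiv σ c a e').mpr hv⟩

theorem Unsat_map (σ : V ≃ W) (c : V → Bool) (S : Finset (Cl j V)) :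
    Unsat (S.map (clEquiv j σ c).toEmbedding) ↔ Unsat S :=
  UnsatOn_map (B := fun _ => True) (B' := fun _ => True) σ c (fun _ => Iff.rfl) S

theorem avoid_map (σ : V ≃ W) (c : V → Bool) (x : V) (S : Finset (Cl j V)) :
    avoid (σ x) (S.map (clEquiv j σ c).toEmbedding)
      = (avoid x S).map (clEquiv j σ c).toEmbedding := by
  ext e
  simp only [mem_avoid, Finset.mem_map]
  constructor
  · rintro ⟨⟨e', he', rfl⟩, hocc⟩
    exact ⟨e', ⟨he', fun h => hocc ((Occ_clEquiv σ c x e').mpr h)⟩, rfl⟩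
  · rintro ⟨e', ⟨he', hocc⟩, rfl⟩
    exact ⟨⟨e', he', rfl⟩, fun h => hocc ((Occ_clEquiv σ c x e').mp h)⟩

theorem rate_clEquiv (σ : V ≃ W) (c : V → Bool) (r ρ : ℝ) (e : Cl j W) :
    rate j V r ρ ((clEquiv j σ c).symm e) = rate j W r ρ e := by
  cases e with
  | inl e => rfl
  | inr e => rfl

/-- the event in the definition of `Eta` -/
def EtaEv (x : V) (b : Bool) (S : Finset (Cl j V)) : Prop :=
  ¬ Unsat (avoid x S) ∧ UnsatOn (fun a => a x = b) S

theorem EtaEv_map (σ : V ≃ W) (c : V → Bool) (x : V) (b b' : Bool) (hb : xor b' (c x) = b)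
    (S : Finset (Cl j V)) :
    EtaEv (σ x) b' (S.map (clEquiv j σ c).toEmbedding) ↔ EtaEv x b S := by
  unfold EtaEv
  rw [avoid_map, Unsat_map]
  apply and_congr Iff.rfl
  apply UnsatOn_map
  intro a
  show a (σ x) = b' ↔ xor (a (σ x)) (c x) = b
  rw [← hb]
  constructor
  · intro h; rw [h]
  · intro h
    have := congrArg (fun t => xor t (c x)) h
    simpa using this

variable [Fintype V] [Fintype W]

theorem Ex_rate_map (σ : V ≃ W) (c : V → Bool) (r ρ : ℝ) (f : Finset (Cl j W) → ℝ) :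
    Ex (rate j V r ρ) (fun S => f (S.map (clEquiv j σ c).toEmbedding))
      = Ex (rate j W r ρ) f := by
  rw [Ex_map]
  congr 1
  funext e
  exact rate_clEquiv σ c r ρ e

theorem Phi_congr (σ : V ≃ W) (r ρ : ℝ) : Phi j V r ρ = Phi j W r ρ := by
  unfold Phi
  rw [← Ex_rate_map σ (fun _ => false) r ρ]
  congr 1
  funext S
  exact ind_congr (Unsat_map σ _ S).symm

theorem Eta_congr (σ : V ≃ W) (x : V) (b b' : Bool) (r ρ : ℝ) :
    Eta j V x b r ρ = Eta j W (σ x) b' r ρ := by
  unfold Eta
  rw [← Ex_rate_map σ (fun _ => xor b b') r ρ]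
  congr 1
  funext S
  exact ind_congr (EtaEv_map σ (fun _ => xor b b') x b b' (by cases b <;> cases b' <;> rfl) S).symm

end

end Vale.Agent.P170
end
end

section

section

/-!
Counting tuples of literals in which a given variable occurs, and the union bound for the
probability that some bad tuple is present.
-/

namespace Vale.Agent.P170

open Finset

open Classical in
/-- tuples with prescribed variable `x` at all positions of `P` -/
theorem card_fixed (j : ℕ) (V : Type) [Fintype V] (x : V) (P : Finset (Fin j)) :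
    (Finset.univ.filter (fun e : Tup j V => ∀ p ∈ P, (e p).1 = x)).card
      = 2 ^ P.card * (2 * Fintype.card V) ^ (j - P.card) := by
  have h1 : (Finset.univ.filter (fun e : Tup j V => ∀ p ∈ P, (e p).1 = x))
      = Fintype.piFinset (fun i => if i ∈ P then
          (Finset.univ.filter (fun l : Lit V => l.1 = x)) else Finset.univ) := by
    ext e
    simp only [Finset.mem_filter, Finset.mem_univ, true_and, Fintype.mem_piFinset]
    constructor
    · intro h i
      by_cases hi : i ∈ P
      · simp only [hi, ↓reduceIte, mem_filter, mem_univ, h i hi, and_self]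
      · simp [hi]
    · intro h i hi
      have := h i
      simpa [hi] using this
  have h2 : (Finset.univ.filter (fun l : Lit V => l.1 = x)).card = 2 := by
    have : (Finset.univ.filter (fun l : Lit V => l.1 = x))
        = Finset.univ.image (fun b : Bool => ((x, b) : Lit V)) := by
      ext ⟨y, b⟩
      simp only [Finset.mem_filter, Finset.mem_univ, true_and, Finset.mem_image, Prod.mk.injEq]
      constructor
      · rintro rfl
        exact ⟨b, rfl, rfl⟩
      · rintro ⟨c, rfl, _⟩
        rfl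
    rw [this, Finset.card_image_of_injective]
    · simp
    · intro b c h
      exact (Prod.mk.inj h).2
  have h3 : (Finset.univ : Finset (Lit V)).card = 2 * Fintype.card V := by
    rw [Finset.card_univ, Fintype.card_prod, Fintype.card_bool, mul_comm]
  rw [h1, Fintype.card_piFinset]
  have h4 : ∀ i : Fin j, (if i ∈ P then
      (Finset.univ.filter (fun l : Lit V => l.1 = x)) else Finset.univ).card
      = if i ∈ P then 2 else 2 * Fintype.card V := by
    intro i
    split_ifs
    · exact h2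
    · exact h3
  rw [Finset.prod_congr rfl (fun i _ => h4 i), Finset.prod_ite, Finset.prod_const,
    Finset.prod_const]
  congr 2
  · congr 1
    ext i; simp only [subset_univ, filter_mem_eq_of_subset]
  · have h5 : (Finset.univ.filter (fun i => ¬ i ∈ P)) = Pᶜ := by
      ext i; simp only [mem_filter, mem_univ, true_and, mem_compl]
    rw [h5, Finset.card_compl, Fintype.card_fin]

open Classical in
theorem card_two_le (j : ℕ) (hj : 1 ≤ j) (V : Type) [Fintype V] (x : V) :
    (Finset.univ.filter (fun e : Tup (j + 1) V => ∃ p q, p ≠ q ∧ (e p).1 = x ∧ (e q).1 = x)).card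
      ≤ 2 * (j + 1) ^ 2 * (2 * Fintype.card V) ^ (j - 1) := by
  have h1 : (Finset.univ.filter
      (fun e : Tup (j + 1) V => ∃ p q, p ≠ q ∧ (e p).1 = x ∧ (e q).1 = x))
      ⊆ (Finset.powersetCard 2 (Finset.univ : Finset (Fin (j + 1)))).biUnion
        (fun P => Finset.univ.filter (fun e : Tup (j + 1) V => ∀ p ∈ P, (e p).1 = x)) := by
    intro e he
    rw [Finset.mem_filter] at he
    obtain ⟨_, p, q, hpq, hp, hq⟩ := he
    rw [Finset.mem_biUnion]
    refine ⟨{p, q}, ?_, ?_⟩
    · rw [Finset.mem_powersetCard]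
      exact ⟨Finset.subset_univ _, Finset.card_pair hpq⟩
    · rw [Finset.mem_filter]
      refine ⟨Finset.mem_univ _, ?_⟩
      intro i hi
      rw [Finset.mem_insert, Finset.mem_singleton] at hi
      rcases hi with rfl | rfl
      · exact hp
      · exact hq
  refine (Finset.card_le_card h1).trans (Finset.card_biUnion_le.trans ?_)
  have h2 : ∀ P ∈ Finset.powersetCard 2 (Finset.univ : Finset (Fin (j + 1))),
      (Finset.univ.filter (fun e : Tup (j + 1) V => ∀ p ∈ P, (e p).1 = x)).card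
        = 4 * (2 * Fintype.card V) ^ (j - 1) := by
    intro P hP
    rw [Finset.mem_powersetCard] at hP
    rw [card_fixed, hP.2]
    rfl
  rw [Finset.sum_congr rfl h2, Finset.sum_const, Finset.card_powersetCard, Finset.card_univ,
    Fintype.card_fin, smul_eq_mul, ← mul_assoc]
  apply Nat.mul_le_mul_right
  rw [Nat.choose_two_right, Nat.add_sub_cancel]
  have h3 := Nat.div_mul_le_self ((j + 1) * j) 2
  linarith

open Classical in
theorem card_one_le (j : ℕ) (hj : 1 ≤ j) (V : Type) [Fintype V] (x : V) :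
    (Finset.univ.filter (fun e : Tup j V => ∃ p, (e p).1 = x)).card
      ≤ 2 * j * (2 * Fintype.card V) ^ (j - 1) := by
  have h1 : (Finset.univ.filter (fun e : Tup j V => ∃ p, (e p).1 = x))
      ⊆ (Finset.univ : Finset (Fin j)).biUnion
        (fun q => Finset.univ.filter (fun e : Tup j V => ∀ p ∈ ({q} : Finset (Fin j)), (e p).1 = x)) := by
    intro e he
    rw [Finset.mem_filter] at he
    obtain ⟨_, p, hp⟩ := he
    rw [Finset.mem_biUnion]
    refine ⟨p, Finset.mem_univ _, ?_⟩
    rw [Finset.mem_filter]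
    refine ⟨Finset.mem_univ _, ?_⟩
    intro i hi
    rw [Finset.mem_singleton] at hi
    rw [hi]; exact hp
  refine (Finset.card_le_card h1).trans (Finset.card_biUnion_le.trans ?_)
  have h2 : ∀ q ∈ (Finset.univ : Finset (Fin j)),
      (Finset.univ.filter (fun e : Tup j V => ∀ p ∈ ({q} : Finset (Fin j)), (e p).1 = x)).card
        = 2 * (2 * Fintype.card V) ^ (j - 1) := by
    intro q _
    rw [card_fixed, Finset.card_singleton, pow_one]
  rw [Finset.sum_congr rfl h2, Finset.sum_const, Finset.card_univ, Fintype.card_fin, smul_eq_mul]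
  apply le_of_eq
  ring

/-- union bound: the probability that some element of `B` is present -/
theorem Ex_bad_le {E : Type*} [Fintype E] {r : E → ℝ} (hr : ∀ e, 0 ≤ r e) (B : Finset E) :
    Ex r (fun S => ind (∃ e ∈ S, e ∈ B)) ≤ ∑ e ∈ B, r e := by
  classical
  have h1 : (fun S : Finset E => ind (∃ e ∈ S, e ∈ B)) = fun S => 1 - zeta Bᶜ S := by
    funext S
    unfold zeta
    by_cases h : ∃ e ∈ S, e ∈ B
    · rw [ind_true h, if_neg]
      · ring
      · intro hS
        obtain ⟨e, he, heB⟩ := h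
        exact (Finset.mem_compl.mp (hS he)) heB
    · rw [ind_false h, if_pos]
      · ring
      · intro e he
        rw [Finset.mem_compl]
        intro heB
        exact h ⟨e, he, heB⟩
  rw [h1, Ex_sub, Ex_const, Ex_zeta, compl_compl]
  have := Real.add_one_le_exp (-∑ e ∈ B, r e)
  linarith only [this]

end Vale.Agent.P170
end
end

section

section

/-!
Fixing the value of one variable turns the mixed model on `n + 1` variables into the mixed
model on `n` variables, with more `j`-tuples.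
-/

namespace Vale.Agent.P170

open Finset

section OfRel
variable {E E' : Type*}

open Classical in
/-- the partial map of a functional relation -/
noncomputable def ofRel (R : E' → E → Prop) (e' : E') : Option E :=
  if h : ∃ e, R e' e then some h.choose else none

theorem ofRel_eq_some {R : E' → E → Prop} (hR : ∀ e' e₁ e₂, R e' e₁ → R e' e₂ → e₁ = e₂)
    {e' : E'} {e : E} : ofRel R e' = some e ↔ R e' e := by
  unfold ofRel
  constructor
  · intro h
    split_ifs at h with h1
    have h2 := h1.choose_spec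
    rw [Option.some.inj h] at h2
    exact h2
  · intro h
    have h1 : ∃ e, R e' e := ⟨e, h⟩
    rw [dif_pos h1, hR e' _ _ h1.choose_spec h]

end OfRel

/-- push-forward with explicit fibres -/
theorem Ex_push_rate {E E' : Type*} [Fintype E] [Fintype E'] (φ : E' → Option E) (r' : E' → ℝ)
    (r : E → ℝ)
    (h : ∀ e, ∃ F : Finset E', (∀ e', e' ∈ F ↔ φ e' = some e) ∧ ∑ e' ∈ F, r' e' = r e)
    (f : Finset E → ℝ) : Ex r' (fun S => f (push φ S)) = Ex r f := by
  rw [Ex_push]
  congr 1
  funext e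
  obtain ⟨F, hF, hs⟩ := h e
  rw [← hs]
  apply Finset.sum_congr _ (fun _ _ => rfl)
  ext e'
  rw [hF]
  simp only [mem_filter, mem_univ, true_and]

section
variable {W : Type} {j : ℕ}

/-- lift a tuple to one more variable -/
def lf {p : ℕ} (d : Tup p W) : Tup p (Option W) := fun i => (some (d i).1, (d i).2)

theorem lf_injective {p : ℕ} : Function.Injective (lf : Tup p W → Tup p (Option W)) := by
  intro d d' h
  funext i
  have h1 := congrFun h i
  simp only [lf, Prod.mk.injEq, Option.some.injEq] at h1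
  exact Prod.ext h1.1 h1.2

/-- lift a clause -/
def liftCl : Cl j W → Cl j (Option W) := Sum.map lf lf

theorem liftCl_injective : Function.Injective (liftCl : Cl j W → Cl j (Option W)) :=
  Sum.map_injective.mpr ⟨lf_injective, lf_injective⟩

/-- extend an assignment by `false` -/
def ext0 (a : W → Bool) : Option W → Bool := fun v => v.elim false a

theorem Viol_liftCl (a : Option W → Bool) (e : Cl j W) :
    Viol a (liftCl e) ↔ Viol (fun w => a (some w)) e := by
  cases e with
  | inl e => exact Iff.rfl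
  | inr e => exact Iff.rfl

theorem not_Occ_liftCl (e : Cl j W) : ¬ Occ none (liftCl e) := by
  cases e with
  | inl e => rintro ⟨i, hi⟩; simp [lf] at hi
  | inr e => rintro ⟨i, hi⟩; simp [lf] at hi

theorem exists_lf {p : ℕ} (t : Tup p (Option W)) (h : ∀ i, (t i).1 ≠ none) : ∃ d, t = lf d := by
  have h1 : ∀ i, ∃ w, (t i).1 = some w := fun i => Option.ne_none_iff_exists'.mp (h i)
  choose w hw using h1
  refine ⟨fun i => (w i, (t i).2), ?_⟩
  funext i
  exact Prod.ext (hw i) rfl

theorem exists_liftCl (e : Cl j (Option W)) (h : ¬ Occ none e) : ∃ e', e = liftCl e' := by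
  cases e with
  | inl t =>
    obtain ⟨d, hd⟩ := exists_lf t (fun i hi => h ⟨i, hi⟩)
    exact ⟨Sum.inl d, by rw [hd]; rfl⟩
  | inr t =>
    obtain ⟨d, hd⟩ := exists_lf t (fun i hi => h ⟨i, hi⟩)
    exact ⟨Sum.inr d, by rw [hd]; rfl⟩

/-- restriction relation -/
def Rel1 (e' : Cl j (Option W)) (e : Cl j W) : Prop := e' = liftCl e

/-- a `(j+1)`-tuple with the literal `(none, true)` inserted at place `p` -/
def ins (p : Fin (j + 1)) (d : Tup j W) : Tup (j + 1) (Option W) :=
  Fin.insertNth (α := fun _ => Lit (Option W)) p (none, true) (lf d)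

/-- reduction relation for the value `false` of `none` -/
def Rel2 (e' : Cl j (Option W)) (e : Cl j W) : Prop :=
  e' = liftCl e ∨ ∃ p d, e' = Sum.inl (ins p d) ∧ e = Sum.inr d

theorem ins_same (p : Fin (j + 1)) (d : Tup j W) : ins p d p = (none, true) :=
  Fin.insertNth_apply_same (α := fun _ => Lit (Option W)) p (none, true) (lf d)

theorem ins_succAbove (p : Fin (j + 1)) (d : Tup j W) (i : Fin j) :
    ins p d (p.succAbove i) = lf d i :=
  Fin.insertNth_apply_succAbove (α := fun _ => Lit (Option W)) p (none, true) (lf d) i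

theorem ins_ne {p q : Fin (j + 1)} (h : q ≠ p) (d : Tup j W) : (ins p d q).1 ≠ none := by
  obtain ⟨i, rfl⟩ := Fin.exists_succAbove_eq h
  rw [ins_succAbove]
  simp [lf]

theorem ins_inj {p p' : Fin (j + 1)} {d d' : Tup j W} (h : ins p d = ins p' d') :
    p = p' ∧ d = d' := by
  have h1 : p = p' := by
    by_contra hne
    have h2 := ins_ne hne d'
    rw [← h, ins_same] at h2
    exact h2 rfl
  subst h1
  refine ⟨rfl, lf_injective ?_⟩
  funext i
  rw [← ins_succAbove p d i, ← ins_succAbove p d' i, h]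

theorem ins_ne_lf (p : Fin (j + 1)) (d : Tup j W) (t : Tup (j + 1) W) : ins p d ≠ lf t := by
  intro h
  have h1 := congrFun h p
  rw [ins_same] at h1
  simp [lf] at h1

theorem Rel1_func : ∀ (e' : Cl j (Option W)) e₁ e₂, Rel1 e' e₁ → Rel1 e' e₂ → e₁ = e₂ := by
  intro e' e₁ e₂ h₁ h₂
  unfold Rel1 at h₁ h₂
  rw [h₁] at h₂
  exact liftCl_injective h₂

theorem Rel2_func : ∀ (e' : Cl j (Option W)) e₁ e₂, Rel2 e' e₁ → Rel2 e' e₂ → e₁ = e₂ := by
  intro e' e₁ e₂ h₁ h₂
  rcases h₁ with h₁ | ⟨p, d, h₁, h₁'⟩ <;> rcases h₂ with h₂ | ⟨p', d', h₂, h₂'⟩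
  · rw [h₁] at h₂
    exact liftCl_injective h₂
  · rw [h₁] at h₂
    exfalso
    cases e₁ with
    | inl t =>
      have : lf t = ins p' d' := Sum.inl.inj h₂
      exact ins_ne_lf p' d' t this.symm
    | inr t => exact absurd h₂ (by simp [liftCl])
  · rw [h₂] at h₁
    exfalso
    cases e₂ with
    | inl t =>
      have : lf t = ins p d := Sum.inl.inj h₁
      exact ins_ne_lf p d t this.symm
    | inr t => exact absurd h₁ (by simp [liftCl])
  · rw [h₁] at h₂
    have := ins_inj (Sum.inl.inj h₂)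
    rw [h₁', h₂', this.2]

variable [Fintype W]

theorem mem_push1 {S : Finset (Cl j (Option W))} {e : Cl j W} :
    e ∈ push (ofRel Rel1) S ↔ liftCl e ∈ S := by
  rw [mem_push]
  constructor
  · rintro ⟨e', he', h⟩
    rw [ofRel_eq_some Rel1_func] at h
    rw [← h]; exact he'
  · intro h
    exact ⟨_, h, (ofRel_eq_some Rel1_func).mpr rfl⟩

theorem mem_push2 {S : Finset (Cl j (Option W))} {e : Cl j W} :
    e ∈ push (ofRel Rel2) S ↔ ∃ e' ∈ S, Rel2 e' e := by
  rw [mem_push]
  constructor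
  · rintro ⟨e', he', h⟩
    exact ⟨e', he', (ofRel_eq_some Rel2_func).mp h⟩
  · rintro ⟨e', he', h⟩
    exact ⟨e', he', (ofRel_eq_some Rel2_func).mpr h⟩

theorem Unsat_avoid_iff (S : Finset (Cl j (Option W))) :
    Unsat (avoid none S) ↔ Unsat (push (ofRel Rel1) S) := by
  constructor
  · intro h a _
    obtain ⟨e, he, hv⟩ := h (ext0 a) trivial
    rw [mem_avoid] at he
    obtain ⟨e', rfl⟩ := exists_liftCl e he.2
    exact ⟨e', mem_push1.mpr he.1, (Viol_liftCl _ _).mp hv⟩
  · intro h a _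
    obtain ⟨e, he, hv⟩ := h (fun w => a (some w)) trivial
    rw [mem_push1] at he
    exact ⟨liftCl e, mem_avoid.mpr ⟨he, not_Occ_liftCl e⟩, (Viol_liftCl _ _).mpr hv⟩

theorem push1_subset (S : Finset (Cl j (Option W))) :
    push (ofRel Rel1) S ⊆ push (ofRel Rel2) S := by
  intro e he
  rw [mem_push1] at he
  exact mem_push2.mpr ⟨_, he, Or.inl rfl⟩

/-- clauses that do not reduce well -/
def BadCl : Cl j (Option W) → Prop
  | Sum.inl t => ∃ p q, p ≠ q ∧ (t p).1 = none ∧ (t q).1 = none
  | Sum.inr t => ∃ p, (t p).1 = none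

theorem Unsat_push2 {S : Finset (Cl j (Option W))} (h : UnsatOn (fun a => a none = false) S)
    (hbad : ∀ e ∈ S, ¬ BadCl e) : Unsat (push (ofRel Rel2) S) := by
  intro a _
  obtain ⟨e, he, hv⟩ := h (ext0 a) rfl
  by_cases hocc : Occ none e
  · cases e with
    | inl t =>
      obtain ⟨p, hp⟩ := hocc
      have hp2 : (t p).2 = true := by
        have := hv p
        rw [hp] at this
        cases h2 : (t p).2 with
        | true => rfl
        | false => rw [h2] at this; exact absurd rfl this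
      have hq : ∀ q, q ≠ p → (t q).1 ≠ none := by
        intro q hqp hq
        exact hbad _ he ⟨q, p, hqp, hq, hp⟩
      obtain ⟨d, hd⟩ := exists_lf (fun i => t (p.succAbove i))
        (fun i => hq _ (Fin.succAbove_ne p i))
      have ht : t = ins p d := by
        funext q
        by_cases hqp : q = p
        · rw [hqp, ins_same]
          exact Prod.ext hp hp2
        · obtain ⟨i, rfl⟩ := Fin.exists_succAbove_eq hqp
          rw [ins_succAbove]
          exact congrFun hd i
      refine ⟨Sum.inr d, mem_push2.mpr ⟨_, he, Or.inr ⟨p, d, by rw [ht], rfl⟩⟩, ?_⟩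
      intro i
      have h3 := hv (p.succAbove i)
      rw [ht, ins_succAbove] at h3
      exact h3
    | inr t =>
      exact absurd hocc (hbad _ he)
  · obtain ⟨e', rfl⟩ := exists_liftCl e hocc
    exact ⟨e', mem_push2.mpr ⟨_, he, Or.inl rfl⟩, (Viol_liftCl _ _).mp hv⟩

theorem Ex_push1 (r ρ : ℝ) (f : Finset (Cl j W) → ℝ) :
    Ex (rate j (Option W) r ρ) (fun S => f (push (ofRel Rel1) S)) = Ex (rate j W r ρ) f := by
  classical
  apply Ex_push_rate
  intro e
  refine ⟨{liftCl e}, ?_, ?_⟩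
  · intro e'
    rw [Finset.mem_singleton, ofRel_eq_some Rel1_func]
    exact Iff.rfl
  · rw [Finset.sum_singleton]
    cases e with
    | inl e => rfl
    | inr e => rfl

theorem Ex_push2 (r ρ : ℝ) (f : Finset (Cl j W) → ℝ) :
    Ex (rate j (Option W) r ρ) (fun S => f (push (ofRel Rel2) S))
      = Ex (rate j W r (ρ + (j + 1) * r)) f := by
  classical
  apply Ex_push_rate
  intro e
  cases e with
  | inl t =>
    refine ⟨{Sum.inl (lf t)}, ?_, ?_⟩
    · intro e'
      rw [Finset.mem_singleton, ofRel_eq_some Rel2_func]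
      constructor
      · intro h
        exact Or.inl h
      · rintro (h | ⟨p, d, _, h⟩)
        · exact h
        · simp at h
    · rw [Finset.sum_singleton]
      rfl
  | inr d =>
    refine ⟨insert (Sum.inr (lf d)) (Finset.univ.image (fun p : Fin (j + 1) =>
            (Sum.inl (ins p d) : Cl j (Option W)))), ?_, ?_⟩
    · intro e'
      simp only [Finset.mem_univ, true_and, Finset.mem_insert,
        Finset.mem_image, ofRel_eq_some Rel2_func, Rel2]
      constructor
      · rintro (h | ⟨p, h⟩)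
        · exact Or.inl h
        · exact Or.inr ⟨p, d, h.symm, rfl⟩
      · rintro (h | ⟨p, d', h, h'⟩)
        · exact Or.inl h
        · rw [Sum.inr.inj h']
          exact Or.inr ⟨p, h.symm⟩
    · rw [Finset.sum_insert (by simp), Finset.sum_image]
      · simp only [rate, Sum.elim_inr, Sum.elim_inl, sum_const, card_univ, Fintype.card_fin, nsmul_eq_mul, Nat.cast_add, Nat.cast_one]
      · intro p _ p' _ h
        exact (ins_inj (Sum.inl.inj h)).1

open Classical in
theorem Eta_le_aux (r ρ : ℝ) (hr : 0 ≤ r) (hρ : 0 ≤ ρ) :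
    Eta j (Option W) none false r ρ ≤ Phi j W r (ρ + (j + 1) * r) - Phi j W r ρ
      + Ex (rate j (Option W) r ρ) (fun S => ind (∃ e ∈ S, BadCl e)) := by
  unfold Eta Phi
  rw [← Ex_push1 r ρ (fun S => ind (Unsat S)), ← Ex_push2 r ρ (fun S => ind (Unsat S)),
    ← Ex_sub, ← Ex_add]
  apply Ex_mono (fun e => rate_nonneg hr hρ e)
  intro S
  by_cases hbad : ∃ e ∈ S, BadCl e
  · rw [ind_true hbad]
    have h1 : ind (Unsat (push (ofRel Rel1) S)) ≤ ind (Unsat (push (ofRel Rel2) S)) :=
      ind_mono (fun h => UnsatOn.mono (fun _ h => h) (push1_subset S) h)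
    have h2 := ind_le_one (¬ Unsat (avoid none S) ∧ UnsatOn (fun a => a none = false) S)
    linarith
  · rw [ind_false hbad]
    by_cases hev : ¬ Unsat (avoid none S) ∧ UnsatOn (fun a => a none = false) S
    · have h1 : Unsat (push (ofRel Rel2) S) := by
        apply Unsat_push2 hev.2
        intro e he hb
        exact hbad ⟨e, he, hb⟩
      have h2 : ¬ Unsat (push (ofRel Rel1) S) := fun h => hev.1 ((Unsat_avoid_iff S).mpr h)
      rw [ind_true hev, ind_true h1, ind_false h2]
      norm_num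
    · rw [ind_false hev]
      have h1 : ind (Unsat (push (ofRel Rel1) S)) ≤ ind (Unsat (push (ofRel Rel2) S)) :=
        ind_mono (fun h => UnsatOn.mono (fun _ h => h) (push1_subset S) h)
      linarith only [h1]

end

theorem bad_le (j n : ℕ) (hj : 1 ≤ j) {r ρ : ℝ} (hr : 0 ≤ r) (hρ : 0 ≤ ρ) :
    Ex (rate j (Option (Fin n)) r ρ) (fun S => ind (∃ e ∈ S, BadCl e))
      ≤ r * (2 * (j + 1) ^ 2 * (2 * (n + 1)) ^ (j - 1)) + ρ * (2 * j * (2 * (n + 1)) ^ (j - 1)) := by
  classical
  let B : Finset (Cl j (Option (Fin n))) := Finset.univ.filter BadCl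
  have h1 : (fun S : Finset (Cl j (Option (Fin n))) => ind (∃ e ∈ S, BadCl e))
      = fun S => ind (∃ e ∈ S, e ∈ B) := by
    funext S
    apply ind_congr
    simp only [Sum.exists, mem_filter, mem_univ, true_and, B]
  rw [h1]
  refine le_trans (Ex_bad_le (fun e => rate_nonneg hr hρ e) B) ?_
  have h2 : ∑ e ∈ B, rate j (Option (Fin n)) r ρ e
      = r * ((Finset.univ.filter (fun t : Tup (j + 1) (Option (Fin n)) =>
          ∃ p q, p ≠ q ∧ (t p).1 = none ∧ (t q).1 = none)).card : ℝ)
        + ρ * ((Finset.univ.filter (fun t : Tup j (Option (Fin n)) =>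
          ∃ p, (t p).1 = none)).card : ℝ) := by
    rw [Finset.sum_filter, Fintype.sum_sum_type]
    congr 1
    · rw [Finset.card_filter]
      push_cast
      rw [Finset.mul_sum]
      apply Finset.sum_congr rfl
      intro t _
      show (if BadCl (Sum.inl t) then r else 0) = _
      by_cases h : ∃ p q, p ≠ q ∧ (t p).1 = none ∧ (t q).1 = none
      · have h' : BadCl (Sum.inl t : Cl j (Option (Fin n))) := h
        rw [if_pos h', if_pos h, mul_one]
      · have h' : ¬ BadCl (Sum.inl t : Cl j (Option (Fin n))) := h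
        rw [if_neg h', if_neg h, mul_zero]
    · rw [Finset.card_filter]
      push_cast
      rw [Finset.mul_sum]
      apply Finset.sum_congr rfl
      intro t _
      show (if BadCl (Sum.inr t) then ρ else 0) = _
      by_cases h : ∃ p, (t p).1 = none
      · have h' : BadCl (Sum.inr t : Cl j (Option (Fin n))) := h
        rw [if_pos h', if_pos h, mul_one]
      · have h' : ¬ BadCl (Sum.inr t : Cl j (Option (Fin n))) := h
        rw [if_neg h', if_neg h, mul_zero]
  rw [h2]
  have h3 := card_two_le j hj (Option (Fin n)) none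
  have h4 := card_one_le j hj (Option (Fin n)) none
  have hcard : Fintype.card (Option (Fin n)) = n + 1 := by simp only [Fintype.card_option, Fintype.card_fin, Nat.add_left_cancel_iff]
  rw [hcard] at h3 h4
  have h5 : ((Finset.univ.filter (fun t : Tup (j + 1) (Option (Fin n)) =>
          ∃ p q, p ≠ q ∧ (t p).1 = none ∧ (t q).1 = none)).card : ℝ)
      ≤ 2 * (j + 1) ^ 2 * (2 * (n + 1)) ^ (j - 1) := by
    refine le_trans (Nat.cast_le.mpr (le_of_eq_of_le ?_ h3)) ?_
    · congr
    · push_cast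
      exact le_refl _
  have h6 : ((Finset.univ.filter (fun t : Tup j (Option (Fin n)) =>
          ∃ p, (t p).1 = none)).card : ℝ) ≤ 2 * j * (2 * (n + 1)) ^ (j - 1) := by
    refine le_trans (Nat.cast_le.mpr (le_of_eq_of_le ?_ h4)) ?_
    · congr
    · push_cast
      exact le_refl _
  exact add_le_add (mul_le_mul_of_nonneg_left h5 hr) (mul_le_mul_of_nonneg_left h6 hρ)

theorem Eta_le_reduce (j n : ℕ) (hj : 1 ≤ j) {r ρ : ℝ} (hr : 0 ≤ r) (hρ : 0 ≤ ρ)
    (x : Fin (n + 1)) (b : Bool) :
    Eta j (Fin (n + 1)) x b r ρ ≤ Phi j (Fin n) r (ρ + (j + 1) * r) - Phi j (Fin n) r ρ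
      + r * (2 * (j + 1) ^ 2 * (2 * (n + 1)) ^ (j - 1)) + ρ * (2 * j * (2 * (n + 1)) ^ (j - 1)) := by
  have h1 : Eta j (Fin (n + 1)) x b r ρ = Eta j (Option (Fin n)) none false r ρ := by
    rw [Eta_congr (finSuccEquiv' x) x b false r ρ, finSuccEquiv'_at]
  rw [h1]
  have h2 := Eta_le_aux (j := j) (W := Fin n) r ρ hr hρ
  have h3 := bad_le j n hj hr hρ
  linarith only [h2, h3]

end Vale.Agent.P170
end
end

section

section

/-!
Vertex exposure: `P(unsat) * P(sat)` is at most `sqrt (N / 2)` times the probability that a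
given literal is frozen although the clauses avoiding its variable are satisfiable.
-/

namespace Vale.Agent.P170

open Finset

section General
variable {E : Type*} [DecidableEq E]

theorem map_mix {A S S' : Finset E} (g : E ≃ E) (hg : ∀ e ∈ A, g e = e) :
    (mix A S S').map g.toEmbedding = mix A S (S'.map g.toEmbedding) := by
  ext e
  simp only [Finset.mem_map, mem_mix, Equiv.coe_toEmbedding]
  constructor
  · rintro ⟨e', (⟨hA, hS⟩ | ⟨hA, hS⟩), rfl⟩
    · rw [hg e' hA]
      exact Or.inl ⟨hA, hS⟩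
    · refine Or.inr ⟨fun h => hA ?_, e', hS, rfl⟩
      have h1 := hg _ h
      have h2 := g.injective h1
      rw [← h2]
      exact h
  · rintro (⟨hA, hS⟩ | ⟨hA, e', hS, rfl⟩)
    · exact ⟨e, Or.inl ⟨hA, hS⟩, hg e hA⟩
    · refine ⟨e', Or.inr ⟨fun h => hA ?_, hS⟩, rfl⟩
      rw [hg e' h]
      exact h

end General

theorem num_step {g H b b' : ℝ} (hH : 0 ≤ H) (hb : 0 ≤ b)
    (hbb : b ^ 2 = b' ^ 2 + 1 / 2) (h1 : g * (1 - g) ≤ b' * H + H ^ 2) : g * (1 - g) ≤ b * H := by
  by_cases h : H ≤ b - b'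
  · nlinarith only [h1, hH, h]
  · have h2 : b - b' < H := not_le.mp h
    have h3 : g * (1 - g) ≤ 1 / 4 := by nlinarith only [sq_nonneg (g - 1 / 2)]
    have h4 : 1 / 4 ≤ b * (b - b') := by nlinarith only [hbb]
    have h5 : b * (b - b') ≤ b * H := mul_le_mul_of_nonneg_left h2.le hb
    linarith only [h3, h4, h5]

open Classical in
/-- clauses all of whose variables have index `< i` -/
noncomputable def low (j N i : ℕ) : Finset (Cl j (Fin N)) :=
  univ.filter (fun e => ∀ x, Occ x e → x.val < i)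

theorem mem_low {j N i : ℕ} {e : Cl j (Fin N)} :
    e ∈ low j N i ↔ ∀ x, Occ x e → x.val < i := by
  simp only [low, mem_filter, mem_univ, true_and]

theorem low_mono {j N i i' : ℕ} (h : i ≤ i') : low j N i ⊆ low j N i' := by
  intro e he
  rw [mem_low] at he ⊢
  intro x hx
  exact lt_of_lt_of_le (he x hx) h

theorem clEquiv_low {j n i : ℕ} (σ : Fin (n + 1) ≃ Fin (n + 1)) (c : Fin (n + 1) → Bool)
    (hσ : ∀ x : Fin (n + 1), x.val < i → σ x = x) (hc : ∀ x : Fin (n + 1), x.val < i → c x = false)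
    (e : Cl j (Fin (n + 1))) (he : e ∈ low j (n + 1) i) : clEquiv j σ c e = e := by
  rw [mem_low] at he
  cases e with
  | inl e =>
    show Sum.inl (fun i => (σ (e i).1, xor (e i).2 (c (e i).1))) = Sum.inl e
    congr 1
    funext i
    have h1 := he (e i).1 ⟨i, rfl⟩
    rw [hσ _ h1, hc _ h1]
    simp
  | inr e =>
    show Sum.inr (fun i => (σ (e i).1, xor (e i).2 (c (e i).1))) = Sum.inr e
    congr 1
    funext i
    have h1 := he (e i).1 ⟨i, rfl⟩
    rw [hσ _ h1, hc _ h1]
    simp

theorem CE_symm {j n i : ℕ} (r ρ : ℝ) (y : Fin (n + 1)) (hy : i ≤ y.val) (b : Bool)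
    (S : Finset (Cl j (Fin (n + 1)))) :
    CE (rate j (Fin (n + 1)) r ρ) (low j (n + 1) i) (fun S => ind (EtaEv y b S)) S
      = CE (rate j (Fin (n + 1)) r ρ) (low j (n + 1) i)
          (fun S => ind (EtaEv (Fin.last n) false S)) S := by
  let σ : Fin (n + 1) ≃ Fin (n + 1) := Equiv.swap y (Fin.last n)
  let c : Fin (n + 1) → Bool := fun v => if v = y then b else false
  have hyn : y.val ≤ n := Nat.lt_succ_iff.mp y.isLt
  have hσ : ∀ x : Fin (n + 1), x.val < i → σ x = x := by
    intro x hx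
    apply Equiv.swap_apply_of_ne_of_ne
    · intro h; rw [h] at hx; omega
    · intro h; rw [h] at hx; simp at hx; omega
  have hc : ∀ x : Fin (n + 1), x.val < i → c x = false := by
    intro x hx
    have : x ≠ y := by intro h; rw [h] at hx; omega
    simp [c, this]
  have hev : ∀ T : Finset (Cl j (Fin (n + 1))), ind (EtaEv y b T)
      = ind (EtaEv (Fin.last n) false (T.map (clEquiv j σ c).toEmbedding)) := by
    intro T
    apply ind_congr
    have h1 : σ y = Fin.last n := Equiv.swap_apply_left y (Fin.last n)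
    have h2 := EtaEv_map (j := j) σ c y b false (by simp [c]) T
    rw [h1] at h2
    exact h2.symm
  unfold CE
  have h1 : (fun S' => ind (EtaEv y b (mix (low j (n + 1) i) S S')))
      = fun S' => (fun T => ind (EtaEv (Fin.last n) false (mix (low j (n + 1) i) S T)))
          (S'.map (clEquiv j σ c).toEmbedding) := by
    funext S'
    rw [hev, map_mix _ (fun e he => clEquiv_low σ c hσ hc e he)]
  rw [h1]
  exact Ex_rate_map σ c r ρ (fun T => ind (EtaEv (Fin.last n) false (mix (low j (n + 1) i) S T)))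

theorem exposure_step (j n i : ℕ) {r ρ : ℝ} (hr : 0 ≤ r) (hρ : 0 ≤ ρ) (hi : i ≤ n)
    (S : Finset (Cl j (Fin (n + 1)))) :
    CE (rate j (Fin (n + 1)) r ρ) (low j (n + 1) i) (fun S => ind (Unsat S)) S
      * (1 - CE (rate j (Fin (n + 1)) r ρ) (low j (n + 1) i) (fun S => ind (Unsat S)) S)
    ≤ CE (rate j (Fin (n + 1)) r ρ) (low j (n + 1) i)
        (fun S => CE (rate j (Fin (n + 1)) r ρ) (low j (n + 1) (i + 1)) (fun S => ind (Unsat S)) S
      * (1 - CE (rate j (Fin (n + 1)) r ρ) (low j (n + 1) (i + 1)) (fun S => ind (Unsat S)) S)) S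
      + (CE (rate j (Fin (n + 1)) r ρ) (low j (n + 1) i)
          (fun S => ind (EtaEv (Fin.last n) false S)) S) ^ 2 := by
  classical
  set R := rate j (Fin (n + 1)) r ρ with hRdef
  have hR : ∀ e, 0 ≤ R e := fun e => rate_nonneg hr hρ e
  set A := low j (n + 1) i with hA
  set A' := low j (n + 1) (i + 1) with hA'
  have hAA' : A ⊆ A' := low_mono (Nat.le_succ i)
  have hAiA' : A ∩ A' = A := Finset.inter_eq_left.mpr hAA'
  let y : Fin (n + 1) := ⟨i, Nat.lt_succ_of_le hi⟩
  set star := A' \ A with hstar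
  let f : Finset (Cl j (Fin (n + 1))) → ℝ := fun S => ind (Unsat S)
  let f0 : Finset (Cl j (Fin (n + 1))) → ℝ := fun S => ind (Unsat (S ∩ starᶜ))
  let X : Bool → Finset (Cl j (Fin (n + 1))) → ℝ :=
    fun b S => ind (¬ Unsat (S ∩ starᶜ) ∧ UnsatOn (fun a => a y = b) S)
  let K : Bool → Finset (Cl j (Fin (n + 1))) :=
    fun b => univ.filter (fun e => e ∈ star ∧ ∀ a : Fin (n + 1) → Bool, a y = b → ¬ Viol a e)
  have hf0 : DepOn f0 starᶜ := by
    intro S S' h
    show ind (Unsat (S ∩ starᶜ)) = ind (Unsat (S' ∩ starᶜ))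
    rw [h]
  have hstarOcc : ∀ e ∈ star, Occ y e := by
    intro e he
    rw [hstar, Finset.mem_sdiff, hA, hA', mem_low, mem_low] at he
    obtain ⟨h1, h2⟩ := he
    push Not at h2
    obtain ⟨x, hx, hxi⟩ := h2
    have h3 := h1 x hx
    have h4 : x = y := by
      apply Fin.ext
      show x.val = i
      omega
    rw [← h4]
    exact hx
  have hstarK : ∀ e ∈ star, e ∈ K true ∨ e ∈ K false := by
    intro e he
    have hocc := hstarOcc e he
    have key : ∃ b : Bool, ∀ a : Fin (n + 1) → Bool, a y = b → ¬ Viol a e := by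
      cases e with
      | inl e =>
        obtain ⟨p, hp⟩ := hocc
        refine ⟨(e p).2, fun a ha hv => hv p ?_⟩
        rw [hp]; exact ha
      | inr e =>
        obtain ⟨p, hp⟩ := hocc
        refine ⟨(e p).2, fun a ha hv => hv p ?_⟩
        rw [hp]; exact ha
    obtain ⟨b, hb⟩ := key
    cases b
    · right; simp only [K, Finset.mem_filter, Finset.mem_univ, true_and]; exact ⟨he, hb⟩
    · left; simp only [K, Finset.mem_filter, Finset.mem_univ, true_and]; exact ⟨he, hb⟩
  have hKstar : ∀ b, K b ⊆ star := by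
    intro b e he
    simp only [K, Finset.mem_filter, Finset.mem_univ, true_and] at he
    exact he.1
  have hX : ∀ b, DepOn (X b) (K b)ᶜ := by
    intro b S S' h
    have h1 : S ∩ starᶜ = S' ∩ starᶜ := by
      ext e
      have h2 := Finset.ext_iff.mp h e
      simp only [Finset.mem_inter, Finset.mem_compl] at h2 ⊢
      constructor
      · rintro ⟨h3, h4⟩
        exact ⟨(h2.mp ⟨h3, fun h5 => h4 (hKstar b h5)⟩).1, h4⟩
      · rintro ⟨h3, h4⟩
        exact ⟨(h2.mpr ⟨h3, fun h5 => h4 (hKstar b h5)⟩).1, h4⟩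
    have h2 : ∀ T : Finset (Cl j (Fin (n + 1))), UnsatOn (fun a => a y = b) T ↔
        UnsatOn (fun a => a y = b) (T ∩ (K b)ᶜ) := by
      intro T
      constructor
      · intro hT a ha
        obtain ⟨e, he, hv⟩ := hT a ha
        refine ⟨e, ?_, hv⟩
        rw [Finset.mem_inter, Finset.mem_compl]
        refine ⟨he, fun h3 => ?_⟩
        simp only [K, Finset.mem_filter, Finset.mem_univ, true_and] at h3
        exact h3.2 a ha hv
      · intro hT
        exact UnsatOn.mono (fun _ h => h) Finset.inter_subset_left hT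
    show ind (¬ Unsat (S ∩ starᶜ) ∧ UnsatOn (fun a => a y = b) S)
      = ind (¬ Unsat (S' ∩ starᶜ) ∧ UnsatOn (fun a => a y = b) S')
    apply ind_congr
    rw [h1, h2 S, h2 S', h]
  have hm : CE R A' f0 = CE R A f0 := by
    rw [CE_inter_of_depOn R A' hf0, CE_inter_of_depOn R A hf0]
    congr 1
    ext e
    simp only [hstar, Finset.mem_inter, Finset.mem_compl, Finset.mem_sdiff]
    constructor
    · rintro ⟨h1, h2⟩
      have h3 : e ∈ A := by
        by_contra h4
        exact h2 ⟨h1, h4⟩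
      exact ⟨h3, h2⟩
    · rintro ⟨h1, h2⟩
      exact ⟨hAA' h1, h2⟩
  set g := CE R A f with hg
  set g' := CE R A' f with hg'
  set m := CE R A f0 with hmdef
  let d : Bool → Finset (Cl j (Fin (n + 1))) → ℝ := fun b => CE R A' (X b)
  have h1 : ∀ S, m S ≤ g' S := by
    intro S
    rw [← hm]
    apply CE_mono hR
    intro T
    exact ind_mono (fun h => UnsatOn.mono (fun _ h => h) Finset.inter_subset_left h)
  have h2 : ∀ b S, g' S - m S ≤ d b S := by
    intro b S
    have h3 : g' S - m S = CE R A' (fun T => f T - f0 T) S := by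
      rw [CE_sub, hm]
    rw [h3]
    apply CE_mono hR
    intro T
    show ind (Unsat T) - ind (Unsat (T ∩ starᶜ))
      ≤ ind (¬ Unsat (T ∩ starᶜ) ∧ UnsatOn (fun a => a y = b) T)
    by_cases hT : Unsat T
    · by_cases hT0 : Unsat (T ∩ starᶜ)
      · rw [ind_true hT, ind_true hT0]
        have := ind_nonneg (¬ Unsat (T ∩ starᶜ) ∧ UnsatOn (fun a => a y = b) T)
        linarith only [this]
      · have h4 : UnsatOn (fun a => a y = b) T :=
          UnsatOn.mono (fun _ _ => trivial) (Finset.Subset.refl T) hT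
        rw [ind_true hT, ind_false hT0, ind_true ⟨hT0, h4⟩]
        norm_num
    · rw [ind_false hT]
      have h5 := ind_nonneg (Unsat (T ∩ starᶜ))
      have h6 := ind_nonneg (¬ Unsat (T ∩ starᶜ) ∧ UnsatOn (fun a => a y = b) T)
      linarith only [h5, h6]
  have h3 : CE R A g' = g := by
    rw [hg', CE_CE, hAiA', hg]
  have hmdep : DepOn m A := CE_depOn R A f0
  have hddep : ∀ b, DepOn (d b) (A' ∩ (K b)ᶜ) := by
    intro b
    show DepOn (CE R A' (X b)) (A' ∩ (K b)ᶜ)
    rw [CE_inter_of_depOn R A' (hX b)]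
    exact CE_depOn R _ _
  have hdd : ∀ S, CE R A (fun S => d true S * d false S) S
      = CE R A (X true) S * CE R A (X false) S := by
    intro S
    have h4 := CE_mul_of_indep R (A := A) (hddep true) (hddep false) (by
      intro e he
      simp only [Finset.mem_inter, Finset.mem_compl] at he
      by_contra h5
      have h6 : e ∈ star := by
        rw [hstar, Finset.mem_sdiff]
        exact ⟨he.1.1, h5⟩
      rcases hstarK e h6 with h7 | h7
      · exact he.1.2 h7
      · exact he.2.2 h7)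
    rw [h4]
    show CE R A (CE R A' (X true)) S * CE R A (CE R A' (X false)) S = _
    rw [CE_CE, CE_CE, hAiA']
  set H := CE R A (fun S => ind (EtaEv (Fin.last n) false S)) with hH
  have hXH : ∀ b S, CE R A (X b) S ≤ H S := by
    intro b S
    rw [hH, ← CE_symm r ρ y (le_refl i) b S]
    apply CE_mono hR
    intro T
    apply ind_mono
    rintro ⟨h4, h5⟩
    refine ⟨fun h6 => h4 ?_, h5⟩
    refine UnsatOn.mono (fun _ h => h) ?_ h6
    intro e he
    rw [mem_avoid] at he
    rw [Finset.mem_inter, Finset.mem_compl]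
    exact ⟨he.1, fun h7 => he.2 (hstarOcc e h7)⟩
  have hX0 : ∀ b S, 0 ≤ CE R A (X b) S := by
    intro b S
    exact Ex_nonneg hR (fun _ => ind_nonneg _)
  have h4 : CE R A (fun S => (g' S - m S) ^ 2) S ≤ (H S) ^ 2 := by
    calc CE R A (fun S => (g' S - m S) ^ 2) S
        ≤ CE R A (fun S => d true S * d false S) S := by
          apply CE_mono hR
          intro T
          have h5 := h2 true T
          have h6 := h2 false T
          have h7 := h1 T
          have h8 : 0 ≤ g' T - m T := by linarith only [h7]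
          calc (g' T - m T) ^ 2 = (g' T - m T) * (g' T - m T) := by ring
            _ ≤ d true T * d false T := mul_le_mul h5 h6 h8 (le_trans h8 h5)
      _ = CE R A (X true) S * CE R A (X false) S := hdd S
      _ ≤ H S * H S := mul_le_mul (hXH true S) (hXH false S) (hX0 false S)
          (le_trans (hX0 true S) (hXH true S))
      _ = (H S) ^ 2 := by ring
  have h5 : CE R A (fun S => (g' S) ^ 2) S
      = CE R A (fun S => (g' S - m S) ^ 2) S + 2 * (m S * g S) - m S * m S := by
    have h6 : (fun S => (g' S) ^ 2)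
        = fun S => ((g' S - m S) ^ 2 + 2 * (m S * g' S)) - m S * m S := by
      funext T
      ring
    rw [h6, CE_sub, CE_add, CE_smul, CE_mul_of_depOn R hmdep g', CE_mul_of_depOn R hmdep m,
      h3, CE_of_depOn R hmdep]
  have h6 : CE R A (fun S => g' S * (1 - g' S)) S = g S - CE R A (fun S => (g' S) ^ 2) S := by
    have h7 : (fun S => g' S * (1 - g' S)) = fun S => g' S - (g' S) ^ 2 := by
      funext T
      ring
    rw [h7, CE_sub, h3]
  show g S * (1 - g S) ≤ CE R A (fun S => g' S * (1 - g' S)) S + (H S) ^ 2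
  rw [h6, h5]
  nlinarith only [h4, sq_nonneg (g S - m S)]

theorem exposure_aux (j n : ℕ) {r ρ : ℝ} (hr : 0 ≤ r) (hρ : 0 ≤ ρ) (t : ℕ) (ht : t ≤ n + 1)
    (S : Finset (Cl j (Fin (n + 1)))) :
    CE (rate j (Fin (n + 1)) r ρ) (low j (n + 1) (n + 1 - t)) (fun S => ind (Unsat S)) S
      * (1 - CE (rate j (Fin (n + 1)) r ρ) (low j (n + 1) (n + 1 - t)) (fun S => ind (Unsat S)) S)
    ≤ Real.sqrt (t / 2) * CE (rate j (Fin (n + 1)) r ρ) (low j (n + 1) (n + 1 - t))
        (fun S => ind (EtaEv (Fin.last n) false S)) S := by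
  classical
  have hR : ∀ e, 0 ≤ rate j (Fin (n + 1)) r ρ e := fun e => rate_nonneg hr hρ e
  induction t generalizing S with
  | zero =>
    have h1 : low j (n + 1) (n + 1 - 0) = univ := by
      ext e
      simp only [mem_low, Finset.mem_univ, iff_true]
      intro x _
      exact x.isLt
    have h2 : CE (rate j (Fin (n + 1)) r ρ) (low j (n + 1) (n + 1 - 0))
        (fun S => ind (Unsat S)) = fun S => ind (Unsat S) := by
      apply CE_of_depOn
      intro T T' hT
      rw [h1, Finset.inter_univ, Finset.inter_univ] at hT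
      rw [hT]
    rw [h2]
    have h3 : 0 ≤ CE (rate j (Fin (n + 1)) r ρ) (low j (n + 1) (n + 1 - 0))
        (fun S => ind (EtaEv (Fin.last n) false S)) S := Ex_nonneg hR (fun _ => ind_nonneg _)
    have h4 : ind (Unsat S) * (1 - ind (Unsat S)) = 0 := by
      by_cases h : Unsat S
      · rw [ind_true h]; ring
      · rw [ind_false h]; ring
    show ind (Unsat S) * (1 - ind (Unsat S)) ≤ _
    rw [h4]
    exact mul_nonneg (Real.sqrt_nonneg _) h3
  | succ t ih =>
    have hi : n + 1 - (t + 1) ≤ n := by omega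
    have hi' : n + 1 - (t + 1) + 1 = n + 1 - t := by omega
    have hstep := exposure_step j n (n + 1 - (t + 1)) hr hρ hi S
    rw [hi'] at hstep
    have hH0 : 0 ≤ CE (rate j (Fin (n + 1)) r ρ) (low j (n + 1) (n + 1 - (t + 1)))
        (fun S => ind (EtaEv (Fin.last n) false S)) S := Ex_nonneg hR (fun _ => ind_nonneg _)
    have h1 : CE (rate j (Fin (n + 1)) r ρ) (low j (n + 1) (n + 1 - (t + 1)))
        (fun S => CE (rate j (Fin (n + 1)) r ρ) (low j (n + 1) (n + 1 - t)) (fun S => ind (Unsat S)) S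
      * (1 - CE (rate j (Fin (n + 1)) r ρ) (low j (n + 1) (n + 1 - t)) (fun S => ind (Unsat S)) S)) S
      ≤ Real.sqrt (t / 2) * CE (rate j (Fin (n + 1)) r ρ) (low j (n + 1) (n + 1 - (t + 1)))
        (fun S => ind (EtaEv (Fin.last n) false S)) S := by
      have h2 := CE_mono hR (low j (n + 1) (n + 1 - (t + 1))) (fun T => ih (by omega) T) S
      refine le_trans h2 (le_of_eq ?_)
      have h3 := congrFun (CE_smul (rate j (Fin (n + 1)) r ρ) (low j (n + 1) (n + 1 - (t + 1)))
        (Real.sqrt (t / 2)) (CE (rate j (Fin (n + 1)) r ρ) (low j (n + 1) (n + 1 - t))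
        (fun S => ind (EtaEv (Fin.last n) false S)))) S
      rw [h3, CE_CE]
      congr 2
      rw [Finset.inter_eq_left.mpr (low_mono (by omega))]
    have h5 : (Real.sqrt ((t + 1 : ℕ) / 2)) ^ 2 = (Real.sqrt (t / 2)) ^ 2 + 1 / 2 := by
      rw [Real.sq_sqrt (by positivity), Real.sq_sqrt (by (clear * -; positivity))]
      push_cast
      ring
    exact num_step hH0 (Real.sqrt_nonneg _) h5 (by linarith only [hstep, h1])

theorem exposure (j n : ℕ) (hj : 1 ≤ j) {r ρ : ℝ} (hr : 0 ≤ r) (hρ : 0 ≤ ρ) :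
    Phi j (Fin (n + 1)) r ρ * (1 - Phi j (Fin (n + 1)) r ρ)
      ≤ Real.sqrt ((n + 1) / 2) * Eta j (Fin (n + 1)) (Fin.last n) false r ρ := by
  classical
  have h := exposure_aux j n hr hρ (n + 1) (le_refl _) ∅
  have h0 : low j (n + 1) (n + 1 - (n + 1)) = ∅ := by
    rw [Finset.eq_empty_iff_forall_notMem]
    intro e he
    rw [mem_low] at he
    cases e with
    | inl e =>
      have := he (e ⟨0, Nat.succ_pos j⟩).1 ⟨_, rfl⟩
      omega
    | inr e =>
      have := he (e ⟨0, hj⟩).1 ⟨_, rfl⟩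
      omega
  rw [h0] at h
  rw [CE_empty, CE_empty] at h
  have h1 : ((n + 1 : ℕ) : ℝ) = (n : ℝ) + 1 := by push_cast; ring
  rw [h1] at h
  exact h

end Vale.Agent.P170
end
end

section

section

/-!
# The recursion on the number of variables and the window bound
-/

namespace Vale.Agent.P170

open Finset MeasureTheory

section
variable {j : ℕ} {V : Type} [Fintype V]

theorem FzMom_nonneg (p : ℕ) {r ρ : ℝ} (hr : 0 ≤ r) (hρ : 0 ≤ ρ) : 0 ≤ FzMom j V p r ρ :=
  Ex_nonneg (rate_nonneg hr hρ) fun _ => mul_nonneg (ind_nonneg _) (by positivity)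

theorem Eta_nonneg (x : V) (b : Bool) {r ρ : ℝ} (hr : 0 ≤ r) (hρ : 0 ≤ ρ) :
    0 ≤ Eta j V x b r ρ :=
  Ex_nonneg (rate_nonneg hr hρ) fun _ => ind_nonneg _

theorem Eta_le_one (x : V) (b : Bool) {r ρ : ℝ} (hr : 0 ≤ r) (hρ : 0 ≤ ρ) :
    Eta j V x b r ρ ≤ 1 := by
  have h := Ex_mono (rate_nonneg hr hρ) (f := fun S : Finset (Cl j V) =>
    ind (¬ Unsat (avoid x S) ∧ UnsatOn (fun a => a x = b) S)) (g := fun _ => 1)
    fun _ => ind_le_one _
  rw [Ex_const] at h
  exact h

theorem card_Fz_le (S : Finset (Cl j V)) : ((Fz S).card : ℝ) ≤ 2 * Fintype.card V := by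
  have h := Finset.card_le_univ (Fz S)
  rw [Fintype.card_prod, Fintype.card_bool] at h
  have h2 : (((Fz S).card : ℕ) : ℝ) ≤ ((Fintype.card V * 2 : ℕ) : ℝ) := by exact_mod_cast h
  push_cast at h2
  linarith only [h2]

/-- First moment of the number of frozen literals is at most the sum of the `Eta`. -/
theorem FzMom_one_le_sum {r ρ : ℝ} (hr : 0 ≤ r) (hρ : 0 ≤ ρ) :
    FzMom j V 1 r ρ ≤ ∑ l : Lit V, Eta j V l.1 l.2 r ρ := by
  classical
  unfold FzMom Eta
  rw [← Ex_sum]
  refine Ex_mono (rate_nonneg hr hρ) fun S => ?_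
  have h1 : ((Fz S).card : ℝ) = ∑ l : Lit V, ind (UnsatOn (fun a => a l.1 = l.2) S) := by
    rw [Fz, Finset.card_filter]
    push_cast
    refine Finset.sum_congr rfl fun l _ => ?_
    unfold ind
    congr
  rw [pow_one, h1, Finset.mul_sum]
  refine Finset.sum_le_sum fun l _ => ?_
  rw [← ind_and]
  refine ind_mono fun h => ⟨fun hu => h.1 ?_, h.2⟩
  refine UnsatOn.mono (fun _ h => h) ?_ hu
  exact fun e he => (mem_avoid.1 he).1

theorem pow_interp {j : ℕ} (hj : 2 ≤ j) {ε : ℝ} (hε : 0 < ε) {y : ℝ} (hy : 0 ≤ y)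
    (hy1 : y ≤ 1) : y ^ j ≤ ε * y + ε⁻¹ * y ^ (j + 1) := by
  obtain ⟨i, rfl⟩ : ∃ i, j = i + 1 := ⟨j - 1, by omega⟩
  have hi : 1 ≤ i := by omega
  by_cases h : y ^ i ≤ ε
  · have h1 : y ^ (i + 1) ≤ ε * y := by
      rw [pow_succ]
      exact mul_le_mul_of_nonneg_right h hy
    have h2 : 0 ≤ ε⁻¹ * y ^ (i + 1 + 1) := by positivity
    linarith only [h1, h2]
  · push Not at h
    have h1 : ε ≤ y := by
      have : y ^ i ≤ y ^ 1 := pow_le_pow_of_le_one hy hy1 hi
      rw [pow_one] at this
      linarith only [h, this]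
    have h2 : ε * y ^ (i + 1) ≤ y ^ (i + 1 + 1) := by
      rw [pow_succ y (i + 1), mul_comm]
      exact mul_le_mul_of_nonneg_left h1 (by positivity)
    have h3 : y ^ (i + 1) ≤ ε⁻¹ * y ^ (i + 1 + 1) := by
      rw [le_inv_mul_iff₀ hε]
      exact h2
    have h4 : 0 ≤ ε * y := by positivity
    linarith only [h3, h4]

theorem FzMom_interp (hj : 2 ≤ j) {ε : ℝ} (hε : 0 < ε) {m : ℝ}
    (hm : 2 * Fintype.card V = m) (hm0 : 0 < m) {r ρ : ℝ} (hr : 0 ≤ r) (hρ : 0 ≤ ρ) :
    FzMom j V j r ρ ≤ (ε * m ^ (j - 1)) * FzMom j V 1 r ρ + (ε⁻¹ * m⁻¹) * FzMom j V (j + 1) r ρ := by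
  unfold FzMom
  rw [← Ex_smul, ← Ex_smul, ← Ex_add]
  refine Ex_mono (rate_nonneg hr hρ) fun S => ?_
  set x : ℝ := ((Fz S).card : ℝ) with hx
  have hx0 : 0 ≤ x := by (clear * -; positivity)
  have hxm : x ≤ m := by rw [← hm]; exact card_Fz_le S
  have h := pow_interp hj hε (y := x / m) (by (clear * - hm0; positivity)) (div_le_one_of_le₀ hxm hm0.le)
  have hmj : 0 < m ^ j := by positivity
  have h2 := mul_le_mul_of_nonneg_left h hmj.le
  have e1 : m ^ j * (x / m) ^ j = x ^ j := by
    rw [div_pow]; field_simp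
  have e2 : m ^ j * (ε * (x / m) + ε⁻¹ * (x / m) ^ (j + 1))
      = ε * m ^ (j - 1) * x ^ 1 + ε⁻¹ * m⁻¹ * x ^ (j + 1) := by
    obtain ⟨i, rfl⟩ : ∃ i, j = i + 1 := ⟨j - 1, by omega⟩
    simp only [Nat.add_sub_cancel, div_pow]
    have h0 : m ≠ 0 := hm0.ne'
    field_simp
    ring
  rw [e1, e2] at h2
  have h3 := mul_le_mul_of_nonneg_left h2 (ind_nonneg (¬ Unsat S))
  calc ind (¬ Unsat S) * x ^ j ≤ _ := h3
    _ = _ := by ring

attribute [local irreducible] Phi FzMom Eta in
/-- The integral of the top moment is at most one. -/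
theorem integral_FzMom_top_le (j : ℕ) (V : Type) [Fintype V] {R ρ : ℝ} (hR : 0 ≤ R) (hρ : 0 ≤ ρ) :
    ∫ r in (0:ℝ)..R, FzMom j V (j + 1) r ρ ≤ 1 := by
  have hc : Continuous fun r => FzMom j V (j + 1) r ρ :=
    (continuous_FzMom j V (j + 1)).comp (by fun_prop : Continuous fun r : ℝ => (r, ρ))
  have hd : ∀ r ∈ Set.uIcc (0:ℝ) R, HasDerivAt (fun r => Phi j V r ρ) (FzMom j V (j + 1) r ρ) r :=
    fun r _ => hasDerivAt_Phi_left j V r ρ
  have h := intervalIntegral.integral_eq_sub_of_hasDerivAt (f := fun r => Phi j V r ρ)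
    (f' := fun r => FzMom j V (j + 1) r ρ) hd (hc.intervalIntegrable _ _)
  rw [h]
  have h1 := Phi_le_one j V hR hρ
  have h2 := Phi_nonneg j V le_rfl hρ
  linarith

attribute [local irreducible] Phi FzMom Eta in
theorem Phi_sub_eq (j : ℕ) (V : Type) [Fintype V] (r ρ ρ' : ℝ) :
    Phi j V r ρ' - Phi j V r ρ = ∫ u in ρ..ρ', FzMom j V j r u := by
  have hc : Continuous fun u => FzMom j V j r u :=
    (continuous_FzMom j V j).comp (by fun_prop : Continuous fun u : ℝ => (r, u))
  have hd : ∀ u ∈ Set.uIcc ρ ρ', HasDerivAt (fun u => Phi j V r u) (FzMom j V j r u) u :=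
    fun u _ => hasDerivAt_Phi_right j V r u
  exact (intervalIntegral.integral_eq_sub_of_hasDerivAt (f := fun u => Phi j V r u)
    (f' := fun u => FzMom j V j r u) hd (hc.intervalIntegrable _ _)).symm

end

theorem FzMom_one_le_Eta (j n : ℕ) {r ρ : ℝ} (hr : 0 ≤ r) (hρ : 0 ≤ ρ) :
    FzMom j (Fin (n + 1)) 1 r ρ
      ≤ (2 * ((n + 1 : ℕ) : ℝ)) * Eta j (Fin (n + 1)) (Fin.last n) false r ρ := by
  refine (FzMom_one_le_sum hr hρ).trans (le_of_eq ?_)
  have h : ∀ l : Lit (Fin (n + 1)), Eta j (Fin (n + 1)) l.1 l.2 r ρ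
      = Eta j (Fin (n + 1)) (Fin.last n) false r ρ := by
    intro l
    rw [Eta_congr (Equiv.swap l.1 (Fin.last n)) l.1 l.2 false, Equiv.swap_apply_left]
  rw [Finset.sum_congr rfl fun l _ => h l, Finset.sum_const, Finset.card_univ, Fintype.card_prod,
    Fintype.card_fin, Fintype.card_bool, nsmul_eq_mul]
  push_cast
  ring

/-- The integral part of one step of the recursion, for abstract functions. -/
theorem rec_int {j : ℕ} {y : ℝ} (hj : 1 ≤ j) (hy0 : 0 < y) {A B c1 c2 ε R R' : ℝ}
    (hB0 : 0 ≤ B) (hc10 : 0 ≤ c1) (hε0 : 0 < ε) (hR0 : 0 < R) (hRR' : R ≤ R')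
    (Et Ph M1 Mj Mt : ℝ → ℝ → ℝ)
    (cE : Continuous fun z : ℝ × ℝ => Et z.1 z.2)
    (cM1 : Continuous fun z : ℝ × ℝ => M1 z.1 z.2)
    (cMj : Continuous fun z : ℝ × ℝ => Mj z.1 z.2)
    (cMt : Continuous fun z : ℝ × ℝ => Mt z.1 z.2)
    (pM1 : ∀ r u, 0 ≤ r → 0 ≤ u → 0 ≤ M1 r u)
    (pMj : ∀ r u, 0 ≤ r → 0 ≤ u → 0 ≤ Mj r u)
    (pMt : ∀ r u, 0 ≤ r → 0 ≤ u → 0 ≤ Mt r u)
    (hder : ∀ r ρ ρ', Ph r ρ' - Ph r ρ = ∫ u in ρ..ρ', Mj r u)
    (hint : ∀ ε, 0 < ε → ∀ r u, 0 ≤ r → 0 ≤ u →
      Mj r u ≤ (ε * y ^ (j - 1)) * M1 r u + (ε⁻¹ * y⁻¹) * Mt r u)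
    (htop : ∀ u, 0 ≤ u → (∫ r in (0:ℝ)..R', Mt r u) ≤ 1)
    (hred : ∀ r ρ, 0 ≤ r → 0 ≤ ρ → Et r ρ ≤ Ph r (ρ + (j + 1) * r) - Ph r ρ
      + r * c1 + ρ * c2)
    (ih : ∀ ρ : ℝ, 0 ≤ ρ → (y ^ j * ∫ r in (0:ℝ)..R', M1 r ρ) ≤ A + B * (y ^ j * ρ))
    {ρ : ℝ} (hρ : 0 ≤ ρ) :
    ∫ r in (0:ℝ)..R, Et r ρ ≤
      ((j + 1) * R) * (y⁻¹ * (ε * (A + B * (y ^ j * (ρ + (j + 1) * R))) + ε⁻¹))
        + R * (R * c1 + ρ * c2) := by
  set δ : ℝ := (j + 1) * R with hδ
  have hδ0 : 0 < δ := by rw [hδ]; positivity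
  set F : ℝ → ℝ → ℝ := fun r u => (ε * y ^ (j - 1)) * M1 r u + (ε⁻¹ * y⁻¹) * Mt r u with hF
  have cF : Continuous (fun z : ℝ × ℝ => F z.1 z.2) := by
    simp only [hF]
    exact (continuous_const.mul cM1).add (continuous_const.mul cMt)
  have hF0 : ∀ r u, 0 ≤ r → 0 ≤ u → 0 ≤ F r u := by
    intro r u hr hu
    have h1 := pM1 r u hr hu
    have h2 := pMt r u hr hu
    simp only [hF]
    (clear * - hε0 hy0 h1 h2; positivity)
  -- pointwise bound
  have hpt : ∀ r, 0 ≤ r → r ≤ R → Et r ρ ≤ (∫ u in ρ..(ρ + δ), F r u) + (R * c1 + ρ * c2) := by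
    intro r hr hrR
    have h1 := hred r ρ hr hρ
    rw [hder] at h1
    have hjr0 : (0:ℝ) ≤ (j + 1) * r := by (clear * - hj hr; positivity)
    have hjrδ : (j + 1) * r ≤ δ := by
      rw [hδ]; exact mul_le_mul_of_nonneg_left hrR (by positivity)
    have cj : Continuous fun u => Mj r u :=
      cMj.comp (by fun_prop : Continuous fun u : ℝ => (r, u))
    have cFr : Continuous fun u => F r u := cF.comp (by fun_prop : Continuous fun u : ℝ => (r, u))
    have h2 : ∫ u in ρ..(ρ + (j + 1) * r), Mj r u ≤ ∫ u in ρ..(ρ + δ), Mj r u := by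
      refine intervalIntegral.integral_mono_interval le_rfl (by linarith only [hjr0]) (by linarith only [hjrδ]) ?_
        (cj.intervalIntegrable _ _)
      refine (ae_restrict_iff' measurableSet_Ioc).2 (Filter.Eventually.of_forall fun u hu => ?_)
      exact pMj r u hr (hρ.trans hu.1.le)
    have h3 : ∫ u in ρ..(ρ + δ), Mj r u ≤ ∫ u in ρ..(ρ + δ), F r u := by
      refine intervalIntegral.integral_mono_on (by linarith only [hδ0]) (cj.intervalIntegrable _ _)
        (cFr.intervalIntegrable _ _) fun u hu => ?_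
      exact hint ε hε0 r u hr (hρ.trans hu.1)
    have h4 : r * c1 ≤ R * c1 := mul_le_mul_of_nonneg_right hrR hc10
    linarith only [h1, h2, h3, h4]
  -- integrate
  have cEta : Continuous fun r => Et r ρ :=
    cE.comp (by fun_prop : Continuous fun r : ℝ => (r, ρ))
  have cInt : Continuous fun r => ∫ u in ρ..(ρ + δ), F r u :=
    intervalIntegral.continuous_parametric_intervalIntegral_of_continuous' cF _ _
  have hI1 : ∫ r in (0:ℝ)..R, Et r ρ
      ≤ ∫ r in (0:ℝ)..R, ((∫ u in ρ..(ρ + δ), F r u) + (R * c1 + ρ * c2)) := by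
    refine intervalIntegral.integral_mono_on hR0.le (cEta.intervalIntegrable _ _)
      ((cInt.add continuous_const).intervalIntegrable _ _) fun r hr => hpt r hr.1 hr.2
  have hI2 : ∫ r in (0:ℝ)..R, ((∫ u in ρ..(ρ + δ), F r u) + (R * c1 + ρ * c2))
      = (∫ u in ρ..(ρ + δ), ∫ r in (0:ℝ)..R, F r u) + R * (R * c1 + ρ * c2) := by
    rw [intervalIntegral.integral_add (cInt.intervalIntegrable _ _) (by simp),
      intervalIntegral.integral_const, smul_eq_mul, sub_zero]
    congr 1
    apply MeasureTheory.intervalIntegral_intervalIntegral_swap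
    refine (Continuous.integrableOn_Icc cF (a := (min 0 R, min ρ (ρ + δ)))
      (b := (max 0 R, max ρ (ρ + δ)))).mono_set ?_
    intro z hz
    simp only [Set.mem_prod, Set.uIoc, Set.mem_Ioc] at hz
    simp only [Set.mem_Icc, Prod.le_def]
    exact ⟨⟨hz.1.1.le, hz.2.1.le⟩, ⟨hz.1.2, hz.2.2⟩⟩
  -- bound of the inner integral
  have hin : ∀ u, ρ ≤ u → u ≤ ρ + δ → ∫ r in (0:ℝ)..R, F r u
      ≤ y⁻¹ * (ε * (A + B * (y ^ j * (ρ + δ))) + ε⁻¹) := by
    intro u hu hu2
    have hu0 : 0 ≤ u := hρ.trans hu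
    have cFu : Continuous fun r => F r u := cF.comp (by fun_prop : Continuous fun r : ℝ => (r, u))
    have h1 : ∫ r in (0:ℝ)..R, F r u ≤ ∫ r in (0:ℝ)..R', F r u := by
      refine intervalIntegral.integral_mono_interval le_rfl hR0.le hRR' ?_
        (cFu.intervalIntegrable _ _)
      refine (ae_restrict_iff' measurableSet_Ioc).2 (Filter.Eventually.of_forall fun r hr => ?_)
      exact hF0 r u hr.1.le hu0
    have c1' : Continuous fun r => M1 r u :=
      cM1.comp (by fun_prop : Continuous fun r : ℝ => (r, u))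
    have c2' : Continuous fun r => Mt r u :=
      cMt.comp (by fun_prop : Continuous fun r : ℝ => (r, u))
    have i1 : IntervalIntegrable (fun r => (ε * y ^ (j - 1)) * M1 r u) volume 0 R' :=
      (continuous_const.mul c1').intervalIntegrable _ _
    have i2 : IntervalIntegrable (fun r => (ε⁻¹ * y⁻¹) * Mt r u) volume 0 R' :=
      (continuous_const.mul c2').intervalIntegrable _ _
    have h2 : ∫ r in (0:ℝ)..R', F r u = (ε * y ^ (j - 1)) * (∫ r in (0:ℝ)..R', M1 r u)
        + (ε⁻¹ * y⁻¹) * ∫ r in (0:ℝ)..R', Mt r u := by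
      simp only [hF]
      rw [intervalIntegral.integral_add i1 i2,
        intervalIntegral.integral_const_mul, intervalIntegral.integral_const_mul]
    have h3 := ih u hu0
    have h4 := htop u hu0
    have h5 : y ^ (j - 1) = y⁻¹ * y ^ j := by
      obtain ⟨i, rfl⟩ : ∃ i, j = i + 1 := ⟨j - 1, by omega⟩
      simp only [Nat.add_sub_cancel]
      rw [pow_succ]
      field_simp
    have h6 : A + B * (y ^ j * u) ≤ A + B * (y ^ j * (ρ + δ)) := by (clear * - hu2 hy0 hB0; gcongr)
    rw [h2] at h1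
    refine h1.trans ?_
    rw [h5]
    have h7 : ε * (y⁻¹ * y ^ j) * (∫ r in (0:ℝ)..R', M1 r u)
        = y⁻¹ * (ε * (y ^ j * ∫ r in (0:ℝ)..R', M1 r u)) := by ring
    have h8 : ε⁻¹ * y⁻¹ * (∫ r in (0:ℝ)..R', Mt r u)
        = y⁻¹ * (ε⁻¹ * ∫ r in (0:ℝ)..R', Mt r u) := by ring
    rw [h7, h8, ← mul_add]
    refine mul_le_mul_of_nonneg_left ?_ (by positivity)
    have h9 := mul_le_mul_of_nonneg_left (h3.trans h6) hε0.le
    have h10 := mul_le_mul_of_nonneg_left h4 (inv_nonneg.2 hε0.le)
    rw [mul_one] at h10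
    exact add_le_add h9 h10
  have cIn2 : Continuous fun u => ∫ r in (0:ℝ)..R, F r u := by
    have cF' : Continuous (fun z : ℝ × ℝ => F z.2 z.1) :=
      cF.comp (by fun_prop : Continuous fun z : ℝ × ℝ => (z.2, z.1))
    exact intervalIntegral.continuous_parametric_intervalIntegral_of_continuous' cF' _ _
  have hI3 : (∫ u in ρ..(ρ + δ), ∫ r in (0:ℝ)..R, F r u)
      ≤ δ * (y⁻¹ * (ε * (A + B * (y ^ j * (ρ + δ))) + ε⁻¹)) := by
    have := intervalIntegral.integral_mono_on (a := ρ) (b := ρ + δ) (by linarith only [hδ0])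
      (cIn2.intervalIntegrable _ _)
      (by simp : IntervalIntegrable (fun _ : ℝ =>
        y⁻¹ * (ε * (A + B * (y ^ j * (ρ + δ))) + ε⁻¹)) volume ρ (ρ + δ))
      (fun u hu => hin u hu.1 hu.2)
    rw [intervalIntegral.integral_const, smul_eq_mul, add_sub_cancel_left] at this
    exact this
  rw [hI2] at hI1
  exact hI1.trans (add_le_add hI3 le_rfl)

/-- The algebra of one step of the recursion. -/
theorem rec_alg {j : ℕ} (hj : 2 ≤ j) {C₀ : ℝ} (hC : 1 ≤ C₀) {x y : ℝ} (hy2 : 2 ≤ y)
    (hx' : x = y + 2) {A B : ℝ} (hB : B = 2 * ((j + 1) * C₀)) (hA : A = 6 * ((j + 1) * C₀) ^ 2)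
    {R ε : ℝ} (hRe : R = (C₀ / 2) / x ^ j) (hε : ε = (2 * ((j + 1) * C₀))⁻¹)
    {ρ : ℝ} (hρ : 0 ≤ ρ) :
    x ^ (j + 1) * (((j + 1) * R) * (y⁻¹ * (ε * (A + B * (y ^ j * (ρ + (j + 1) * R))) + ε⁻¹))
        + R * (R * (2 * (j + 1) ^ 2 * x ^ (j - 1)) + ρ * (2 * j * x ^ (j - 1))))
      ≤ A + B * (x ^ j * ρ) := by
  have hy0 : 0 < y := by linarith only [hy2]
  have hx0 : 0 < x := by linarith only [hy2, hx']
  have hxy : x ≤ 2 * y := by linarith only [hy2, hx']
  have hyx : y ≤ x := by linarith only [hx']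
  set lam : ℝ := (j + 1) * C₀ with hlam
  have hjr : (2 : ℝ) ≤ j := by exact_mod_cast hj
  have hlam3 : 3 ≤ lam := by rw [hlam]; nlinarith only [hC, hjr]
  have hR0 : 0 < R := by rw [hRe]; positivity
  have hε0 : 0 < ε := by rw [hε]; positivity
  have hB0 : 0 ≤ B := by rw [hB]; positivity
  have hA0 : 0 ≤ A := by rw [hA]; positivity
  set δ : ℝ := (j + 1) * R with hδ
  have hδ0 : 0 < δ := by rw [hδ]; positivity
  have hxj0 : 0 < x ^ j := by positivity
  have hxR : x ^ j * R = C₀ / 2 := by rw [hRe]; field_simp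
  have hxδ : x ^ j * δ = lam / 2 := by
    rw [hδ, hlam, mul_left_comm, hxR]; ring
  have hyδ : y ^ j * δ ≤ lam / 2 := by
    rw [← hxδ]
    exact mul_le_mul_of_nonneg_right (pow_le_pow_left₀ hy0.le hyx j) hδ0.le
  have hyρ : y ^ j * ρ ≤ x ^ j * ρ :=
    mul_le_mul_of_nonneg_right (pow_le_pow_left₀ hy0.le hyx j) hρ
  set s : ℝ := x ^ j * ρ with hs
  have hs0 : 0 ≤ s := by (clear * - hx0 hρ; positivity)
  have t1 : x ^ (j + 1) * (δ * (y⁻¹ * (ε * (A + B * (y ^ j * (ρ + δ))) + ε⁻¹)))
      ≤ lam * (ε * (A + B * (s + lam / 2)) + ε⁻¹) := by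
    have e1 : x ^ (j + 1) * (δ * (y⁻¹ * (ε * (A + B * (y ^ j * (ρ + δ))) + ε⁻¹)))
        = (lam / 2) * (x * y⁻¹) * (ε * (A + B * (y ^ j * (ρ + δ))) + ε⁻¹) := by
      rw [← hxδ, pow_succ]; ring
    rw [e1]
    have e2 : x * y⁻¹ ≤ 2 := by
      rw [← div_eq_mul_inv, div_le_iff₀ hy0]; exact hxy
    have e3 : y ^ j * (ρ + δ) ≤ s + lam / 2 := by rw [mul_add]; linarith only [hyδ, hyρ]
    have e4 : ε * (A + B * (y ^ j * (ρ + δ))) + ε⁻¹ ≤ ε * (A + B * (s + lam / 2)) + ε⁻¹ := by
      (clear * - e3 hB0 hε0; gcongr)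
    have e5 : 0 ≤ ε * (A + B * (s + lam / 2)) + ε⁻¹ := by (clear * - hε0 hA0 hB0 hx0 hρ hj hC; positivity)
    have e6 : (lam / 2) * (x * y⁻¹) ≤ (lam / 2) * 2 :=
      mul_le_mul_of_nonneg_left e2 (by linarith only [hlam3])
    have e6' : (lam / 2) * 2 = lam := by ring
    rw [e6'] at e6
    calc (lam / 2) * (x * y⁻¹) * (ε * (A + B * (y ^ j * (ρ + δ))) + ε⁻¹)
        ≤ (lam / 2) * (x * y⁻¹) * (ε * (A + B * (s + lam / 2)) + ε⁻¹) := by
          refine mul_le_mul_of_nonneg_left e4 (by positivity)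
      _ ≤ lam * (ε * (A + B * (s + lam / 2)) + ε⁻¹) :=
          mul_le_mul_of_nonneg_right e6 e5
  have t2 : x ^ (j + 1) * (R * (R * (2 * (j + 1) ^ 2 * x ^ (j - 1)) + ρ * (2 * j * x ^ (j - 1))))
      ≤ lam ^ 2 / 2 + lam * s := by
    have e1 : x ^ (j + 1) * x ^ (j - 1) = x ^ j * x ^ j := by
      rw [← pow_add, ← pow_add]
      congr 1
      omega
    have e2 : x ^ (j + 1) * (R * (R * (2 * (j + 1) ^ 2 * x ^ (j - 1)) + ρ * (2 * j * x ^ (j - 1))))
        = 2 * (j + 1) ^ 2 * ((x ^ (j + 1) * x ^ (j - 1)) * (R * R))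
          + 2 * j * ((x ^ (j + 1) * x ^ (j - 1)) * R * ρ) := by
      ring
    have e3 : (x ^ j * x ^ j) * (R * R) = (C₀ / 2) ^ 2 := by rw [← hxR]; ring
    have e4 : (x ^ j * x ^ j) * R * ρ = (C₀ / 2) * s := by rw [← hxR, hs]; ring
    rw [e2, e1, e3, e4]
    have e5 : 2 * ((j:ℝ) + 1) ^ 2 * (C₀ / 2) ^ 2 = lam ^ 2 / 2 := by rw [hlam]; ring
    have e6 : 2 * (j:ℝ) * (C₀ / 2 * s) ≤ lam * s := by
      have e7 : (j : ℝ) * C₀ ≤ lam := by rw [hlam]; nlinarith only [hC]
      have e8 : 2 * (j:ℝ) * (C₀ / 2 * s) = (j * C₀) * s := by ring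
      rw [e8]
      exact mul_le_mul_of_nonneg_right e7 hs0
    linarith only [e6]
  rw [mul_add]
  refine (add_le_add t1 t2).trans ?_
  have hεi : ε⁻¹ = 2 * lam := by rw [hε, inv_inv]
  have hlε : lam * ε = 1 / 2 := by
    rw [hε]; (clear * - hlam3; field_simp)
  have e7 : lam * (ε * (A + B * (s + lam / 2)) + ε⁻¹)
      = (lam * ε) * (A + B * (s + lam / 2)) + lam * ε⁻¹ := by ring
  rw [e7, hlε, hεi, hA, hB]
  nlinarith only []

theorem rt_eq (j : ℕ) (C₀ : ℝ) {n : ℕ} (hn : 1 ≤ n) :
    rt j n C₀ = (C₀ / 2) / (2 * (n : ℝ)) ^ j := by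
  have hn0 : (n : ℝ) ≠ 0 := by positivity
  unfold rt
  rw [pow_succ]
  (clear * - hn0 hn; field_simp)

attribute [local irreducible] Phi FzMom Eta in
theorem eta_int_le {j : ℕ} (hj : 2 ≤ j) {C₀ : ℝ} (hC : 1 ≤ C₀) {n : ℕ}
    (hn : 1 ≤ n) {A B : ℝ} (hB : B = 2 * ((j + 1) * C₀)) (hA : A = 6 * ((j + 1) * C₀) ^ 2)
    (ih : ∀ ρ : ℝ, 0 ≤ ρ →
      ((2 * (n : ℝ)) ^ j * ∫ r in (0:ℝ)..rt j n C₀, FzMom j (Fin n) 1 r ρ)
        ≤ A + B * ((2 * (n : ℝ)) ^ j * ρ)) {ρ : ℝ} (hρ : 0 ≤ ρ) :
    ((2 * ((n + 1 : ℕ) : ℝ)) ^ (j + 1) * ∫ r in (0:ℝ)..rt j (n + 1) C₀,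
        Eta j (Fin (n + 1)) (Fin.last n) false r ρ)
      ≤ A + B * ((2 * ((n + 1 : ℕ) : ℝ)) ^ j * ρ) := by
  have hnr : (1 : ℝ) ≤ n := by exact_mod_cast hn
  set y : ℝ := 2 * (n : ℝ) with hy
  set x : ℝ := 2 * ((n + 1 : ℕ) : ℝ) with hx
  have hx' : x = y + 2 := by rw [hx, hy]; push_cast; ring
  have hy2 : 2 ≤ y := by rw [hy]; linarith only [hnr]
  have hy0 : 0 < y := by linarith only [hnr]
  have hx0 : 0 < x := by linarith only [hnr, hx']
  have hyx : y ≤ x := by linarith only [hx']
  have hRe : rt j (n + 1) C₀ = (C₀ / 2) / x ^ j := rt_eq j C₀ (by omega)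
  have hR'e : rt j n C₀ = (C₀ / 2) / y ^ j := rt_eq j C₀ hn
  have hR0 : 0 < rt j (n + 1) C₀ := by rw [hRe]; positivity
  have hRR' : rt j (n + 1) C₀ ≤ rt j n C₀ := by
    rw [hRe, hR'e]
    exact div_le_div_of_nonneg_left (by linarith only [hC]) (by positivity) (pow_le_pow_left₀ hy0.le hyx j)
  have hR'0 : 0 ≤ rt j n C₀ := hR0.le.trans hRR'
  have hB0 : 0 ≤ B := by rw [hB]; positivity
  have hε0 : 0 < (2 * ((j + 1) * C₀))⁻¹ := by positivity
  have hxe : (2 * ((n : ℝ) + 1)) = x := by rw [hx]; push_cast; ring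
  have h := rec_int (j := j) (y := y) (by omega) hy0 (A := A) (B := B)
    (c1 := 2 * (j + 1) ^ 2 * x ^ (j - 1)) (c2 := 2 * j * x ^ (j - 1))
    (ε := (2 * ((j + 1) * C₀))⁻¹) (R := rt j (n + 1) C₀) (R' := rt j n C₀)
    hB0 (by positivity) hε0 hR0 hRR'
    (fun r ρ => Eta j (Fin (n + 1)) (Fin.last n) false r ρ)
    (fun r ρ => Phi j (Fin n) r ρ)
    (fun r ρ => FzMom j (Fin n) 1 r ρ)
    (fun r ρ => FzMom j (Fin n) j r ρ)
    (fun r ρ => FzMom j (Fin n) (j + 1) r ρ)
    (continuous_Eta j (Fin (n + 1)) (Fin.last n) false)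
    (continuous_FzMom j (Fin n) 1)
    (continuous_FzMom j (Fin n) j)
    (continuous_FzMom j (Fin n) (j + 1))
    (fun r u hr hu => FzMom_nonneg 1 hr hu)
    (fun r u hr hu => FzMom_nonneg j hr hu)
    (fun r u hr hu => FzMom_nonneg (j + 1) hr hu)
    (fun r ρ ρ' => Phi_sub_eq j (Fin n) r ρ ρ')
    (fun ε hε r u hr hu => FzMom_interp hj hε (by rw [Fintype.card_fin]) hy0 hr hu)
    (fun u hu => integral_FzMom_top_le j (Fin n) hR'0 hu)
    (fun r ρ hr hρ => by
      have h1 := Eta_le_reduce j n (by omega) hr hρ (Fin.last n) false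
      rw [hxe] at h1
      exact h1)
    ih hρ
  have h2 := mul_le_mul_of_nonneg_left h (show (0:ℝ) ≤ x ^ (j + 1) by positivity)
  exact h2.trans (rec_alg hj hC hy2 hx' hB hA hRe rfl hρ)

attribute [local irreducible] Phi FzMom Eta in
/-- The recursion: integrated number of frozen literals. -/
theorem G_bound {j : ℕ} (hj : 2 ≤ j) {C₀ : ℝ} (hC : 1 ≤ C₀) {A B : ℝ}
    (hB : B = 2 * ((j + 1) * C₀)) (hA : A = 6 * ((j + 1) * C₀) ^ 2) (n : ℕ) :
    ∀ ρ : ℝ, 0 ≤ ρ →
      ((2 * ((n + 1 : ℕ) : ℝ)) ^ j * ∫ r in (0:ℝ)..rt j (n + 1) C₀, FzMom j (Fin (n + 1)) 1 r ρ)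
        ≤ A + B * ((2 * ((n + 1 : ℕ) : ℝ)) ^ j * ρ) := by
  have hjr : (2 : ℝ) ≤ j := by exact_mod_cast hj
  have hlam : C₀ ≤ (j + 1) * C₀ := by nlinarith only [hC]
  have hlam3 : 3 ≤ (j + 1) * C₀ := by nlinarith only [hC, hjr]
  have hA1 : C₀ ≤ A := by rw [hA]; nlinarith only [hC, hlam]
  have hB0 : 0 ≤ B := by rw [hB]; positivity
  have hR0 : ∀ n : ℕ, 0 ≤ rt j (n + 1) C₀ := fun n => rt_nonneg j (n + 1) (by linarith only [hC])
  -- general inequality between the first moment and Eta
  have hcomp : ∀ (n : ℕ) (ρ : ℝ), 0 ≤ ρ →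
      ((2 * ((n + 1 : ℕ) : ℝ)) ^ j * ∫ r in (0:ℝ)..rt j (n + 1) C₀, FzMom j (Fin (n + 1)) 1 r ρ)
      ≤ (2 * ((n + 1 : ℕ) : ℝ)) ^ (j + 1) * ∫ r in (0:ℝ)..rt j (n + 1) C₀,
        Eta j (Fin (n + 1)) (Fin.last n) false r ρ := by
    intro n ρ hρ
    have c1 : Continuous fun r => FzMom j (Fin (n + 1)) 1 r ρ :=
      (continuous_FzMom j (Fin (n + 1)) 1).comp (by fun_prop : Continuous fun r : ℝ => (r, ρ))
    have c2 : Continuous fun r => (2 * ((n + 1 : ℕ) : ℝ)) *
        Eta j (Fin (n + 1)) (Fin.last n) false r ρ :=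
      continuous_const.mul ((continuous_Eta j (Fin (n + 1)) (Fin.last n) false).comp
        (by fun_prop : Continuous fun r : ℝ => (r, ρ)))
    have h1 : ∫ r in (0:ℝ)..rt j (n + 1) C₀, FzMom j (Fin (n + 1)) 1 r ρ
        ≤ ∫ r in (0:ℝ)..rt j (n + 1) C₀, (2 * ((n + 1 : ℕ) : ℝ)) *
          Eta j (Fin (n + 1)) (Fin.last n) false r ρ :=
      intervalIntegral.integral_mono_on (hR0 n) (c1.intervalIntegrable _ _)
        (c2.intervalIntegrable _ _) fun r hr => FzMom_one_le_Eta j n hr.1 hρ
    rw [intervalIntegral.integral_const_mul] at h1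
    have h2 := mul_le_mul_of_nonneg_left h1 (show (0:ℝ) ≤ (2 * ((n + 1 : ℕ) : ℝ)) ^ j by (clear * -; positivity))
    refine h2.trans (le_of_eq ?_)
    rw [pow_succ]
    ring
  induction n with
  | zero =>
    intro ρ hρ
    refine (hcomp 0 ρ hρ).trans ?_
    have hE : ∫ r in (0:ℝ)..rt j (0 + 1) C₀, Eta j (Fin (0 + 1)) (Fin.last 0) false r ρ
        ≤ rt j (0 + 1) C₀ := by
      have c : Continuous fun r => Eta j (Fin (0 + 1)) (Fin.last 0) false r ρ :=
        (continuous_Eta j (Fin (0 + 1)) (Fin.last 0) false).comp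
          (by fun_prop : Continuous fun r : ℝ => (r, ρ))
      have h1 := intervalIntegral.integral_mono_on (a := 0) (b := rt j (0 + 1) C₀) (hR0 0)
        (c.intervalIntegrable _ _) (by simp : IntervalIntegrable (fun _ : ℝ => (1:ℝ)) volume 0
          (rt j (0 + 1) C₀)) (fun r hr => Eta_le_one (Fin.last 0) false hr.1 hρ)
      rw [intervalIntegral.integral_const, smul_eq_mul, mul_one, sub_zero] at h1
      exact h1
    have h2 := mul_le_mul_of_nonneg_left hE
      (show (0:ℝ) ≤ (2 * ((0 + 1 : ℕ) : ℝ)) ^ (j + 1) by positivity)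
    refine h2.trans ?_
    have e : (2 * ((0 + 1 : ℕ) : ℝ)) ^ (j + 1) * rt j (0 + 1) C₀ = C₀ := by
      rw [rt_eq j C₀ (by (clear * -; omega))]
      push_cast
      rw [pow_succ]
      field_simp
    rw [e]
    have h3 : 0 ≤ B * ((2 * ((0 + 1 : ℕ) : ℝ)) ^ j * ρ) := by (clear * - hB0 hρ; positivity)
    linarith only [hA1, h3]
  | succ n ih =>
    intro ρ hρ
    exact (hcomp (n + 1) ρ hρ).trans (eta_int_le hj hC (by omega) hB hA ih hρ)

attribute [local irreducible] Phi FzMom Eta in
theorem Eta_bound {j : ℕ} (hj : 2 ≤ j) {C₀ : ℝ} (hC : 1 ≤ C₀) (n : ℕ) :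
    ((2 * ((n + 1 : ℕ) : ℝ)) ^ (j + 1) * ∫ r in (0:ℝ)..rt j (n + 1) C₀,
        Eta j (Fin (n + 1)) (Fin.last n) false r 0)
      ≤ 6 * ((j + 1) * C₀) ^ 2 := by
  have hjr : (2 : ℝ) ≤ j := by exact_mod_cast hj
  have hlam : C₀ ≤ (j + 1) * C₀ := by nlinarith only [hC]
  have hlam3 : 3 ≤ (j + 1) * C₀ := by nlinarith only [hC, hjr]
  cases n with
  | zero =>
    have hR0 : 0 ≤ rt j (0 + 1) C₀ := rt_nonneg j (0 + 1) (by linarith)
    have hE : ∫ r in (0:ℝ)..rt j (0 + 1) C₀, Eta j (Fin (0 + 1)) (Fin.last 0) false r 0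
        ≤ rt j (0 + 1) C₀ := by
      have c : Continuous fun r => Eta j (Fin (0 + 1)) (Fin.last 0) false r 0 :=
        (continuous_Eta j (Fin (0 + 1)) (Fin.last 0) false).comp
          (by fun_prop : Continuous fun r : ℝ => (r, (0:ℝ)))
      have h1 := intervalIntegral.integral_mono_on (a := 0) (b := rt j (0 + 1) C₀) hR0
        (c.intervalIntegrable _ _) (by simp : IntervalIntegrable (fun _ : ℝ => (1:ℝ)) volume 0
          (rt j (0 + 1) C₀)) (fun r hr => Eta_le_one (Fin.last 0) false hr.1 le_rfl)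
      rw [intervalIntegral.integral_const, smul_eq_mul, mul_one, sub_zero] at h1
      exact h1
    have h2 := mul_le_mul_of_nonneg_left hE
      (show (0:ℝ) ≤ (2 * ((0 + 1 : ℕ) : ℝ)) ^ (j + 1) by positivity)
    refine h2.trans ?_
    have e : (2 * ((0 + 1 : ℕ) : ℝ)) ^ (j + 1) * rt j (0 + 1) C₀ = C₀ := by
      rw [rt_eq j C₀ (by omega)]
      push_cast
      rw [pow_succ]
      field_simp
    rw [e]
    nlinarith only [hC, hlam]
  | succ n =>
    have h := eta_int_le hj hC (n := n + 1) (by omega) rfl rfl (G_bound hj hC rfl rfl n)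
      (ρ := 0) le_rfl
    simpa only [Nat.cast_add, Nat.cast_one, ge_iff_le, mul_zero, add_zero] using h

attribute [local irreducible] Phi FzMom Eta in
/-- The window bound. -/
theorem window_bound (j : ℕ) (hj : 2 ≤ j) (C₀ : ℝ) (hC : 1 ≤ C₀) :
    ∃ A : ℝ, 0 < A ∧ ∀ n : ℕ, 1 ≤ n → ∀ a b : ℝ, 0 ≤ a → a < b → b ≤ C₀ →
      (b - a) * U j n a * (1 - U j n b) ≤ A / Real.sqrt n := by
  have hjr : (2 : ℝ) ≤ j := by exact_mod_cast hj
  have hlam3 : 3 ≤ (j + 1) * C₀ := by nlinarith only [hC, hjr]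
  set A : ℝ := 6 * ((j + 1) * C₀) ^ 2 with hA
  have hA0 : 0 < A := by rw [hA]; positivity
  refine ⟨A, hA0, ?_⟩
  intro n hn a b ha hab hb
  obtain ⟨m, rfl⟩ : ∃ m, n = m + 1 := ⟨n - 1, by omega⟩
  set N : ℝ := ((m + 1 : ℕ) : ℝ) with hN
  have hN1 : 1 ≤ N := by rw [hN]; push_cast; linarith only []
  have hN0 : 0 < N := by linarith only [hN1]
  have hmono : ∀ c c' : ℝ, c ≤ c' → rt j (m + 1) c ≤ rt j (m + 1) c' := by
    intro c c' hcc
    unfold rt
    (clear * - hcc; gcongr)
  have hrt0 : rt j (m + 1) 0 = 0 := by unfold rt; simp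
  have hra : 0 ≤ rt j (m + 1) a := rt_nonneg j (m + 1) ha
  have hrab : rt j (m + 1) a ≤ rt j (m + 1) b := hmono a b hab.le
  have hrbC : rt j (m + 1) b ≤ rt j (m + 1) C₀ := hmono b C₀ hb
  -- monotonicity of Phi in r via U
  have hrate : ∀ r : ℝ, 0 ≤ r → r = rt j (m + 1) (r * (2 * N) ^ (j + 1) / N) := by
    intro r _
    unfold rt
    rw [← hN]
    (clear * - hN1; field_simp)
  have hPmono : ∀ r r' : ℝ, 0 ≤ r → r ≤ r' → Phi j (Fin (m + 1)) r 0 ≤ Phi j (Fin (m + 1)) r' 0 := by
    intro r r' hr hrr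
    have h1 := U_mono j (m + 1) (a := r * (2 * N) ^ (j + 1) / N) (b := r' * (2 * N) ^ (j + 1) / N)
      (by (clear * - hr; positivity)) (by (clear * - hrr; gcongr))
    unfold U at h1
    rw [← hrate r hr, ← hrate r' (hr.trans hrr)] at h1
    exact h1
  have cE : Continuous fun r => Real.sqrt ((m + 1) / 2) *
      Eta j (Fin (m + 1)) (Fin.last m) false r 0 :=
    continuous_const.mul ((continuous_Eta j (Fin (m + 1)) (Fin.last m) false).comp
      (by fun_prop : Continuous fun r : ℝ => (r, (0:ℝ))))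
  have hU0 : 0 ≤ U j (m + 1) a := U_nonneg j (m + 1) ha
  have hV0 : 0 ≤ 1 - U j (m + 1) b := by (clear * - ha hab; linarith [U_le_one j (m + 1) (c := b) (by linarith)])
  have h1 : (rt j (m + 1) b - rt j (m + 1) a) * (U j (m + 1) a * (1 - U j (m + 1) b))
      ≤ ∫ r in (rt j (m + 1) a)..(rt j (m + 1) b), Real.sqrt ((m + 1) / 2) *
        Eta j (Fin (m + 1)) (Fin.last m) false r 0 := by
    have h2 := intervalIntegral.integral_mono_on (a := rt j (m + 1) a) (b := rt j (m + 1) b) hrab
      (by simp : IntervalIntegrable (fun _ : ℝ => U j (m + 1) a * (1 - U j (m + 1) b)) volume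
        (rt j (m + 1) a) (rt j (m + 1) b))
      (cE.intervalIntegrable _ _) (fun r hr => by
        have hr0 : 0 ≤ r := hra.trans hr.1
        have h3 := exposure j m (by omega) hr0 (le_refl (0:ℝ))
        refine le_trans ?_ h3
        have h4 : U j (m + 1) a ≤ Phi j (Fin (m + 1)) r 0 := hPmono _ r hra hr.1
        have h5 : Phi j (Fin (m + 1)) r 0 ≤ U j (m + 1) b := hPmono r _ hr0 hr.2
        have h6 : 0 ≤ Phi j (Fin (m + 1)) r 0 := Phi_nonneg j _ hr0 le_rfl
        exact mul_le_mul h4 (by linarith only [h5]) hV0 h6)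
    rw [intervalIntegral.integral_const, smul_eq_mul] at h2
    exact h2
  have h2 : ∫ r in (rt j (m + 1) a)..(rt j (m + 1) b), Real.sqrt ((m + 1) / 2) *
        Eta j (Fin (m + 1)) (Fin.last m) false r 0
      ≤ ∫ r in (0:ℝ)..(rt j (m + 1) C₀), Real.sqrt ((m + 1) / 2) *
        Eta j (Fin (m + 1)) (Fin.last m) false r 0 := by
    refine intervalIntegral.integral_mono_interval hra hrab hrbC ?_ (cE.intervalIntegrable _ _)
    refine (ae_restrict_iff' measurableSet_Ioc).2 (Filter.Eventually.of_forall fun r hr => ?_)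
    exact mul_nonneg (Real.sqrt_nonneg _) (Eta_nonneg (Fin.last m) false hr.1.le le_rfl)
  rw [intervalIntegral.integral_const_mul (a := (0:ℝ))] at h2
  have h3 := Eta_bound hj hC m
  rw [← hA, ← hN] at h3
  set I : ℝ := ∫ r in (0:ℝ)..(rt j (m + 1) C₀), Eta j (Fin (m + 1)) (Fin.last m) false r 0 with hI
  have hx0 : 0 < (2 * N) ^ (j + 1) := by positivity
  have h4 : rt j (m + 1) b - rt j (m + 1) a = (b - a) * N / (2 * N) ^ (j + 1) := by
    unfold rt
    rw [← hN]
    ring
  rw [h4] at h1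
  have h5 : (b - a) * N / (2 * N) ^ (j + 1) * (U j (m + 1) a * (1 - U j (m + 1) b))
      ≤ Real.sqrt ((m + 1) / 2) * I := h1.trans h2
  have h6 := mul_le_mul_of_nonneg_left h5 hx0.le
  have h7 : (2 * N) ^ (j + 1) * ((b - a) * N / (2 * N) ^ (j + 1) *
      (U j (m + 1) a * (1 - U j (m + 1) b)))
      = N * ((b - a) * U j (m + 1) a * (1 - U j (m + 1) b)) := by
    (clear * - hN1; field_simp)
  rw [h7] at h6
  have h8 : (2 * N) ^ (j + 1) * (Real.sqrt ((m + 1) / 2) * I)
      = Real.sqrt ((m + 1) / 2) * ((2 * N) ^ (j + 1) * I) := by ring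
  rw [h8] at h6
  have h9 : Real.sqrt (((m:ℝ) + 1) / 2) ≤ Real.sqrt N := by
    apply Real.sqrt_le_sqrt
    rw [hN]
    push_cast
    linarith only []
  have hs0 : 0 < Real.sqrt N := Real.sqrt_pos.2 hN0
  have h10 : N * ((b - a) * U j (m + 1) a * (1 - U j (m + 1) b)) ≤ Real.sqrt N * A := by
    refine h6.trans ?_
    exact (mul_le_mul_of_nonneg_left h3 (Real.sqrt_nonneg _)).trans
      (mul_le_mul_of_nonneg_right h9 hA0.le)
  rw [le_div_iff₀ hs0]
  have h11 : Real.sqrt N * Real.sqrt N = N := Real.mul_self_sqrt hN0.le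
  have h12 : Real.sqrt N * (((b - a) * U j (m + 1) a * (1 - U j (m + 1) b)) * Real.sqrt N)
      ≤ Real.sqrt N * A := by
    calc Real.sqrt N * (((b - a) * U j (m + 1) a * (1 - U j (m + 1) b)) * Real.sqrt N)
        = (Real.sqrt N * Real.sqrt N) * ((b - a) * U j (m + 1) a * (1 - U j (m + 1) b)) := by ring
      _ = N * ((b - a) * U j (m + 1) a * (1 - U j (m + 1) b)) := by rw [h11]
      _ ≤ Real.sqrt N * A := h10
  exact le_of_mul_le_mul_left h12 hs0

end Vale.Agent.P170
end
end

section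

section

/-!
The interpolation inequality: satisfiability probabilities are supermultiplicative in the number
of variables at fixed density.
-/

namespace Vale.Agent.P170
open Finset

section Interp
variable {j : ℕ}

theorem interp_unsat_insert {V : Type} [Fintype V] [DecidableEq (Cl j V)] (S : Finset (Cl j V))
    (t : Tup (j + 1) V) : Unsat (insert (Sum.inl t) S) ↔ ∀ i, t i ∈ Fz S := by
  constructor
  · intro h i
    rw [mem_Fz]
    intro a ha
    obtain ⟨e, he, hv⟩ := h a trivial
    rcases Finset.mem_insert.mp he with rfl | he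
    · exact absurd ha (hv i)
    · exact ⟨e, he, hv⟩
  · intro h a _
    by_cases hv : Viol a (Sum.inl t : Cl j V)
    · exact ⟨_, Finset.mem_insert_self _ _, hv⟩
    · simp only [Viol, not_forall, not_not] at hv
      obtain ⟨i, hi⟩ := hv
      obtain ⟨e, he, hv⟩ := mem_Fz.mp (h i) a hi
      exact ⟨e, Finset.mem_insert_of_mem he, hv⟩

theorem interp_unsat_mono {V : Type} {S S' : Finset (Cl j V)} (h : S ⊆ S') (hS : Unsat S) :
    Unsat S' := UnsatOn.mono (fun _ h => h) h hS

/-- number of tuples with all entries satisfying `p` -/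
theorem interp_count {L : Type} [Fintype L] (p : L → Prop) (k : ℕ) :
    ∑ t : Fin k → L, ind (∀ i, p (t i)) = (∑ l, ind (p l)) ^ k := by
  classical
  rw [← Fin.prod_const, Fintype.prod_sum]
  refine Finset.sum_congr rfl fun t _ => ?_
  by_cases h : ∀ i, p (t i)
  · rw [ind_true h]
    exact (Finset.prod_eq_one fun i _ => ind_true (h i)).symm
  · rw [ind_false h]
    push Not at h
    obtain ⟨i, hi⟩ := h
    exact (Finset.prod_eq_zero (Finset.mem_univ i) (ind_false hi)).symm

/-- convexity -/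
theorem interp_convex {n₁ n₂ x₁ x₂ : ℝ} (h₁ : 0 < n₁) (h₂ : 0 < n₂) (hx₁ : 0 ≤ x₁) (hx₂ : 0 ≤ x₂)
    (k : ℕ) : (n₁ + n₂) / (2 * (n₁ + n₂)) ^ k * (x₁ + x₂) ^ k ≤
      n₁ / (2 * n₁) ^ k * x₁ ^ k + n₂ / (2 * n₂) ^ k * x₂ ^ k := by
  have hn : 0 < n₁ + n₂ := by positivity
  have hy₁ : x₁ / (2 * n₁) ∈ Set.Ici (0 : ℝ) := Set.mem_Ici.mpr (by positivity)
  have hy₂ : x₂ / (2 * n₂) ∈ Set.Ici (0 : ℝ) := Set.mem_Ici.mpr (by positivity)
  have ha : 0 ≤ n₁ / (n₁ + n₂) := by positivity
  have hb : 0 ≤ n₂ / (n₁ + n₂) := by positivity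
  have hab : n₁ / (n₁ + n₂) + n₂ / (n₁ + n₂) = 1 := by field_simp
  have h := (convexOn_pow (𝕜 := ℝ) k).2 hy₁ hy₂ ha hb hab
  simp only [smul_eq_mul] at h
  have e1 : n₁ / (n₁ + n₂) * (x₁ / (2 * n₁)) + n₂ / (n₁ + n₂) * (x₂ / (2 * n₂)) =
      (x₁ + x₂) / (2 * (n₁ + n₂)) := by
    field_simp
  rw [e1, div_pow, div_pow, div_pow] at h
  have h2 := mul_le_mul_of_nonneg_left h hn.le
  calc (n₁ + n₂) / (2 * (n₁ + n₂)) ^ k * (x₁ + x₂) ^ k
      = (n₁ + n₂) * ((x₁ + x₂) ^ k / (2 * (n₁ + n₂)) ^ k) := by ring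
    _ ≤ _ := h2
    _ = _ := by field_simp

/-- relabelling the variables of a clause -/
def relab {V W : Type} (σ : V → W) : Cl j V → Cl j W :=
  Sum.map (fun t i => (σ (t i).1, (t i).2)) (fun t i => (σ (t i).1, (t i).2))

theorem viol_relab {V W : Type} (σ : V → W) (a : W → Bool) (e : Cl j V) :
    Viol a (relab σ e) ↔ Viol (fun v => a (σ v)) e := by
  cases e <;> exact Iff.rfl

variable {V₁ V₂ : Type}

/-- the disjoint union of two formulas -/
def jn (e : Cl j V₁ ⊕ Cl j V₂) : Option (Cl j (V₁ ⊕ V₂)) :=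
  some (Sum.elim (relab Sum.inl) (relab Sum.inr) e)

/-- left part -/
def pl (e : Cl j V₁ ⊕ Cl j V₂) : Option (Cl j V₁) := Sum.elim some (fun _ => none) e

/-- right part -/
def pr (e : Cl j V₁ ⊕ Cl j V₂) : Option (Cl j V₂) := Sum.elim (fun _ => none) some e

section
variable [Fintype V₁]

theorem mem_push_pl {S : Finset (Cl j V₁ ⊕ Cl j V₂)} {e : Cl j V₁} :
    e ∈ push pl S ↔ Sum.inl e ∈ S := by
  rw [mem_push]
  constructor
  · rintro ⟨e' | e', h1, h2⟩
    · simp only [pl, Sum.elim_inl, Option.some.injEq] at h2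
      rwa [← h2]
    · simp [pl] at h2
  · intro h
    exact ⟨_, h, rfl⟩

end

section
variable [Fintype V₂]

theorem mem_push_pr {S : Finset (Cl j V₁ ⊕ Cl j V₂)} {e : Cl j V₂} :
    e ∈ push pr S ↔ Sum.inr e ∈ S := by
  rw [mem_push]
  constructor
  · rintro ⟨e' | e', h1, h2⟩
    · simp [pr] at h2
    · simp only [pr, Sum.elim_inr, Option.some.injEq] at h2
      rwa [← h2]
  · intro h
    exact ⟨_, h, rfl⟩

end

variable [Fintype V₁] [Fintype V₂]

theorem unsat_push_jn (S : Finset (Cl j V₁ ⊕ Cl j V₂)) :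
    Unsat (push jn S) ↔ Unsat (push pl S) ∨ Unsat (push pr S) := by
  constructor
  · intro h
    by_contra hc
    push Not at hc
    obtain ⟨h1, h2⟩ := hc
    simp only [Unsat, UnsatOn, not_forall, not_exists] at h1 h2
    obtain ⟨a₁, -, h1⟩ := h1
    obtain ⟨a₂, -, h2⟩ := h2
    obtain ⟨e, he, hv⟩ := h (Sum.elim a₁ a₂) trivial
    obtain ⟨e', he', hee⟩ := mem_push.mp he
    rcases e' with e' | e'
    · simp only [jn, Sum.elim_inl, Option.some.injEq] at hee
      rw [← hee, viol_relab] at hv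
      exact h1 e' ⟨mem_push_pl.mpr he', hv⟩
    · simp only [jn, Sum.elim_inr, Option.some.injEq] at hee
      rw [← hee, viol_relab] at hv
      exact h2 e' ⟨mem_push_pr.mpr he', hv⟩
  · rintro (h | h) a -
    · obtain ⟨e, he, hv⟩ := h (fun v => a (Sum.inl v)) trivial
      refine ⟨relab Sum.inl e, mem_push.mpr ⟨Sum.inl e, mem_push_pl.mp he, rfl⟩, ?_⟩
      rw [viol_relab]
      exact hv
    · obtain ⟨e, he, hv⟩ := h (fun v => a (Sum.inr v)) trivial
      refine ⟨relab Sum.inr e, mem_push.mpr ⟨Sum.inr e, mem_push_pr.mp he, rfl⟩, ?_⟩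
      rw [viol_relab]
      exact hv

/-- rates of the disjoint union -/
noncomputable def jrate (j : ℕ) (V₁ V₂ : Type) (r₁ r₂ : ℝ) : Cl j V₁ ⊕ Cl j V₂ → ℝ :=
  Sum.elim (rate j V₁ r₁ 0) (rate j V₂ r₂ 0)

theorem Ex_jrate_pl (r₁ r₂ : ℝ) (f : Finset (Cl j V₁) → ℝ) :
    Ex (jrate j V₁ V₂ r₁ r₂) (fun S => f (push pl S)) = Ex (rate j V₁ r₁ 0) f := by
  classical
  rw [Ex_push]
  congr 1
  funext e
  rw [Finset.sum_filter]
  simp only [pl, jrate, Fintype.sum_sum_type, Sum.elim_inl, Option.some.injEq, sum_ite_eq', mem_univ, ↓reduceIte, Sum.elim_inr, reduceCtorEq, sum_const_zero, add_zero]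

theorem Ex_jrate_pr (r₁ r₂ : ℝ) (f : Finset (Cl j V₂) → ℝ) :
    Ex (jrate j V₁ V₂ r₁ r₂) (fun S => f (push pr S)) = Ex (rate j V₂ r₂ 0) f := by
  classical
  rw [Ex_push]
  congr 1
  funext e
  rw [Finset.sum_filter]
  simp only [pr, jrate, Fintype.sum_sum_type, Sum.elim_inl, reduceCtorEq, ↓reduceIte, sum_const_zero, Sum.elim_inr, Option.some.injEq, sum_ite_eq', mem_univ, zero_add]

theorem Ex_jrate_sat (r₁ r₂ : ℝ) :
    Ex (jrate j V₁ V₂ r₁ r₂) (fun S => ind (¬ Unsat (push jn S))) =
      (1 - Phi j V₁ r₁ 0) * (1 - Phi j V₂ r₂ 0) := by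
  classical
  have h1 : (fun S : Finset (Cl j V₁ ⊕ Cl j V₂) => ind (¬ Unsat (push jn S))) =
      fun S => ind (¬ Unsat (push pl S)) * ind (¬ Unsat (push pr S)) := by
    funext S
    rw [← ind_and]
    apply ind_congr
    rw [unsat_push_jn]
    tauto
  rw [h1, Ex_mul_of_indep (jrate j V₁ V₂ r₁ r₂)
    (f := fun S : Finset (Cl j V₁ ⊕ Cl j V₂) => ind (¬ Unsat (push pl S)))
    (g := fun S : Finset (Cl j V₁ ⊕ Cl j V₂) => ind (¬ Unsat (push pr S)))
    (B := Finset.univ.filter (fun e => e.isLeft = true))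
    (C := Finset.univ.filter (fun e => e.isRight = true))]
  · rw [Ex_jrate_pl r₁ r₂ (fun S => ind (¬ Unsat S)), Ex_jrate_pr r₁ r₂ (fun S => ind (¬ Unsat S))]
    simp only [ind_not, Ex_sub, Ex_one]
    rfl
  · intro S S' h
    have : push pl S = push pl S' := by
      ext e
      rw [mem_push_pl, mem_push_pl]
      have := Finset.ext_iff.mp h (Sum.inl e)
      simpa only [mem_inter, mem_filter, mem_univ, Sum.isLeft_inl, and_self, and_true] using this
    simp only [this]
  · intro S S' h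
    have : push pr S = push pr S' := by
      ext e
      rw [mem_push_pr, mem_push_pr]
      have := Finset.ext_iff.mp h (Sum.inr e)
      simpa only [mem_inter, mem_filter, mem_univ, Sum.isRight_inr, and_self, and_true] using this
    simp only [this]
  · rw [Finset.disjoint_left]
    rintro (e | e) <;> simp

open Classical in
/-- rates of the disjoint union, on the union of the variable sets -/
noncomputable def srate (j : ℕ) (V₁ V₂ : Type) [Fintype V₁] [Fintype V₂] (r₁ r₂ : ℝ) (e : Cl j (V₁ ⊕ V₂)) : ℝ :=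
  ∑ e' ∈ Finset.univ.filter (fun e' : Cl j V₁ ⊕ Cl j V₂ => jn e' = some e), jrate j V₁ V₂ r₁ r₂ e'

theorem srate_nonneg {r₁ r₂ : ℝ} (h₁ : 0 ≤ r₁) (h₂ : 0 ≤ r₂) (e : Cl j (V₁ ⊕ V₂)) :
    0 ≤ srate j V₁ V₂ r₁ r₂ e := by
  refine Finset.sum_nonneg fun e' _ => ?_
  rcases e' with e' | e'
  · exact rate_nonneg h₁ le_rfl e'
  · exact rate_nonneg h₂ le_rfl e'

theorem Ex_srate_sat (r₁ r₂ : ℝ) :
    Ex (srate j V₁ V₂ r₁ r₂) (fun S => ind (¬ Unsat S)) =
      (1 - Phi j V₁ r₁ 0) * (1 - Phi j V₂ r₂ 0) := by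
  rw [← Ex_jrate_sat, Ex_push jn (jrate j V₁ V₂ r₁ r₂) (fun S => ind (¬ Unsat S))]
  congr 1
  funext e
  unfold srate
  refine Finset.sum_congr ?_ (fun _ _ => rfl)
  ext e'
  simp only [Finset.mem_filter]

theorem sum_srate_mul (r₁ r₂ : ℝ) (G : Cl j (V₁ ⊕ V₂) → ℝ) :
    ∑ e, srate j V₁ V₂ r₁ r₂ e * G e =
      r₁ * ∑ t : Tup (j + 1) V₁, G (relab Sum.inl (Sum.inl t)) +
        r₂ * ∑ t : Tup (j + 1) V₂, G (relab Sum.inr (Sum.inl t)) := by
  classical
  unfold srate
  simp_rw [Finset.sum_mul, Finset.sum_filter]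
  rw [Finset.sum_comm]
  calc _ = ∑ e' : Cl j V₁ ⊕ Cl j V₂,
        jrate j V₁ V₂ r₁ r₂ e' * G (Sum.elim (relab Sum.inl) (relab Sum.inr) e') := by
        refine Finset.sum_congr rfl fun e' _ => ?_
        rw [Finset.sum_eq_single (Sum.elim (relab Sum.inl) (relab Sum.inr) e')]
        · exact if_pos rfl
        · intro b _ hb
          exact if_neg fun h => hb (Option.some.inj h).symm
        · intro h
          exact absurd (Finset.mem_univ _) h
    _ = _ := by simp only [jrate, rate, Fintype.sum_sum_type, Sum.elim_inl, Sum.elim_inr, zero_mul, sum_const_zero, add_zero, mul_sum]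

theorem interp_sum [DecidableEq (Cl j (V₁ ⊕ V₂))] (r₁ r₂ r : ℝ)
    (hc : ∀ x₁ x₂ : ℝ, 0 ≤ x₁ → 0 ≤ x₂ →
      r * (x₁ + x₂) ^ (j + 1) ≤ r₁ * x₁ ^ (j + 1) + r₂ * x₂ ^ (j + 1))
    (S : Finset (Cl j (V₁ ⊕ V₂))) :
    ∑ e, (rate j (V₁ ⊕ V₂) r 0 e - srate j V₁ V₂ r₁ r₂ e) *
      (ind (Unsat (insert e S)) - ind (Unsat S)) ≤ 0 := by
  by_cases hS : Unsat S
  · refine (Finset.sum_eq_zero fun e _ => ?_).le
    rw [ind_true hS, ind_true (interp_unsat_mono (Finset.subset_insert e S) hS)]
    ring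
  simp only [ind_false hS, sub_zero, sub_mul, Finset.sum_sub_distrib]
  rw [sum_srate_mul]
  have h1 : ∑ e, rate j (V₁ ⊕ V₂) r 0 e * ind (Unsat (insert e S)) =
      r * ∑ t : Tup (j + 1) (V₁ ⊕ V₂), ind (Unsat (insert (Sum.inl t) S)) := by
    simp only [rate, Fintype.sum_sum_type, Sum.elim_inl, Sum.elim_inr, zero_mul, sum_const_zero, add_zero, mul_sum]
  rw [h1]
  simp only [relab, Sum.map_inl, interp_unsat_insert]
  have h2 := interp_count (fun l => l ∈ Fz S) (j + 1)
  have h3 := interp_count (L := Lit V₁)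
    (fun l => ((Sum.inl l.1, l.2) : Lit (V₁ ⊕ V₂)) ∈ Fz S) (j + 1)
  have h4 := interp_count (L := Lit V₂)
    (fun l => ((Sum.inr l.1, l.2) : Lit (V₁ ⊕ V₂)) ∈ Fz S) (j + 1)
  rw [h2, h3, h4]
  have h5 : ∑ l : Lit (V₁ ⊕ V₂), ind (l ∈ Fz S) =
      ∑ l : Lit V₁, ind (((Sum.inl l.1, l.2) : Lit (V₁ ⊕ V₂)) ∈ Fz S) +
      ∑ l : Lit V₂, ind (((Sum.inr l.1, l.2) : Lit (V₁ ⊕ V₂)) ∈ Fz S) := by
    simp only [Fintype.sum_prod_type, Fintype.sum_sum_type]
  rw [h5]
  have := hc (∑ l : Lit V₁, ind (((Sum.inl l.1, l.2) : Lit (V₁ ⊕ V₂)) ∈ Fz S))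
    (∑ l : Lit V₂, ind (((Sum.inr l.1, l.2) : Lit (V₁ ⊕ V₂)) ∈ Fz S))
    (Finset.sum_nonneg fun _ _ => ind_nonneg _) (Finset.sum_nonneg fun _ _ => ind_nonneg _)
  linarith only [this]

theorem interp_general {r₁ r₂ r : ℝ} (h₁ : 0 ≤ r₁) (h₂ : 0 ≤ r₂) (h : 0 ≤ r)
    (hc : ∀ x₁ x₂ : ℝ, 0 ≤ x₁ → 0 ≤ x₂ →
      r * (x₁ + x₂) ^ (j + 1) ≤ r₁ * x₁ ^ (j + 1) + r₂ * x₂ ^ (j + 1)) :
    (1 - Phi j V₁ r₁ 0) * (1 - Phi j V₂ r₂ 0) ≤ 1 - Phi j (V₁ ⊕ V₂) r 0 := by
  classical
  set f : Finset (Cl j (V₁ ⊕ V₂)) → ℝ := fun S => ind (Unsat S) with hf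
  set v : Cl j (V₁ ⊕ V₂) → ℝ := fun e => rate j (V₁ ⊕ V₂) r 0 e - srate j V₁ V₂ r₁ r₂ e with hv
  set g : ℝ → ℝ := fun s => Ex (fun e => srate j V₁ V₂ r₁ r₂ e + s * v e) f with hg
  have hd := fun s : ℝ => hasDerivAt_Ex (srate j V₁ V₂ r₁ r₂) v f s
  have hanti : AntitoneOn g (Set.Icc 0 1) := by
    refine antitoneOn_of_deriv_nonpos (convex_Icc 0 1)
      (fun s _ => (hd s).continuousAt.continuousWithinAt)
      (fun s _ => (hd s).differentiableAt.differentiableWithinAt) fun s hs => ?_
    rw [interior_Icc] at hs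
    rw [(hd s).deriv]
    have hr : ∀ e, 0 ≤ srate j V₁ V₂ r₁ r₂ e + s * v e := by
      intro e
      have e1 : srate j V₁ V₂ r₁ r₂ e + s * v e =
          (1 - s) * srate j V₁ V₂ r₁ r₂ e + s * rate j (V₁ ⊕ V₂) r 0 e := by
        simp only [hv]; ring
      rw [e1]
      exact add_nonneg (mul_nonneg (by linarith only [hs.2]) (srate_nonneg h₁ h₂ e))
        (mul_nonneg hs.1.le (rate_nonneg h le_rfl e))
    have e2 : (∑ e, v e * (Ex (fun e => srate j V₁ V₂ r₁ r₂ e + s * v e)
        (fun S => f (insert e S)) - Ex (fun e => srate j V₁ V₂ r₁ r₂ e + s * v e) f)) =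
        Ex (fun e => srate j V₁ V₂ r₁ r₂ e + s * v e)
          (fun S => ∑ e, v e * (f (insert e S) - f S)) := by
      rw [Ex_sum]
      refine Finset.sum_congr rfl fun e _ => ?_
      rw [Ex_smul, Ex_sub]
    rw [e2]
    have := Ex_mono hr (g := fun _ => (0 : ℝ)) (fun S => interp_sum r₁ r₂ r hc S)
    rwa [Ex_const] at this
  have h01 := hanti (Set.left_mem_Icc.mpr zero_le_one) (Set.right_mem_Icc.mpr zero_le_one)
    zero_le_one
  have hg1 : g 1 = Phi j (V₁ ⊕ V₂) r 0 := by
    simp only [hg, hv, one_mul, add_sub_cancel]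
    rfl
  have hg0 : g 0 = 1 - (1 - Phi j V₁ r₁ 0) * (1 - Phi j V₂ r₂ 0) := by
    rw [← Ex_srate_sat]
    simp only [hg, hf, zero_mul, add_zero, ind_not, Ex_sub, Ex_one]
    ring
  rw [hg1, hg0] at h01
  linarith only [h01]

end Interp

/-- supermultiplicativity of the satisfiability probability at fixed density -/
theorem superadd (j n₁ n₂ : ℕ) (h₁ : 1 ≤ n₁) (h₂ : 1 ≤ n₂) {c : ℝ} (hc : 0 ≤ c) :
    (1 - U j n₁ c) * (1 - U j n₂ c) ≤ 1 - U j (n₁ + n₂) c := by
  have hn₁ : (0 : ℝ) < n₁ := by exact_mod_cast h₁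
  have hn₂ : (0 : ℝ) < n₂ := by exact_mod_cast h₂
  have hU : U j (n₁ + n₂) c = Phi j (Fin n₁ ⊕ Fin n₂) (rt j (n₁ + n₂) c) 0 := by
    unfold U
    exact (Phi_congr finSumFinEquiv _ _).symm
  rw [hU]
  refine interp_general (by unfold rt; (clear * - hc h₁; positivity)) (by unfold rt; (clear * - hc h₂; positivity))
    (by unfold rt; (clear * - hc h₁ h₂; positivity)) fun x₁ x₂ hx₁ hx₂ => ?_
  have h := mul_le_mul_of_nonneg_left (interp_convex hn₁ hn₂ hx₁ hx₂ (j + 1)) hc
  unfold rt
  push_cast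
  calc c * (n₁ + n₂) / (2 * (n₁ + n₂)) ^ (j + 1) * (x₁ + x₂) ^ (j + 1)
      = c * (((n₁ : ℝ) + n₂) / (2 * (n₁ + n₂)) ^ (j + 1) * (x₁ + x₂) ^ (j + 1)) := by ring
    _ ≤ _ := h
    _ = _ := by ring

end Vale.Agent.P170
end
end

section

section

/-!
Real-analysis part of the random `k`-SAT threshold: a family of nondecreasing functions `U n`
with the window bound `H2` and the super-multiplicativity `H1` has a sharp limiting threshold.
-/

namespace Vale.Agent.P170
open Finset Filter Topology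

section Threshold

variable (U : ℕ → ℝ → ℝ) (C₀ A : ℝ)

/-- Consequence of the window bound: a lower bound `v` for `1 - U n b` gives an upper bound
for `U n a`. -/
theorem window_use (hU0 : ∀ n c, 0 ≤ c → 0 ≤ U n c)
    (H2 : ∀ n : ℕ, 1 ≤ n → ∀ a b : ℝ, 0 ≤ a → a < b → b ≤ C₀ →
      (b - a) * U n a * (1 - U n b) ≤ A / Real.sqrt n)
    {n : ℕ} (hn : 1 ≤ n) {a b v : ℝ} (ha : 0 ≤ a) (hab : a < b) (hb : b ≤ C₀)
    (hv : 0 < v) (hvU : v ≤ 1 - U n b) :
    U n a ≤ A / ((b - a) * v * Real.sqrt n) := by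
  have h := H2 n hn a b ha hab hb
  have hs : 0 < Real.sqrt n := Real.sqrt_pos.mpr (by exact_mod_cast hn)
  have h0 := hU0 n a ha
  have hba : 0 < b - a := sub_pos.mpr hab
  rw [le_div_iff₀ (by positivity)]
  rw [le_div_iff₀ hs] at h
  have h1 : (b - a) * U n a * v ≤ (b - a) * U n a * (1 - U n b) :=
    mul_le_mul_of_nonneg_left hvU (by positivity)
  nlinarith only [h, h1, hs]

theorem inv_sqrt_two_le : (1:ℝ) / Real.sqrt 2 ≤ 3 / 4 := by
  have h : (4:ℝ) / 3 ≤ Real.sqrt 2 := Real.le_sqrt_of_sq_le (by norm_num)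
  rw [div_le_iff₀ (by positivity)]
  linarith

theorem inv_sqrt_two_le' : (1:ℝ) / Real.sqrt 2 ≤ 27 / 38 := by
  have h : (38:ℝ) / 27 ≤ Real.sqrt 2 := Real.le_sqrt_of_sq_le (by norm_num)
  rw [div_le_iff₀ (by positivity)]
  linarith

/-- Dyadic step: along `m = 2 ^ j * n₀` the function `U m` stays below `1 / 4` at the points
`x + 38 * A / √m`. -/
theorem dyadic_quarter (hA : 0 < A) (hU0 : ∀ n c, 0 ≤ c → 0 ≤ U n c)
    (H1 : ∀ n₁ n₂ c, 1 ≤ n₁ → 1 ≤ n₂ → 0 ≤ c → (1 - U n₁ c) * (1 - U n₂ c) ≤ 1 - U (n₁ + n₂) c)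
    (H2 : ∀ n : ℕ, 1 ≤ n → ∀ a b : ℝ, 0 ≤ a → a < b → b ≤ C₀ →
      (b - a) * U n a * (1 - U n b) ≤ A / Real.sqrt n)
    {n₀ : ℕ} (hn₀ : 1 ≤ n₀) {x : ℝ} (hx : 0 ≤ x)
    (hxC : x + 38 * A / Real.sqrt n₀ ≤ C₀)
    (h0 : U n₀ (x + 38 * A / Real.sqrt n₀) ≤ 1 / 4) (j : ℕ) :
    U (2 ^ j * n₀) (x + 38 * A / Real.sqrt ((2 ^ j * n₀ : ℕ) : ℝ)) ≤ 1 / 4 := by
  induction j with
  | zero => simpa only [pow_zero, one_mul, one_div] using h0
  | succ j ih =>
    set m : ℕ := 2 ^ j * n₀ with hm
    have hm1 : 1 ≤ m := by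
      rw [hm]
      exact Nat.one_le_iff_ne_zero.mpr (by positivity)
    have hmle : n₀ ≤ m := by
      rw [hm]
      exact Nat.le_mul_of_pos_left n₀ (by positivity)
    have hm2 : 2 ^ (j + 1) * n₀ = m + m := by
      rw [hm]
      ring
    rw [hm2]
    have hs : 0 < Real.sqrt (m:ℝ) := Real.sqrt_pos.mpr (by exact_mod_cast hm1)
    have hs0 : 0 < Real.sqrt (n₀:ℝ) := Real.sqrt_pos.mpr (by exact_mod_cast hn₀)
    have hs2 : Real.sqrt ((m + m : ℕ) : ℝ) = Real.sqrt 2 * Real.sqrt (m:ℝ) := by
      rw [← Real.sqrt_mul (by norm_num)]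
      congr 1
      push_cast
      ring
    rw [hs2]
    have h2 : 0 < Real.sqrt 2 := by positivity
    set y : ℝ := x + 38 * A / Real.sqrt (m:ℝ) with hy
    set z : ℝ := x + 38 * A / (Real.sqrt 2 * Real.sqrt (m:ℝ)) with hz
    have hz0 : 0 ≤ z := by (clear * - hx hA hn₀; positivity)
    have hyC : y ≤ C₀ := by
      refine le_trans ?_ hxC
      have hle : Real.sqrt (n₀:ℝ) ≤ Real.sqrt (m:ℝ) :=
        Real.sqrt_le_sqrt (by exact_mod_cast hmle)
      have : 38 * A / Real.sqrt (m:ℝ) ≤ 38 * A / Real.sqrt (n₀:ℝ) :=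
        div_le_div_of_nonneg_left (by positivity) hs0 hle
      rw [hy]
      linarith only [this]
    have hyz : 11 * A / Real.sqrt (m:ℝ) ≤ y - z := by
      have e : y - z = (38 * A / Real.sqrt (m:ℝ)) * (1 - 1 / Real.sqrt 2) := by
        rw [hy, hz]
        field_simp
        ring
      rw [e]
      have h3 : (11:ℝ) / 38 ≤ 1 - 1 / Real.sqrt 2 := by
        have := inv_sqrt_two_le'
        linarith only [this]
      calc 11 * A / Real.sqrt (m:ℝ) = (38 * A / Real.sqrt (m:ℝ)) * (11 / 38) := by ring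
        _ ≤ _ := mul_le_mul_of_nonneg_left h3 (by positivity)
    have hpos : 0 < 11 * A / Real.sqrt (m:ℝ) := by positivity
    have hzy : z < y := by linarith only [hyz, hpos]
    have hU : U m z ≤ A / ((y - z) * (3 / 4) * Real.sqrt (m:ℝ)) :=
      window_use U C₀ A hU0 H2 hm1 hz0 hzy hyC (by norm_num) (by linarith only [ih])
    have hU' : U m z ≤ 1 / 8 := by
      refine le_trans hU ?_
      have hyz' : 11 * A ≤ (y - z) * Real.sqrt (m:ℝ) := by
        rw [div_le_iff₀ hs] at hyz
        exact hyz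
      have hpos' : 0 < (y - z) * (3 / 4) * Real.sqrt (m:ℝ) := by
        have : 0 < y - z := by linarith only [hyz, hpos]
        positivity
      rw [div_le_iff₀ hpos']
      nlinarith only [hA, hyz']
    have hz1 := H1 m m z hm1 hm1 hz0
    have hz2 : 0 ≤ U m z := hU0 m z hz0
    nlinarith only [hU', hz1]

theorem sqrt_two_pow_mul_ge (n₀ : ℕ) (hn₀ : 1 ≤ n₀) (j : ℕ) :
    1 / Real.sqrt ((2 ^ j * n₀ : ℕ) : ℝ) ≤ (3 / 4) ^ j / Real.sqrt n₀ := by
  have hs0 : 0 < Real.sqrt (n₀:ℝ) := Real.sqrt_pos.mpr (by exact_mod_cast hn₀)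
  induction j with
  | zero => simp only [pow_zero, one_mul, one_div, Std.le_refl]
  | succ j ih =>
    have hm1 : (0:ℝ) < ((2 ^ j * n₀ : ℕ) : ℝ) := by
      have : 0 < n₀ := hn₀
      positivity
    have hs : 0 < Real.sqrt ((2 ^ j * n₀ : ℕ) : ℝ) := Real.sqrt_pos.mpr hm1
    have hs2 : Real.sqrt ((2 ^ (j + 1) * n₀ : ℕ) : ℝ)
        = Real.sqrt 2 * Real.sqrt ((2 ^ j * n₀ : ℕ) : ℝ) := by
      rw [← Real.sqrt_mul (by norm_num)]
      congr 1
      push_cast
      ring
    rw [hs2]
    calc 1 / (Real.sqrt 2 * Real.sqrt ((2 ^ j * n₀ : ℕ) : ℝ))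
        = (1 / Real.sqrt 2) * (1 / Real.sqrt ((2 ^ j * n₀ : ℕ) : ℝ)) := by
          (clear * - hn₀; field_simp)
      _ ≤ (3 / 4) * ((3 / 4) ^ j / Real.sqrt n₀) :=
          mul_le_mul inv_sqrt_two_le ih (by positivity) (by norm_num)
      _ = (3 / 4) ^ (j + 1) / Real.sqrt n₀ := by ring

/-- Sub-additivity along multiples of `n₀` and binary expansion. -/
theorem binary_sum {n₀ : ℕ} (hn₀ : 1 ≤ n₀) {x B : ℝ} (hx : 0 ≤ x) (hB : 0 ≤ B)
    (hU0 : ∀ n c, 0 ≤ c → 0 ≤ U n c)
    (H1 : ∀ n₁ n₂ c, 1 ≤ n₁ → 1 ≤ n₂ → 0 ≤ c → (1 - U n₁ c) * (1 - U n₂ c) ≤ 1 - U (n₁ + n₂) c)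
    (hdy : ∀ j : ℕ, U (2 ^ j * n₀) x ≤ B * (3 / 4) ^ j) (J : ℕ) :
    ∀ Q : ℕ, 1 ≤ Q → Q < 2 ^ J → U (Q * n₀) x ≤ 4 * B * (1 - (3 / 4) ^ J) := by
  induction J with
  | zero =>
    intro Q h1 h2
    simp at h2
    omega
  | succ J ih =>
    intro Q h1 h2
    have hp : (0:ℝ) < (3 / 4) ^ J := by positivity
    have hp1 : ((3:ℝ) / 4) ^ J ≤ 1 := pow_le_one₀ (by norm_num) (by norm_num)
    have hstep : (4:ℝ) * B * (1 - (3 / 4) ^ (J + 1)) = 4 * B * (1 - (3 / 4) ^ J)
        + B * (3 / 4) ^ J := by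
      rw [pow_succ]
      ring
    have hbp : 0 ≤ B * (3 / 4) ^ J := by (clear * - hB; positivity)
    rcases lt_or_ge Q (2 ^ J) with hlt | hge
    · have := ih Q h1 hlt
      rw [hstep]
      linarith only [hbp, this]
    · obtain ⟨Q', rfl⟩ := Nat.exists_eq_add_of_le hge
      rcases Nat.eq_zero_or_pos Q' with h0 | hpos
      · subst h0
        rw [hstep]
        have h3 := hdy J
        have h4 : 0 ≤ 4 * B * (1 - (3 / 4) ^ J) := by
          apply mul_nonneg (by (clear * - hB; positivity))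
          linarith only [hp1]
        simpa only [add_zero, ge_iff_le] using h3.trans (by linarith)
      · have hlt : Q' < 2 ^ J := by
          rw [pow_succ] at h2
          omega
        have h3 := hdy J
        have h4 := ih Q' hpos hlt
        have h5 := H1 (2 ^ J * n₀) (Q' * n₀) x
          (Nat.one_le_iff_ne_zero.mpr (by positivity))
          (Nat.one_le_iff_ne_zero.mpr (by positivity)) hx
        have h6 := hU0 (2 ^ J * n₀) x hx
        have h7 := hU0 (Q' * n₀) x hx
        have h8 : (2 ^ J + Q') * n₀ = 2 ^ J * n₀ + Q' * n₀ := by ring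
        rw [h8, hstep]
        nlinarith only [h3, h4, h5, h6, h7]

/-- If `1 - U n c` does not tend to zero, then `U n` tends to zero at every point
at distance at least `4 ε` below `c`. -/
theorem tendsto_zero_below (hA : 0 < A) (hU0 : ∀ n c, 0 ≤ c → 0 ≤ U n c)
    (hmono : ∀ n a b, 0 ≤ a → a ≤ b → U n a ≤ U n b)
    (H1 : ∀ n₁ n₂ c, 1 ≤ n₁ → 1 ≤ n₂ → 0 ≤ c → (1 - U n₁ c) * (1 - U n₂ c) ≤ 1 - U (n₁ + n₂) c)
    (H2 : ∀ n : ℕ, 1 ≤ n → ∀ a b : ℝ, 0 ≤ a → a < b → b ≤ C₀ →
      (b - a) * U n a * (1 - U n b) ≤ A / Real.sqrt n)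
    (H3 : ∀ (n : ℕ) c, 0 ≤ c → Real.exp (-(c * n)) ≤ 1 - U n c)
    {y ε δ : ℝ} (hy : 0 ≤ y) (hε : 0 < ε) (hδ : 0 < δ) (hyC : y + 4 * ε ≤ C₀)
    (hfreq : ∀ N : ℕ, ∃ n, N ≤ n ∧ δ ≤ 1 - U n (y + 4 * ε)) :
    Tendsto (fun n => U n y) atTop (𝓝 0) := by
  -- choose the base size
  obtain ⟨N₀, hN₀⟩ := exists_nat_ge ((38 * A / ε + 4 * A / (ε * δ)) ^ 2)
  obtain ⟨n₀, hNn, hn₀δ⟩ := hfreq (max N₀ 1)
  have hn₀ : 1 ≤ n₀ := le_trans (le_max_right _ _) hNn
  have hN₀n : N₀ ≤ n₀ := le_trans (le_max_left _ _) hNn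
  have hn₀pos : (0:ℝ) < n₀ := by exact_mod_cast hn₀
  have hs0 : 0 < Real.sqrt (n₀:ℝ) := Real.sqrt_pos.mpr hn₀pos
  have hsq : 38 * A / ε + 4 * A / (ε * δ) ≤ Real.sqrt (n₀:ℝ) := by
    apply Real.le_sqrt_of_sq_le
    exact hN₀.trans (by exact_mod_cast hN₀n)
  have hs1 : 38 * A / ε ≤ Real.sqrt (n₀:ℝ) := by
    have : 0 ≤ 4 * A / (ε * δ) := by positivity
    linarith only [hsq, this]
  have hs2 : 4 * A / (ε * δ) ≤ Real.sqrt (n₀:ℝ) := by
    have : 0 ≤ 38 * A / ε := by positivity
    linarith only [hsq, this]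
  have hs1' : 38 * A ≤ ε * Real.sqrt (n₀:ℝ) := by
    rw [div_le_iff₀ hε] at hs1
    linarith only [hs1]
  have hs2' : 4 * A ≤ ε * δ * Real.sqrt (n₀:ℝ) := by
    rw [div_le_iff₀ (by (clear * - hε hδ; positivity))] at hs2
    linarith only [hs2]
  -- first step
  have hq0 : U n₀ (y + 3 * ε) ≤ 1 / 4 := by
    have h := window_use U C₀ A hU0 H2 hn₀ (a := y + 3 * ε) (b := y + 4 * ε) (v := δ)
      (by (clear * - hy hε; positivity)) (by linarith only [hε]) hyC hδ hn₀δ
    refine h.trans ?_
    have e : y + 4 * ε - (y + 3 * ε) = ε := by ring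
    rw [e, div_le_iff₀ (by (clear * - hε hδ hn₀; positivity))]
    linarith only [hs2']
  have h38 : 38 * A / Real.sqrt n₀ ≤ ε := by
    rw [div_le_iff₀ hs0]
    exact hs1'
  have hle3 : y + 2 * ε + 38 * A / Real.sqrt n₀ ≤ y + 3 * ε := by linarith only [h38]
  have hq1 : U n₀ (y + 2 * ε + 38 * A / Real.sqrt n₀) ≤ 1 / 4 :=
    (hmono n₀ _ _ (by (clear * - hy hε hA hn₀; positivity)) hle3).trans hq0
  have hdy := dyadic_quarter U C₀ A hA hU0 H1 H2 hn₀ (x := y + 2 * ε) (by positivity)
    (by linarith only [hε, hyC, h38]) hq1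
  -- bound at `y + ε`
  set B : ℝ := 4 / 3 * A / (ε * Real.sqrt n₀) with hBdef
  have hB : 0 ≤ B := by positivity
  have hB8 : 4 * B ≤ 1 / 2 := by
    have : B * (ε * Real.sqrt n₀) = 4 / 3 * A := by
      rw [hBdef]
      field_simp
    have h1 : 0 < ε * Real.sqrt (n₀:ℝ) := by positivity
    by_contra hcon
    push Not at hcon
    have : (1/8) * (ε * Real.sqrt n₀) < B * (ε * Real.sqrt n₀) :=
      mul_lt_mul_of_pos_right (by linarith only [hcon]) h1
    nlinarith
  have hdy2 : ∀ j : ℕ, U (2 ^ j * n₀) (y + ε) ≤ B * (3 / 4) ^ j := by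
    intro j
    have hm1 : 1 ≤ 2 ^ j * n₀ := Nat.one_le_iff_ne_zero.mpr (by positivity)
    have hspos : 0 < Real.sqrt ((2 ^ j * n₀ : ℕ) : ℝ) :=
      Real.sqrt_pos.mpr (by exact_mod_cast hm1)
    have h1 : U (2 ^ j * n₀) (y + 2 * ε) ≤ 1 / 4 :=
      (hmono _ _ _ (by (clear * - hy hε; positivity)) (by
        have : 0 ≤ 38 * A / Real.sqrt ((2 ^ j * n₀ : ℕ) : ℝ) := by positivity
        linarith only [this])).trans (hdy j)
    have h2 := window_use U C₀ A hU0 H2 hm1 (a := y + ε) (b := y + 2 * ε) (v := 3 / 4)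
      (by (clear * - hy hε; positivity)) (by linarith only [hε]) (by linarith only [hε, hyC]) (by norm_num) (by linarith only [h1])
    refine h2.trans ?_
    have e : y + 2 * ε - (y + ε) = ε := by ring
    rw [e]
    have h3 := sqrt_two_pow_mul_ge n₀ hn₀ j
    calc A / (ε * (3 / 4) * Real.sqrt ((2 ^ j * n₀ : ℕ) : ℝ))
        = (4 / 3 * A / ε) * (1 / Real.sqrt ((2 ^ j * n₀ : ℕ) : ℝ)) := by
          field_simp
      _ ≤ (4 / 3 * A / ε) * ((3 / 4) ^ j / Real.sqrt n₀) :=
          mul_le_mul_of_nonneg_left h3 (by positivity)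
      _ = B * (3 / 4) ^ j := by
          rw [hBdef]
          field_simp
  have hbin : ∀ Q : ℕ, 1 ≤ Q → U (Q * n₀) (y + ε) ≤ 1 / 2 := by
    intro Q hQ
    have h := binary_sum U hn₀ (by (clear * - hy hε; positivity)) hB hU0 H1 hdy2 Q Q hQ Nat.lt_two_pow_self
    refine h.trans ?_
    have hp : (0:ℝ) < (3 / 4) ^ Q := by positivity
    nlinarith only [hB8, hB, hp]
  -- lower bound for all sizes
  set v₀ : ℝ := 1 / 2 * Real.exp (-((y + ε) * n₀)) with hv₀
  have hv₀pos : 0 < v₀ := by positivity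
  have hyε : 0 ≤ y + ε := by (clear * - hy hε; positivity)
  have hexp1 : Real.exp (-((y + ε) * n₀)) ≤ 1 := by
    rw [Real.exp_le_one_iff]
    have : 0 ≤ (y + ε) * n₀ := by (clear * - hy hε hn₀; positivity)
    linarith only [this]
  have hall : ∀ N : ℕ, n₀ ≤ N → v₀ ≤ 1 - U N (y + ε) := by
    intro N hN
    have hQ : 1 ≤ N / n₀ := (Nat.one_le_div_iff (by (clear * - hn₀; omega))).mpr hN
    have hNe : N / n₀ * n₀ + N % n₀ = N := Nat.div_add_mod' N n₀
    have h1 := hbin (N / n₀) hQ
    rcases Nat.eq_zero_or_pos (N % n₀) with h0 | hpos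
    · rw [h0, add_zero] at hNe
      rw [hNe] at h1
      rw [hv₀]
      linarith only [hexp1, h1]
    · have h2 := H1 (N / n₀ * n₀) (N % n₀) (y + ε)
        (Nat.one_le_iff_ne_zero.mpr (by (clear * - hQ hn₀; positivity))) hpos hyε
      rw [hNe] at h2
      refine le_trans ?_ h2
      rw [hv₀]
      have h3 : Real.exp (-((y + ε) * n₀)) ≤ 1 - U (N % n₀) (y + ε) := by
        refine le_trans ?_ (H3 (N % n₀) (y + ε) hyε)
        apply Real.exp_le_exp.mpr
        have : ((N % n₀ : ℕ) : ℝ) ≤ n₀ := by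
          exact_mod_cast (Nat.mod_lt N (by omega)).le
        nlinarith only [this, hyε]
      exact mul_le_mul (by linarith only [h1]) h3 (Real.exp_pos _).le (by linarith only [h1])
  -- conclusion
  have hupper : ∀ᶠ N : ℕ in atTop, U N y ≤ A / (ε * v₀) * (1 / Real.sqrt (N:ℝ)) := by
    filter_upwards [eventually_ge_atTop n₀] with N hN
    have hN1 : 1 ≤ N := le_trans hn₀ hN
    have hspos : 0 < Real.sqrt (N:ℝ) := Real.sqrt_pos.mpr (by exact_mod_cast hN1)
    have h := window_use U C₀ A hU0 H2 hN1 (a := y) (b := y + ε) (v := v₀)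
      hy (by linarith only [hε]) (by linarith only [hε, hyC]) hv₀pos (hall N hN)
    refine h.trans (le_of_eq ?_)
    have e : y + ε - y = ε := by ring
    rw [e]
    (clear * - hN1 hv₀pos hε hA; field_simp)
  have hlim : Tendsto (fun N : ℕ => A / (ε * v₀) * (1 / Real.sqrt (N:ℝ))) atTop (𝓝 0) := by
    have h1 : Tendsto (fun N : ℕ => Real.sqrt (N:ℝ)) atTop atTop :=
      Real.tendsto_sqrt_atTop.comp tendsto_natCast_atTop_atTop
    have h2 : Tendsto (fun N : ℕ => 1 / Real.sqrt (N:ℝ)) atTop (𝓝 0) := by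
      simp only [one_div]
      exact tendsto_inv_atTop_zero.comp h1
    simpa only [one_div, mul_zero] using h2.const_mul (A / (ε * v₀))
  exact tendsto_of_tendsto_of_tendsto_of_le_of_le' tendsto_const_nhds hlim
    (Eventually.of_forall (fun N => hU0 N y hy)) hupper

end Threshold

theorem exists_threshold (U : ℕ → ℝ → ℝ) (C₀ A : ℝ) (hC₀ : 0 < C₀)
    (hU0 : ∀ n c, 0 ≤ c → 0 ≤ U n c) (hU1 : ∀ n c, 0 ≤ c → U n c ≤ 1)
    (hmono : ∀ n a b, 0 ≤ a → a ≤ b → U n a ≤ U n b)
    (H1 : ∀ n₁ n₂ c, 1 ≤ n₁ → 1 ≤ n₂ → 0 ≤ c → (1 - U n₁ c) * (1 - U n₂ c) ≤ 1 - U (n₁ + n₂) c)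
    (H2 : ∀ n : ℕ, 1 ≤ n → ∀ a b : ℝ, 0 ≤ a → a < b → b ≤ C₀ →
      (b - a) * U n a * (1 - U n b) ≤ A / Real.sqrt n)
    (H3 : ∀ (n : ℕ) c, 0 ≤ c → Real.exp (-(c * n)) ≤ 1 - U n c)
    (H4 : Tendsto (fun n => U n C₀) atTop (𝓝 1)) :
    ∃ α : ℝ, 0 ≤ α ∧ (∀ c, 0 ≤ c → c < α → Tendsto (fun n => U n c) atTop (𝓝 0)) ∧
      (∀ c, α < c → Tendsto (fun n => U n c) atTop (𝓝 1)) := by
  -- replace `A` by a positive constant
  set A' : ℝ := max A 1 with hA'
  have hA'pos : 0 < A' := lt_of_lt_of_le one_pos (le_max_right _ _)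
  have H2' : ∀ n : ℕ, 1 ≤ n → ∀ a b : ℝ, 0 ≤ a → a < b → b ≤ C₀ →
      (b - a) * U n a * (1 - U n b) ≤ A' / Real.sqrt n := by
    intro n hn a b ha hab hb
    refine (H2 n hn a b ha hab hb).trans ?_
    exact div_le_div_of_nonneg_right (le_max_left _ _) (Real.sqrt_nonneg _)
  set G : Set ℝ := {c | 0 ≤ c ∧ c ≤ C₀ ∧ Tendsto (fun n => U n c) atTop (𝓝 0)} with hG
  have hbdd : BddAbove (insert 0 G) := by
    refine ⟨C₀, ?_⟩
    rintro c (rfl | hc)
    · exact hC₀.le
    · exact hc.2.1
  refine ⟨sSup (insert 0 G), le_csSup hbdd (Set.mem_insert _ _), ?_, ?_⟩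
  · intro c hc hcα
    obtain ⟨g, hg, hcg⟩ := exists_lt_of_lt_csSup (Set.insert_nonempty _ _) hcα
    rcases hg with rfl | hg
    · exact absurd hcg (not_lt.mpr hc)
    · exact tendsto_of_tendsto_of_tendsto_of_le_of_le tendsto_const_nhds hg.2.2
        (fun n => hU0 n c hc) (fun n => hmono n c g hc hcg.le)
  · intro c hc
    set α : ℝ := sSup (insert 0 G) with hα
    have hα0 : 0 ≤ α := le_csSup hbdd (Set.mem_insert _ _)
    have hc0 : 0 ≤ c := by linarith only [hc, hα0]
    rcases le_or_gt C₀ c with hCc | hcC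
    · exact tendsto_of_tendsto_of_tendsto_of_le_of_le H4 tendsto_const_nhds
        (fun n => hmono n C₀ c hC₀.le hCc) (fun n => hU1 n c hc0)
    · by_contra hnot
      -- frequently far from one
      have hfreq : ∃ δ : ℝ, 0 < δ ∧ ∀ N : ℕ, ∃ n, N ≤ n ∧ δ ≤ 1 - U n c := by
        by_contra hcon
        push Not at hcon
        apply hnot
        rw [Metric.tendsto_atTop]
        intro δ hδ
        obtain ⟨N, hN⟩ := hcon δ hδ
        refine ⟨N, fun n hn => ?_⟩
        have h1 := hN n hn
        have h2 := hU1 n c hc0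
        rw [Real.dist_eq, abs_sub_lt_iff]
        constructor <;> linarith only [h1, hδ, h2]
      obtain ⟨δ, hδ, hfr⟩ := hfreq
      set ε : ℝ := (c - α) / 5 with hε
      have hεpos : 0 < ε := by
        rw [hε]
        linarith only [hc]
      have hce : α + ε + 4 * ε = c := by
        rw [hε]
        ring
      have hz := tendsto_zero_below U C₀ A' hA'pos hU0 hmono H1 H2' H3
        (y := α + ε) (ε := ε) (δ := δ) (by (clear * - hα0 hc; positivity)) hεpos hδ (by linarith only [hcC, hε])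
        (by rw [hce]; exact hfr)
      have hmem : α + ε ∈ insert 0 G :=
        Set.mem_insert_of_mem _ ⟨by (clear * - hα0 hc; positivity), by linarith only [hc, hcC, hε], hz⟩
      have := le_csSup hbdd hmem
      linarith only [hεpos, this]

end Vale.Agent.P170
end
end

section

section

/-!
Transfer between the rate model (Poisson number of tuples of literals) and the model with a
fixed number of independent proper clauses.
-/

namespace Vale.Agent.P170

open Finset Filter Topology

section Poisson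

/-- Poisson weight -/
noncomputable def poi (μ : ℝ) (m : ℕ) : ℝ := Real.exp (-μ) * (μ ^ m / (m.factorial : ℝ))

theorem poi_nonneg {μ : ℝ} (hμ : 0 ≤ μ) (m : ℕ) : 0 ≤ poi μ m := by
  unfold poi; (clear * - hμ; positivity)

theorem hasSum_pow_exp (x : ℝ) : HasSum (fun m : ℕ => x ^ m / (m.factorial : ℝ)) (Real.exp x) := by
  rw [Real.exp_eq_exp_ℝ]
  exact NormedSpace.expSeries_div_hasSum_exp x

theorem hasSum_poi (μ : ℝ) : HasSum (poi μ) 1 := by
  have h := (hasSum_pow_exp μ).mul_left (Real.exp (-μ))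
  rw [← Real.exp_add, neg_add_cancel, Real.exp_zero] at h
  exact h

theorem poi_succ (μ : ℝ) (m : ℕ) : poi μ (m + 1) * (m + 1) = μ * poi μ m := by
  unfold poi
  rw [Nat.factorial_succ]
  push_cast
  have h1 : ((m : ℝ) + 1) ≠ 0 := by positivity
  have h2 : (m.factorial : ℝ) ≠ 0 := by positivity
  field_simp
  ring

/-- lower tail of the Poisson distribution -/
theorem poi_lower {μ : ℝ} (hμ : 0 < μ) (m₀ : ℕ) :
    ∑ m ∈ Finset.range m₀, poi μ m ≤ m₀ / μ := by
  have h1 : ∀ m ∈ Finset.range m₀, poi μ m ≤ (m₀ / μ) * poi μ (m + 1) := by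
    intro m hm
    rw [Finset.mem_range] at hm
    have h2 := poi_succ μ m
    have h3 : poi μ m = poi μ (m + 1) * (m + 1) / μ := by
      rw [h2]; field_simp
    rw [h3]
    have h4 : 0 ≤ poi μ (m + 1) := poi_nonneg hμ.le _
    have h5 : ((m : ℝ) + 1) ≤ m₀ := by exact_mod_cast hm
    rw [div_mul_eq_mul_div]
    apply div_le_div_of_nonneg_right _ hμ.le
    nlinarith only [h4, h5]
  calc ∑ m ∈ Finset.range m₀, poi μ m
      ≤ ∑ m ∈ Finset.range m₀, (m₀ / μ) * poi μ (m + 1) := Finset.sum_le_sum h1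
    _ = (m₀ / μ) * ∑ m ∈ Finset.range m₀, poi μ (m + 1) := by rw [Finset.mul_sum]
    _ ≤ (m₀ / μ) * 1 := by
        apply mul_le_mul_of_nonneg_left _ (by positivity)
        have h6 : ∑ m ∈ Finset.range m₀, poi μ (m + 1) ≤ ∑ m ∈ Finset.range (m₀ + 1), poi μ m := by
          rw [Finset.sum_range_succ' (poi μ) m₀]
          have := poi_nonneg hμ.le 0
          linarith only [this]
        refine h6.trans ?_
        exact sum_le_hasSum _ (fun i _ => poi_nonneg hμ.le i) (hasSum_poi μ)
    _ = m₀ / μ := by ring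

/-- upper tail of the Poisson distribution -/
theorem poi_upper {μ : ℝ} (hμ : 0 ≤ μ) (m₀ : ℕ) :
    1 - μ / (m₀ + 1) ≤ ∑ m ∈ Finset.range (m₀ + 1), poi μ m := by
  have hs := hasSum_poi μ
  have h1 : HasSum (fun m => poi μ (m + (m₀ + 1))) (1 - ∑ m ∈ Finset.range (m₀ + 1), poi μ m) := by
    rw [hasSum_nat_add_iff' (m₀ + 1)]
    exact hs
  have h2 : HasSum (fun m => poi μ (m + m₀)) (1 - ∑ m ∈ Finset.range m₀, poi μ m) := by
    rw [hasSum_nat_add_iff' m₀]
    exact hs
  have h3 : ∀ m, poi μ (m + (m₀ + 1)) ≤ (μ / (m₀ + 1)) * poi μ (m + m₀) := by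
    intro m
    have h4 := poi_succ μ (m + m₀)
    have h5 : poi μ (m + (m₀ + 1)) = μ * poi μ (m + m₀) / ((m + m₀ : ℕ) + 1) := by
      rw [← h4]
      have : (((m + m₀ : ℕ) : ℝ) + 1) ≠ 0 := by (clear * -; positivity)
      field_simp
      rfl
    rw [h5, div_mul_eq_mul_div]
    apply div_le_div_of_nonneg_left
    · exact mul_nonneg hμ (poi_nonneg hμ _)
    · positivity
    · push_cast
      have : (0:ℝ) ≤ m := by (clear * -; positivity)
      linarith only []
  have h6 := hasSum_le h3 h1 (h2.mul_left (μ / (m₀ + 1)))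
  have h7 : (μ / (m₀ + 1)) * (1 - ∑ m ∈ Finset.range m₀, poi μ m) ≤ μ / (m₀ + 1) := by
    have h8 : 0 ≤ μ / ((m₀ : ℝ) + 1) := by (clear * - hμ; positivity)
    have h9 : 0 ≤ ∑ m ∈ Finset.range m₀, poi μ m :=
      Finset.sum_nonneg (fun i _ => poi_nonneg hμ i)
    nlinarith only [h8, h9]
  linarith

variable {E : Type*} [Fintype E] [DecidableEq E]

theorem sum_zeta_image (T : Finset E) (m : ℕ) :
    ∑ y : Fin m → E, zeta T (Finset.univ.image y) = (T.card : ℝ) ^ m := by
  have h1 : ∀ y : Fin m → E, zeta T (Finset.univ.image y)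
      = if y ∈ Fintype.piFinset (fun _ : Fin m => T) then (1:ℝ) else 0 := by
    intro y
    unfold zeta
    have h2 : Finset.univ.image y ⊆ T ↔ y ∈ Fintype.piFinset (fun _ : Fin m => T) := by
      rw [Fintype.mem_piFinset]
      constructor
      · intro h i
        exact h (Finset.mem_image_of_mem y (Finset.mem_univ i))
      · intro h e he
        obtain ⟨i, _, rfl⟩ := Finset.mem_image.mp he
        exact h i
    by_cases h3 : Finset.univ.image y ⊆ T
    · rw [if_pos h3, if_pos (h2.mp h3)]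
    · rw [if_neg h3, if_neg (fun h => h3 (h2.mpr h))]
  rw [Finset.sum_congr rfl (fun y _ => h1 y), Finset.sum_ite_mem, Finset.univ_inter,
    Finset.sum_const, nsmul_eq_mul, mul_one, Fintype.card_piFinset_const]
  push_cast
  rfl

/-- the product model with constant rate is a Poisson number of independent uniform elements -/
theorem hasSum_Ex_const (r : ℝ) (f : Finset E → ℝ) :
    HasSum (fun m : ℕ => Real.exp (-(r * Fintype.card E)) * (r ^ m / (m.factorial : ℝ)) *
      ∑ y : Fin m → E, f (Finset.univ.image y)) (Ex (fun _ => r) f) := by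
  apply zeta_induction (P := fun f => HasSum (fun m : ℕ => Real.exp (-(r * Fintype.card E)) *
    (r ^ m / (m.factorial : ℝ)) * ∑ y : Fin m → E, f (Finset.univ.image y)) (Ex (fun _ => r) f))
  · intro T
    rw [Ex_zeta]
    simp only [sum_zeta_image]
    have h1 := (hasSum_pow_exp (r * T.card)).mul_left (Real.exp (-(r * Fintype.card E)))
    have h2 : Real.exp (-(r * Fintype.card E)) * Real.exp (r * T.card)
        = Real.exp (-∑ _e ∈ Tᶜ, r) := by
      rw [← Real.exp_add]
      congr 1
      rw [Finset.sum_const, nsmul_eq_mul, Finset.card_compl, Nat.cast_sub (Finset.card_le_univ T)]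
      ring
    rw [h2] at h1
    have h3 : (fun m : ℕ => Real.exp (-(r * Fintype.card E)) * (r ^ m / (m.factorial : ℝ)) *
        (T.card : ℝ) ^ m) = fun m : ℕ => Real.exp (-(r * Fintype.card E)) *
          ((r * T.card) ^ m / (m.factorial : ℝ)) := by
      funext m
      rw [mul_pow]
      ring
    rw [h3]
    exact h1
  · intro f g hf hg
    have h1 := hf.add hg
    rw [← Ex_add] at h1
    have h3 : (fun m : ℕ => Real.exp (-(r * Fintype.card E)) * (r ^ m / (m.factorial : ℝ)) *
        ∑ y : Fin m → E, (f (Finset.univ.image y) + g (Finset.univ.image y)))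
        = fun m : ℕ => Real.exp (-(r * Fintype.card E)) * (r ^ m / (m.factorial : ℝ)) *
            ∑ y : Fin m → E, f (Finset.univ.image y)
          + Real.exp (-(r * Fintype.card E)) * (r ^ m / (m.factorial : ℝ)) *
            ∑ y : Fin m → E, g (Finset.univ.image y) := by
      funext m
      rw [Finset.sum_add_distrib]
      ring
    rw [h3]
    exact h1
  · intro c f hf
    have h1 := hf.mul_left c
    rw [← Ex_smul] at h1
    have h3 : (fun m : ℕ => Real.exp (-(r * Fintype.card E)) * (r ^ m / (m.factorial : ℝ)) *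
        ∑ y : Fin m → E, c * f (Finset.univ.image y))
        = fun m : ℕ => c * (Real.exp (-(r * Fintype.card E)) * (r ^ m / (m.factorial : ℝ)) *
            ∑ y : Fin m → E, f (Finset.univ.image y)) := by
      funext m
      rw [← Finset.mul_sum]
      ring
    rw [h3]
    exact h1

end Poisson


section Proper

open Classical in
/-- the proper clause of a mixed clause, if there is one -/
noncomputable def toP (j n : ℕ) : Cl j (Fin n) → Option (PClause (j + 1) n)
  | Sum.inl e =>
      if h : Function.Injective (fun i => (e i).1) then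
        some ⟨Finset.univ.image e, by
          constructor
          · rw [Finset.card_image_of_injective _ (fun x y hxy => h (congrArg Prod.fst hxy)),
              Finset.card_univ, Fintype.card_fin]
          · rw [Finset.image_image]
            exact (Finset.card_image_of_injective _ h).trans
              (by rw [Finset.card_univ, Fintype.card_fin])⟩
      else none
  | Sum.inr _ => none

theorem toP_inl_eq_some {j n : ℕ} {e : Tup (j + 1) (Fin n)} {C : PClause (j + 1) n} :
    toP j n (Sum.inl e) = some C ↔ Finset.univ.image e = C.1 := by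
  constructor
  · intro h
    unfold toP at h
    by_cases hi : Function.Injective (fun i => (e i).1)
    · simp only [hi, dif_pos] at h
      exact congrArg Subtype.val (Option.some.inj h)
    · simp only [hi] at h
      simp at h
  · intro h
    have hi : Function.Injective (fun i => (e i).1) := by
      have h1 : (Finset.univ.image (fun i => (e i).1)).card = (Finset.univ : Finset (Fin (j+1))).card := by
        have h2 : Finset.univ.image (fun i => (e i).1) = (Finset.univ.image e).image Prod.fst := by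
          rw [Finset.image_image]
          rfl
        rw [h2, h, C.2.2, Finset.card_univ, Fintype.card_fin]
      exact fun x y hxy => Finset.card_image_iff.mp h1 (Finset.mem_coe.mpr (Finset.mem_univ x))
        (Finset.mem_coe.mpr (Finset.mem_univ y)) hxy
    unfold toP
    simp only [hi, dif_pos]
    congr 1
    exact Subtype.ext h

theorem toP_inl_ne_none {j n : ℕ} {e : Tup (j + 1) (Fin n)} :
    toP j n (Sum.inl e) ≠ none ↔ Function.Injective (fun i => (e i).1) := by
  unfold toP
  by_cases hi : Function.Injective (fun i => (e i).1)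
  · simp [hi]
  · simp [hi]

/-- number of orderings of a set -/
theorem card_image_eq {α : Type*} [Fintype α] [DecidableEq α] (k : ℕ) (C : Finset α)
    (hC : C.card = k) :
    (Finset.univ.filter (fun e : Fin k → α => Finset.univ.image e = C)).card = k.factorial := by
  have h1 : Fintype.card (Fin k ↪ C) = k.factorial := by
    rw [Fintype.card_embedding_eq, Fintype.card_fin, Fintype.card_coe, hC, Nat.descFactorial_self]
  rw [← h1, ← Finset.card_univ]
  symm
  apply Finset.card_bij (fun (g : Fin k ↪ C) _ => fun i => (g i : α))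
  · intro g _
    rw [Finset.mem_filter]
    refine ⟨Finset.mem_univ _, ?_⟩
    apply Finset.eq_of_subset_of_card_le
    · intro a ha
      obtain ⟨i, _, rfl⟩ := Finset.mem_image.mp ha
      exact (g i).2
    · rw [hC, Finset.card_image_of_injective _ (fun x y hxy => g.injective (Subtype.ext hxy)),
        Finset.card_univ, Fintype.card_fin]
  · intro g _ g' _ h
    ext i
    exact congrFun h i
  · intro e he
    rw [Finset.mem_filter] at he
    have h2 : Function.Injective e := by
      have h3 : (Finset.univ.image e).card = (Finset.univ : Finset (Fin k)).card := by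
        rw [he.2, hC, Finset.card_univ, Fintype.card_fin]
      exact fun x y hxy => Finset.card_image_iff.mp h3 (Finset.mem_coe.mpr (Finset.mem_univ x))
        (Finset.mem_coe.mpr (Finset.mem_univ y)) hxy
    refine ⟨⟨fun i => ⟨e i, ?_⟩, ?_⟩, Finset.mem_univ _, ?_⟩
    · rw [← he.2]
      exact Finset.mem_image_of_mem e (Finset.mem_univ i)
    · intro x y hxy
      exact h2 (congrArg Subtype.val hxy)
    · rfl

/-- number of tuples of literals on distinct variables -/
theorem card_proper (k n : ℕ) :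
    (Finset.univ.filter (fun e : Fin k → Fin n × Bool =>
      Function.Injective (fun i => (e i).1))).card = n.descFactorial k * 2 ^ k := by
  have h1 : Fintype.card ((Fin k ↪ Fin n) × (Fin k → Bool)) = n.descFactorial k * 2 ^ k := by
    rw [Fintype.card_prod, Fintype.card_embedding_eq, Fintype.card_fin, Fintype.card_fin,
      Fintype.card_fun, Fintype.card_bool, Fintype.card_fin]
  rw [← h1, ← Finset.card_univ]
  symm
  apply Finset.card_bij (fun (g : (Fin k ↪ Fin n) × (Fin k → Bool)) _ => fun i => (g.1 i, g.2 i))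
  · intro g _
    rw [Finset.mem_filter]
    exact ⟨Finset.mem_univ _, g.1.injective⟩
  · intro g _ g' _ h
    ext i
    · exact congrArg Fin.val (congrArg Prod.fst (congrFun h i))
    · exact congrArg Prod.snd (congrFun h i)
  · intro e he
    rw [Finset.mem_filter] at he
    exact ⟨(⟨fun i => (e i).1, he.2⟩, fun i => (e i).2), Finset.mem_univ _, rfl⟩


theorem card_PClause_mul (j n : ℕ) :
    Fintype.card (PClause (j + 1) n) * (j + 1).factorial
      = n.descFactorial (j + 1) * 2 ^ (j + 1) := by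
  rw [← card_proper (j + 1) n]
  have h1 : (Finset.univ.filter (fun e : Fin (j + 1) → Fin n × Bool =>
      Function.Injective (fun i => (e i).1)))
      = (Finset.univ : Finset (PClause (j + 1) n)).biUnion
        (fun C => Finset.univ.filter (fun e : Fin (j + 1) → Fin n × Bool =>
          Finset.univ.image e = C.1)) := by
    ext e
    rw [Finset.mem_filter, Finset.mem_biUnion]
    constructor
    · rintro ⟨_, he⟩
      have h2 := toP_inl_ne_none.mpr he
      obtain ⟨C, hC⟩ := Option.ne_none_iff_exists'.mp h2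
      exact ⟨C, Finset.mem_univ _, by
        rw [Finset.mem_filter]; exact ⟨Finset.mem_univ _, toP_inl_eq_some.mp hC⟩⟩
    · rintro ⟨C, _, hC⟩
      rw [Finset.mem_filter] at hC
      refine ⟨Finset.mem_univ _, toP_inl_ne_none.mp ?_⟩
      rw [toP_inl_eq_some.mpr hC.2]
      exact Option.some_ne_none C
  rw [h1, Finset.card_biUnion]
  · rw [Finset.sum_congr rfl (fun C _ => card_image_eq (j + 1) C.1 C.2.1), Finset.sum_const,
      Finset.card_univ, smul_eq_mul]
  · intro C _ C' _ hne
    rw [Function.onFun, Finset.disjoint_left]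
    intro e he he'
    rw [Finset.mem_filter] at he he'
    exact hne (Subtype.ext (he.2.symm.trans he'.2))

/-- satisfiability of a set of proper clauses -/
def SatP {k n : ℕ} (T : Finset (PClause k n)) : Prop :=
  ∃ a : Fin n → Bool, ∀ C ∈ T, ∃ l ∈ C.1, a l.1 = l.2

theorem SatP_image {k n m : ℕ} (F : Fin m → PClause k n) :
    SatP (Finset.univ.image F) ↔ Satisfiable F := by
  unfold SatP Satisfiable
  constructor
  · rintro ⟨a, ha⟩
    exact ⟨a, fun i => ha (F i) (Finset.mem_image_of_mem F (Finset.mem_univ i))⟩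
  · rintro ⟨a, ha⟩
    refine ⟨a, fun C hC => ?_⟩
    obtain ⟨i, _, rfl⟩ := Finset.mem_image.mp hC
    exact ha i

/-- probability that the proper part of the formula is satisfiable -/
noncomputable def Vp (j n : ℕ) (r : ℝ) : ℝ :=
  Ex (rate j (Fin n) r 0) (fun S => ind (SatP (push (toP j n) S)))

open Classical in
theorem sum_fibre (j n : ℕ) (r : ℝ) (C : PClause (j + 1) n) :
    ∑ e' ∈ Finset.univ.filter (fun e' => toP j n e' = some C), rate j (Fin n) r 0 e'
      = (j + 1).factorial * r := by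
  rw [Finset.sum_filter, Fintype.sum_sum_type]
  have h1 : ∀ e : Tup j (Fin n), (if toP j n (Sum.inr e) = some C then
      rate j (Fin n) r 0 (Sum.inr e) else 0) = 0 := by
    intro e
    simp [rate]
  have h2 : ∀ e : Tup (j + 1) (Fin n), (if toP j n (Sum.inl e) = some C then
      rate j (Fin n) r 0 (Sum.inl e) else 0) = if Finset.univ.image e = C.1 then r else 0 := by
    intro e
    by_cases h : Finset.univ.image e = C.1
    · rw [if_pos (toP_inl_eq_some.mpr h), if_pos h]
      rfl
    · rw [if_neg (fun h' => h (toP_inl_eq_some.mp h')), if_neg h]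
  rw [Finset.sum_congr rfl (fun e _ => h1 e), Finset.sum_congr rfl (fun e _ => h2 e),
    Finset.sum_const_zero, add_zero, ← Finset.sum_filter, Finset.sum_const, nsmul_eq_mul]
  congr 2
  rw [← card_image_eq (j + 1) C.1 C.2.1]

theorem Vp_eq (j n : ℕ) (r : ℝ) :
    Vp j n r = Ex (fun _ : PClause (j + 1) n => ((j + 1).factorial : ℝ) * r)
      (fun T => ind (SatP T)) := by
  unfold Vp
  rw [Ex_push (toP j n) (rate j (Fin n) r 0) (fun T => ind (SatP T))]
  congr 1
  funext C
  convert sum_fibre j n r C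

theorem sum_ind_Satisfiable (k n m : ℕ) :
    ∑ y : Fin m → PClause k n, ind (SatP (Finset.univ.image y))
      = (Fintype.card (PClause k n) : ℝ) ^ m * satProb k n m := by
  classical
  have h1 : ∑ y : Fin m → PClause k n, ind (SatP (Finset.univ.image y))
      = (Fintype.card {F : Fin m → PClause k n // Satisfiable F} : ℝ) := by
    have h2 : ∀ y : Fin m → PClause k n, ind (SatP (Finset.univ.image y))
        = if Satisfiable y then (1:ℝ) else 0 := by
      intro y
      rw [ind_congr (SatP_image y)]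
      unfold ind
      congr
    rw [Finset.sum_congr rfl (fun y _ => h2 y), Finset.sum_boole, Fintype.card_subtype]
  have h3 : (Fintype.card (Fin m → PClause k n) : ℝ) = (Fintype.card (PClause k n) : ℝ) ^ m := by
    rw [Fintype.card_fun, Fintype.card_fin]
    push_cast
    rfl
  unfold satProb
  rw [h1, ← h3]
  have h4 : (Fintype.card {F : Fin m → PClause k n // Satisfiable F} : ℝ)
      ≤ (Fintype.card (Fin m → PClause k n) : ℝ) := by
    exact_mod_cast Fintype.card_subtype_le _
  by_cases h5 : (Fintype.card (Fin m → PClause k n) : ℝ) = 0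
  · rw [h5] at h4 ⊢
    rw [zero_mul]
    apply le_antisymm h4
    (clear * -; positivity)
  · field_simp


/-- mean number of proper tuples -/
noncomputable def mu (j n : ℕ) (r : ℝ) : ℝ := r * (n.descFactorial (j + 1) * 2 ^ (j + 1))

theorem hasSum_Vp (j n : ℕ) (r : ℝ) :
    HasSum (fun m : ℕ => poi (mu j n r) m * satProb (j + 1) n m) (Vp j n r) := by
  rw [Vp_eq]
  have h := hasSum_Ex_const (((j + 1).factorial : ℝ) * r)
    (fun T : Finset (PClause (j + 1) n) => ind (SatP T))
  have h1 : ((j + 1).factorial : ℝ) * r * Fintype.card (PClause (j + 1) n) = mu j n r := by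
    unfold mu
    have h2 : (Fintype.card (PClause (j + 1) n) : ℝ) * ((j + 1).factorial : ℝ)
      = n.descFactorial (j + 1) * 2 ^ (j + 1) := by exact_mod_cast card_PClause_mul j n
    rw [← h2]
    ring
  have h3 : (fun m : ℕ => Real.exp (-(((j + 1).factorial : ℝ) * r *
      Fintype.card (PClause (j + 1) n))) * ((((j + 1).factorial : ℝ) * r) ^ m / (m.factorial : ℝ)) *
      ∑ y : Fin m → PClause (j + 1) n, ind (SatP (Finset.univ.image y)))
      = fun m : ℕ => poi (mu j n r) m * satProb (j + 1) n m := by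
    funext m
    rw [sum_ind_Satisfiable, ← h1]
    unfold poi
    rw [mul_pow (((j + 1).factorial : ℝ) * r)]
    ring
  rw [← h3]
  exact h

theorem satProb_nonneg (k n m : ℕ) : 0 ≤ satProb k n m := by
  unfold satProb
  positivity

theorem satProb_le_one (k n m : ℕ) : satProb k n m ≤ 1 := by
  classical
  unfold satProb
  apply div_le_one_of_le₀ _ (by positivity)
  exact_mod_cast Fintype.card_subtype_le _

theorem satProb_succ_le (k n m : ℕ) : satProb k n (m + 1) ≤ satProb k n m := by
  classical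
  have h1 : (Fintype.card {F : Fin (m + 1) → PClause k n // Satisfiable F} : ℝ)
      ≤ (Fintype.card (PClause k n) : ℝ)
        * (Fintype.card {F : Fin m → PClause k n // Satisfiable F} : ℝ) := by
    have h2 : Fintype.card {F : Fin (m + 1) → PClause k n // Satisfiable F}
        ≤ Fintype.card (PClause k n × {F : Fin m → PClause k n // Satisfiable F}) := by
      apply Fintype.card_le_of_injective (fun F => (F.1 0, ⟨fun i => F.1 i.succ, by
        obtain ⟨a, ha⟩ := F.2
        exact ⟨a, fun i => ha i.succ⟩⟩))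
      intro F G h
      have h3 := congrArg Prod.fst h
      have h4 := congrArg (fun z => z.2.1) h
      apply Subtype.ext
      funext i
      refine Fin.cases h3 (fun i => congrFun h4 i) i
    rw [Fintype.card_prod] at h2
    exact_mod_cast h2
  unfold satProb
  have h5 : (Fintype.card (Fin (m + 1) → PClause k n) : ℝ)
      = (Fintype.card (PClause k n) : ℝ) * (Fintype.card (Fin m → PClause k n) : ℝ) := by
    rw [Fintype.card_fun, Fintype.card_fun, Fintype.card_fin, Fintype.card_fin]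
    push_cast
    ring
  rw [h5]
  by_cases h6 : (Fintype.card (PClause k n) : ℝ) = 0
  · rw [h6, zero_mul, div_zero]
    (clear * -; positivity)
  · have h7 : 0 < (Fintype.card (PClause k n) : ℝ) := lt_of_le_of_ne (by (clear * - h6; positivity)) (Ne.symm h6)
    have h8 : 0 < (Fintype.card (Fin m → PClause k n) : ℝ) := by
      rw [Fintype.card_fun]
      push_cast
      (clear * - h6; positivity)
    rw [div_le_div_iff₀ (by (clear * - h6 h8; positivity)) h8]
    have h9 : 0 ≤ (Fintype.card (Fin m → PClause k n) : ℝ) := h8.le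
    nlinarith only [h1]

theorem satProb_antitone (k n : ℕ) : Antitone (satProb k n) :=
  antitone_nat_of_succ_le (satProb_succ_le k n)

/-- the satisfiability probability at `m₀` is close to 1 if `Vp` is -/
theorem one_sub_Vp_ge (j n : ℕ) {r : ℝ} (hμ : 0 < mu j n r) (m₀ : ℕ) :
    (1 - m₀ / mu j n r) * (1 - satProb (j + 1) n m₀) ≤ 1 - Vp j n r := by
  have h1 := hasSum_Vp j n r
  have h2 := hasSum_poi (mu j n r)
  have h3 := h2.sub h1
  have h4 : HasSum (fun m => (if m < m₀ then 0 else poi (mu j n r) m)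
      * (1 - satProb (j + 1) n m₀)) ((1 - ∑ m ∈ Finset.range m₀, poi (mu j n r) m)
      * (1 - satProb (j + 1) n m₀)) := by
    apply HasSum.mul_right
    have h5 : HasSum (fun m => if m < m₀ then poi (mu j n r) m else 0)
        (∑ m ∈ Finset.range m₀, poi (mu j n r) m) := by
      have h6 : HasSum (fun m => if m < m₀ then poi (mu j n r) m else 0)
          (∑ m ∈ Finset.range m₀, if m < m₀ then poi (mu j n r) m else 0) :=
        hasSum_sum_of_ne_finset_zero
          (fun m hm => if_neg (fun h => hm (Finset.mem_range.mpr h)))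
      have h7 : ∑ m ∈ Finset.range m₀, (if m < m₀ then poi (mu j n r) m else 0)
          = ∑ m ∈ Finset.range m₀, poi (mu j n r) m :=
        Finset.sum_congr rfl (fun m hm => if_pos (Finset.mem_range.mp hm))
      rw [h7] at h6
      exact h6
    have h8 := h2.sub h5
    have h9 : (fun m => if m < m₀ then 0 else poi (mu j n r) m)
        = fun m => poi (mu j n r) m - if m < m₀ then poi (mu j n r) m else 0 := by
      funext m
      split_ifs <;> ring
    rw [h9]
    exact h8
  have h5 : ∀ m, (if m < m₀ then 0 else poi (mu j n r) m) * (1 - satProb (j + 1) n m₀)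
      ≤ poi (mu j n r) m - poi (mu j n r) m * satProb (j + 1) n m := by
    intro m
    have hp := poi_nonneg hμ.le m
    split_ifs with hm
    · rw [zero_mul]
      have := satProb_le_one (j + 1) n m
      nlinarith only [hp, this]
    · have h6 : satProb (j + 1) n m ≤ satProb (j + 1) n m₀ :=
        satProb_antitone _ _ (not_lt.mp hm)
      nlinarith only [hp, h6]
  have h6 := hasSum_le h5 h4 h3
  have h7 := poi_lower hμ m₀
  have h8 := satProb_le_one (j + 1) n m₀
  refine le_trans ?_ h6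
  apply mul_le_mul_of_nonneg_right _ (by linarith only [h8])
  linarith

/-- the satisfiability probability at `m₀` is close to 0 if `Vp` is -/
theorem Vp_ge (j n : ℕ) {r : ℝ} (hμ : 0 ≤ mu j n r) (m₀ : ℕ) :
    (1 - mu j n r / (m₀ + 1)) * satProb (j + 1) n m₀ ≤ Vp j n r := by
  have h1 := hasSum_Vp j n r
  have h2 : ∑ m ∈ Finset.range (m₀ + 1), poi (mu j n r) m * satProb (j + 1) n m ≤ Vp j n r :=
    sum_le_hasSum _ (fun m _ => mul_nonneg (poi_nonneg hμ m) (satProb_nonneg _ _ _)) h1
  refine le_trans ?_ h2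
  have h3 : ∑ m ∈ Finset.range (m₀ + 1), poi (mu j n r) m * satProb (j + 1) n m₀
      ≤ ∑ m ∈ Finset.range (m₀ + 1), poi (mu j n r) m * satProb (j + 1) n m := by
    apply Finset.sum_le_sum
    intro m hm
    apply mul_le_mul_of_nonneg_left _ (poi_nonneg hμ m)
    exact satProb_antitone _ _ (Nat.lt_succ_iff.mp (Finset.mem_range.mp hm))
  refine le_trans ?_ h3
  rw [← Finset.sum_mul]
  exact mul_le_mul_of_nonneg_right (poi_upper hμ m₀) (satProb_nonneg _ _ _)


theorem one_sub_Phi_bd161 (j : ℕ) (V : Type) [Fintype V] (r ρ : ℝ) :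
    1 - Phi j V r ρ = Ex (rate j V r ρ) (fun S => ind (¬ Unsat S)) := by
  have h1 : (fun S : Finset (Cl j V) => ind (¬ Unsat S)) = fun S => 1 - ind (Unsat S) := by
    funext S
    exact ind_not _
  rw [h1, Ex_sub, Ex_one]
  rfl

theorem SatP_of_not_Unsat {j n : ℕ} {S : Finset (Cl j (Fin n))} (h : ¬ Unsat S) :
    SatP (push (toP j n) S) := by
  unfold Unsat UnsatOn at h
  push Not at h
  obtain ⟨a, _, ha⟩ := h
  refine ⟨a, fun C hC => ?_⟩
  obtain ⟨e, he, heC⟩ := mem_push.mp hC
  have h1 := ha e he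
  rcases e with e | e
  · rw [toP_inl_eq_some] at heC
    unfold Viol at h1
    push Not at h1
    obtain ⟨i, hi⟩ := h1
    exact ⟨e i, heC ▸ Finset.mem_image_of_mem e (Finset.mem_univ i), hi⟩
  · simp [toP] at heC

theorem not_Unsat_of_SatP {j n : ℕ} {S : Finset (Cl j (Fin n))}
    (hS : ∀ e ∈ S, toP j n e ≠ none) (h : SatP (push (toP j n) S)) : ¬ Unsat S := by
  unfold Unsat UnsatOn
  push Not
  obtain ⟨a, ha⟩ := h
  refine ⟨a, trivial, fun e he => ?_⟩
  obtain ⟨C, hC⟩ := Option.ne_none_iff_exists'.mp (hS e he)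
  obtain ⟨l, hl, hal⟩ := ha C (mem_push.mpr ⟨e, he, hC⟩)
  rcases e with e | e
  · rw [toP_inl_eq_some] at hC
    rw [← hC] at hl
    obtain ⟨i, _, rfl⟩ := Finset.mem_image.mp hl
    unfold Viol
    push Not
    exact ⟨i, hal⟩
  · simp [toP] at hC

theorem one_sub_Phi_le_Vp (j n : ℕ) {r : ℝ} (hr : 0 ≤ r) :
    1 - Phi j (Fin n) r 0 ≤ Vp j n r := by
  rw [one_sub_Phi_bd161]
  exact Ex_mono (rate_nonneg hr le_rfl) (fun S => ind_mono SatP_of_not_Unsat)

/-- number of tuples of literals with a repeated variable -/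
noncomputable def improper (j n : ℕ) : ℝ :=
  (2 * (n : ℝ)) ^ (j + 1) - n.descFactorial (j + 1) * 2 ^ (j + 1)

open Classical in
theorem sum_rate_improper (j n : ℕ) (r : ℝ) :
    ∑ e ∈ (Finset.univ.filter (fun e : Cl j (Fin n) => toP j n e ≠ none))ᶜ,
      rate j (Fin n) r 0 e = r * improper j n := by
  have h1 := Finset.sum_compl_add_sum
    (Finset.univ.filter (fun e : Cl j (Fin n) => toP j n e ≠ none)) (rate j (Fin n) r 0)
  have h2 : ∑ e, rate j (Fin n) r 0 e = r * (2 * (n : ℝ)) ^ (j + 1) := by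
    rw [Fintype.sum_sum_type]
    have h3 : ∀ e : Tup (j + 1) (Fin n), rate j (Fin n) r 0 (Sum.inl e) = r := fun e => rfl
    have h4 : ∀ e : Tup j (Fin n), rate j (Fin n) r 0 (Sum.inr e) = 0 := fun e => rfl
    simp only [h3, h4, Finset.sum_const, Finset.card_univ, Fintype.card_fun, Fintype.card_prod,
      Fintype.card_fin, Fintype.card_bool, nsmul_eq_mul, mul_zero, add_zero]
    push_cast
    ring
  have h3 : ∑ e ∈ Finset.univ.filter (fun e : Cl j (Fin n) => toP j n e ≠ none),
      rate j (Fin n) r 0 e = r * (n.descFactorial (j + 1) * 2 ^ (j + 1)) := by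
    rw [Finset.sum_filter, Fintype.sum_sum_type]
    have h4 : ∀ e : Tup j (Fin n), (if toP j n (Sum.inr e) ≠ none then
        rate j (Fin n) r 0 (Sum.inr e) else 0) = 0 := by
      intro e
      simp [toP]
    have h5 : ∀ e : Tup (j + 1) (Fin n), (if toP j n (Sum.inl e) ≠ none then
        rate j (Fin n) r 0 (Sum.inl e) else 0)
        = if Function.Injective (fun i => (e i).1) then r else 0 := by
      intro e
      by_cases h : Function.Injective (fun i => (e i).1)
      · rw [if_pos (toP_inl_ne_none.mpr h), if_pos h]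
        rfl
      · rw [if_neg (fun h' => h (toP_inl_ne_none.mp h')), if_neg h]
    rw [Finset.sum_congr rfl (fun e _ => h4 e), Finset.sum_congr rfl (fun e _ => h5 e),
      Finset.sum_const_zero, add_zero, ← Finset.sum_filter, Finset.sum_const, nsmul_eq_mul]
    have h6 : ((Finset.univ.filter (fun e : Tup (j + 1) (Fin n) =>
        Function.Injective (fun i => (e i).1))).card : ℝ)
        = n.descFactorial (j + 1) * 2 ^ (j + 1) := by
      have h7 := card_proper (j + 1) n
      have h8 : (Finset.univ.filter (fun e : Tup (j + 1) (Fin n) =>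
        Function.Injective (fun i => (e i).1))).card
        = n.descFactorial (j + 1) * 2 ^ (j + 1) := by
        rw [← h7]
      exact_mod_cast h8
    rw [h6]
    ring
  unfold improper
  linarith

theorem zeta_depOn {E : Type*} [Fintype E] [DecidableEq E] (T : Finset E) :
    DepOn (zeta T) Tᶜ := by
  intro S S' h
  unfold zeta
  have h1 : ∀ S : Finset E, S ⊆ T ↔ S ∩ Tᶜ = ∅ := by
    intro S
    rw [Finset.eq_empty_iff_forall_notMem]
    simp only [Finset.mem_inter, Finset.mem_compl, not_and, not_not]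
    rfl
  have h2 : S ⊆ T ↔ S' ⊆ T := by
    rw [h1, h1, h]
  by_cases h3 : S ⊆ T
  · rw [if_pos h3, if_pos (h2.mp h3)]
  · rw [if_neg h3, if_neg (fun h4 => h3 (h2.mpr h4))]

open Classical in
theorem Vp_le (j n : ℕ) {r : ℝ} (hr : 0 ≤ r) :
    Real.exp (-(r * improper j n)) * Vp j n r ≤ 1 - Phi j (Fin n) r 0 := by
  rw [one_sub_Phi_bd161, ← sum_rate_improper, ← Ex_zeta]
  unfold Vp
  rw [← Ex_mul_of_indep (rate j (Fin n) r 0)
    (B := (Finset.univ.filter (fun e : Cl j (Fin n) => toP j n e ≠ none))ᶜ)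
    (C := Finset.univ.filter (fun e : Cl j (Fin n) => toP j n e ≠ none))]
  · apply Ex_mono (rate_nonneg hr le_rfl)
    intro S
    unfold zeta
    split_ifs with h
    · rw [one_mul]
      apply ind_mono
      apply not_Unsat_of_SatP
      intro e he
      exact (Finset.mem_filter.mp (h he)).2
    · rw [zero_mul]
      exact ind_nonneg _
  · exact zeta_depOn _
  · intro S S' h
    have h1 : push (toP j n) S = push (toP j n) S' := by
      have h2 : ∀ S : Finset (Cl j (Fin n)), push (toP j n) S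
          = push (toP j n) (S ∩ Finset.univ.filter (fun e : Cl j (Fin n) => toP j n e ≠ none)) := by
        intro S
        ext C
        rw [mem_push, mem_push]
        constructor
        · rintro ⟨e, he, heC⟩
          refine ⟨e, Finset.mem_inter.mpr ⟨he, Finset.mem_filter.mpr ⟨Finset.mem_univ _, ?_⟩⟩, heC⟩
          rw [heC]
          exact Option.some_ne_none C
        · rintro ⟨e, he, heC⟩
          exact ⟨e, (Finset.mem_inter.mp he).1, heC⟩
      rw [h2 S, h2 S', h]
    show ind (SatP (push (toP j n) S)) = ind (SatP (push (toP j n) S'))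
    rw [h1]
  · exact disjoint_compl_left


theorem descFactorial_le (j n : ℕ) : (n.descFactorial (j + 1) : ℝ) ≤ (n : ℝ) ^ (j + 1) := by
  exact_mod_cast Nat.descFactorial_le_pow n (j + 1)

theorem le_descFactorial (j n : ℕ) (hn : j + 1 ≤ n) :
    (n : ℝ) ^ (j + 1) * (1 - (j + 1) * j / n) ≤ (n.descFactorial (j + 1) : ℝ) := by
  have h1 : (((n + 1 - (j + 1) : ℕ) : ℝ)) ^ (j + 1) ≤ (n.descFactorial (j + 1) : ℝ) := by
    exact_mod_cast Nat.pow_sub_le_descFactorial n (j + 1)
  have h2 : ((n + 1 - (j + 1) : ℕ) : ℝ) = n - j := by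
    rw [Nat.add_sub_add_right, Nat.cast_sub (by omega)]
  rw [h2] at h1
  have hn0 : (0:ℝ) < n := by exact_mod_cast (by omega : 0 < n)
  have h3 : ((n : ℝ) - j) = n * (1 + (-(j / n))) := by
    field_simp
    ring
  have hjn : (j : ℝ) / n ≤ 1 := by
    rw [div_le_one hn0]
    exact_mod_cast (by omega : j ≤ n)
  have h4 := one_add_mul_le_pow (a := -((j : ℝ) / n)) (by linarith only [hjn]) (j + 1)
  rw [h3, mul_pow] at h1
  refine le_trans ?_ h1
  apply mul_le_mul_of_nonneg_left _ (by positivity)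
  refine le_trans (le_of_eq ?_) h4
  push_cast
  ring

theorem mu_rt (j n : ℕ) (hn : 1 ≤ n) (c : ℝ) :
    mu j n (rt j n c) = c * n * (n.descFactorial (j + 1) / (n : ℝ) ^ (j + 1)) := by
  unfold mu rt
  have hn0 : (n:ℝ) ≠ 0 := by
    have : 0 < n := hn
    positivity
  rw [mul_pow]
  field_simp

theorem mu_le (j n : ℕ) (hn : 1 ≤ n) {c : ℝ} (hc : 0 ≤ c) : mu j n (rt j n c) ≤ c * n := by
  rw [mu_rt j n hn]
  have hn0 : (0:ℝ) < n := by exact_mod_cast hn
  have h1 := descFactorial_le j n
  have h2 : (n.descFactorial (j + 1) / (n : ℝ) ^ (j + 1)) ≤ 1 := by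
    rw [div_le_one (by positivity)]
    exact h1
  have h3 : 0 ≤ c * n := by positivity
  nlinarith only [h2, h3]

theorem le_mu (j n : ℕ) (hn : j + 1 ≤ n) {c : ℝ} (hc : 0 ≤ c) :
    c * n - c * ((j + 1) * j) ≤ mu j n (rt j n c) := by
  rw [mu_rt j n (by omega)]
  have hn0 : (0:ℝ) < n := by exact_mod_cast (by omega : 0 < n)
  have h1 := le_descFactorial j n hn
  have h2 : 1 - (j + 1) * j / (n : ℝ) ≤ (n.descFactorial (j + 1) / (n : ℝ) ^ (j + 1)) := by
    rw [le_div_iff₀ (by positivity)]
    linarith only [h1]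
  have h3 : 0 ≤ c * n := by positivity
  have h4 : c * n * (1 - (j + 1) * j / (n : ℝ)) = c * n - c * ((j + 1) * j) := by
    (clear * - hn0; field_simp)
  rw [← h4]
  exact mul_le_mul_of_nonneg_left h2 h3

theorem rt_improper_le (j n : ℕ) (hn : j + 1 ≤ n) {c : ℝ} (hc : 0 ≤ c) :
    rt j n c * improper j n ≤ c * ((j + 1) * j) := by
  have h1 := le_mu j n hn hc
  have h2 : rt j n c * improper j n = c * n - mu j n (rt j n c) := by
    unfold improper mu rt
    have hn0 : (n:ℝ) ≠ 0 := by
      have : 0 < n := by omega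
      positivity
    have h3 : (2 * (n:ℝ)) ^ (j + 1) ≠ 0 := by positivity
    field_simp
  rw [h2]
  linarith only [h1]

theorem rt_nonneg_bd160 (j n : ℕ) {c : ℝ} (hc : 0 ≤ c) : 0 ≤ rt j n c := by
  unfold rt
  positivity

end Proper

/-- transfer from the rate model: below the threshold -/
theorem transfer_sat (j : ℕ) {c c' : ℝ} (hc : 0 ≤ c) (hcc : c < c')
    (h : Tendsto (fun n => U j n c') atTop (𝓝 0)) :
    Tendsto (fun n : ℕ => satProb (j + 1) n ⌊c * n⌋₊) atTop (𝓝 1) := by
  have hc' : 0 < c' := lt_of_le_of_lt hc hcc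
  set d : ℝ := (c + c') / 2 with hd
  have hd1 : c < d := by rw [hd]; linarith only [hcc]
  have hd2 : d < c' := by rw [hd]; linarith only [hcc]
  have hd0 : 0 < d := lt_of_le_of_lt hc hd1
  have hδ : 0 < 1 - c / d := by
    rw [sub_pos, div_lt_one hd0]
    exact hd1
  obtain ⟨N, hN⟩ := exists_nat_ge (c' * ((j + 1) * j) / (c' - d))
  have h1 : ∀ n : ℕ, max (j + 1) N ≤ n →
      1 - U j n c' / (1 - c / d) ≤ satProb (j + 1) n ⌊c * n⌋₊ := by
    intro n hn
    have hnj : j + 1 ≤ n := le_trans (le_max_left _ _) hn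
    have hnN : N ≤ n := le_trans (le_max_right _ _) hn
    have hn0 : (0:ℝ) < n := by exact_mod_cast (by omega : 0 < n)
    have h2 := le_mu j n hnj hc'.le
    have h3 : d * n ≤ mu j n (rt j n c') := by
      have h4 : c' * ((j + 1) * j) / (c' - d) ≤ n := hN.trans (by exact_mod_cast hnN)
      rw [div_le_iff₀ (by linarith only [hd, hd1])] at h4
      linarith only [h2, h4]
    have hμ : 0 < mu j n (rt j n c') := lt_of_lt_of_le (by (clear * - hc hc' hn0; positivity)) h3
    have h5 := one_sub_Vp_ge j n hμ ⌊c * n⌋₊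
    have h6 : (⌊c * n⌋₊ : ℝ) / mu j n (rt j n c') ≤ c / d := by
      rw [div_le_div_iff₀ hμ hd0]
      have h7 : (⌊c * n⌋₊ : ℝ) ≤ c * n := Nat.floor_le (by (clear * - hc hn0; positivity))
      calc (⌊c * n⌋₊ : ℝ) * d ≤ (c * n) * d := mul_le_mul_of_nonneg_right h7 hd0.le
        _ = c * (d * n) := by ring
        _ ≤ c * mu j n (rt j n c') := mul_le_mul_of_nonneg_left h3 hc
    have h7 := one_sub_Phi_le_Vp j n (rt_nonneg_bd160 j n hc'.le)
    have h8 : (1 - c / d) * (1 - satProb (j + 1) n ⌊c * n⌋₊) ≤ U j n c' := by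
      have h9 := satProb_le_one (j + 1) n ⌊c * n⌋₊
      calc (1 - c / d) * (1 - satProb (j + 1) n ⌊c * n⌋₊)
          ≤ (1 - ⌊c * n⌋₊ / mu j n (rt j n c')) * (1 - satProb (j + 1) n ⌊c * n⌋₊) := by
            apply mul_le_mul_of_nonneg_right _ (by linarith only [h9])
            linarith only [h6]
        _ ≤ 1 - Vp j n (rt j n c') := h5
        _ ≤ U j n c' := by
            unfold U
            linarith only [h7]
    have h9 : 1 - satProb (j + 1) n ⌊c * n⌋₊ ≤ U j n c' / (1 - c / d) := by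
      rw [le_div_iff₀ hδ]
      linarith only [h8]
    linarith only [h9]
  have h2 : Tendsto (fun n => 1 - U j n c' / (1 - c / d)) atTop (𝓝 1) := by
    have := (h.div_const (1 - c / d)).const_sub 1
    simpa only [zero_div, sub_zero] using this
  apply tendsto_of_tendsto_of_tendsto_of_le_of_le' h2 tendsto_const_nhds
  · filter_upwards [eventually_ge_atTop (max (j + 1) N)] with n hn
    exact h1 n hn
  · exact Eventually.of_forall (fun n => satProb_le_one _ _ _)

/-- transfer from the rate model: above the threshold -/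
theorem transfer_unsat (j : ℕ) {c c' : ℝ} (hc : 0 < c') (hcc : c' < c)
    (h : Tendsto (fun n => U j n c') atTop (𝓝 1)) :
    Tendsto (fun n : ℕ => satProb (j + 1) n ⌊c * n⌋₊) atTop (𝓝 0) := by
  have hc0 : 0 < c := hc.trans hcc
  have hδ : 0 < 1 - c' / c := by
    rw [sub_pos, div_lt_one hc0]
    exact hcc
  have h1 : ∀ n : ℕ, j + 1 ≤ n → satProb (j + 1) n ⌊c * n⌋₊
      ≤ Real.exp (c' * ((j + 1) * j)) * (1 - U j n c') / (1 - c' / c) := by
    intro n hn
    have hn0 : (0:ℝ) < n := by exact_mod_cast (by omega : 0 < n)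
    have hr := rt_nonneg_bd160 j n hc.le
    have hμ : 0 ≤ mu j n (rt j n c') := by
      unfold mu
      (clear * - hr; positivity)
    have h2 := Vp_ge j n hμ ⌊c * n⌋₊
    have h3 : mu j n (rt j n c') / (⌊c * n⌋₊ + 1) ≤ c' / c := by
      rw [div_le_div_iff₀ (by (clear * -; positivity)) hc0]
      have h4 : c * n < ⌊c * n⌋₊ + 1 := Nat.lt_floor_add_one _
      have h5 := mu_le j n (by omega) hc.le
      calc mu j n (rt j n c') * c ≤ c' * n * c := mul_le_mul_of_nonneg_right h5 hc0.le
        _ = c' * (c * n) := by ring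
        _ ≤ c' * (⌊c * n⌋₊ + 1) := mul_le_mul_of_nonneg_left h4.le hc.le
    have h4 : (1 - c' / c) * satProb (j + 1) n ⌊c * n⌋₊ ≤ Vp j n (rt j n c') := by
      refine le_trans ?_ h2
      apply mul_le_mul_of_nonneg_right _ (satProb_nonneg _ _ _)
      linarith only [h3]
    have h5 := Vp_le j n hr
    have h6 := rt_improper_le j n hn hc.le
    have h7 : Vp j n (rt j n c') ≤ Real.exp (c' * ((j + 1) * j)) * (1 - U j n c') := by
      have h8 : Vp j n (rt j n c') = Real.exp (rt j n c' * improper j n)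
          * (Real.exp (-(rt j n c' * improper j n)) * Vp j n (rt j n c')) := by
        rw [← mul_assoc, ← Real.exp_add, add_neg_cancel, Real.exp_zero, one_mul]
      rw [h8]
      have h9 : 0 ≤ Real.exp (-(rt j n c' * improper j n)) * Vp j n (rt j n c') := by
        apply mul_nonneg (Real.exp_pos _).le
        unfold Vp
        exact Ex_nonneg (rate_nonneg hr le_rfl) (fun S => ind_nonneg _)
      apply mul_le_mul (Real.exp_le_exp.mpr h6) h5 h9 (Real.exp_pos _).le
    rw [le_div_iff₀ hδ]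
    linarith only [h4, h7]
  have h2 : Tendsto (fun n => Real.exp (c' * ((j + 1) * j)) * (1 - U j n c') / (1 - c' / c))
      atTop (𝓝 0) := by
    have := ((h.const_sub 1).const_mul (Real.exp (c' * ((j + 1) * j)))).div_const (1 - c' / c)
    simpa only [sub_self, mul_zero, zero_div] using this
  apply tendsto_of_tendsto_of_tendsto_of_le_of_le' tendsto_const_nhds h2
  · exact Eventually.of_forall (fun n => satProb_nonneg _ _ _)
  · filter_upwards [eventually_ge_atTop (j + 1)] with n hn
    exact h1 n hn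

end Vale.Agent.P170
end
end

section

section

/-!
Random `k`-SAT at a tiny density is satisfiable with high probability (Hall's theorem and the
first moment method).
-/

namespace Vale.Agent.P170

open Finset Filter Topology

/-- the variables of a clause -/
def pvars {k n : ℕ} (C : PClause k n) : Finset (Fin n) := C.1.image Prod.fst

theorem card_pvars {k n : ℕ} (C : PClause k n) : (pvars C).card = k := C.2.2

/-- Hall's condition gives a satisfying assignment. -/
theorem satisfiable_of_hall {k n m : ℕ} (F : Fin m → PClause k n)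
    (h : ∀ s : Finset (Fin m), s.card ≤ (s.biUnion fun i => pvars (F i)).card) :
    Satisfiable F := by
  classical
  obtain ⟨f, hinj, hf⟩ :=
    (Finset.all_card_le_biUnion_card_iff_exists_injective (fun i => pvars (F i))).1 h
  have h1 : ∀ i, ∃ b : Bool, (f i, b) ∈ (F i).1 := by
    intro i
    obtain ⟨l, hl, hl2⟩ := Finset.mem_image.1 (hf i)
    exact ⟨l.2, by rw [← hl2]; exact hl⟩
  choose b hb using h1
  refine ⟨fun v => if hv : ∃ i, f i = v then b hv.choose else true, fun i => ?_⟩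
  refine ⟨(f i, b i), hb i, ?_⟩
  have hex : ∃ i', f i' = f i := ⟨i, rfl⟩
  simp only
  rw [dif_pos hex]
  have : hex.choose = i := hinj hex.choose_spec
  rw [this]

theorem exists_bad_of_unsat {k n m : ℕ} (F : Fin m → PClause k n) (h : ¬ Satisfiable F) :
    ∃ u ∈ Finset.range (n + 1), ∃ I ∈ Finset.powersetCard (u + 1) (Finset.univ : Finset (Fin m)),
      ∃ W ∈ Finset.powersetCard u (Finset.univ : Finset (Fin n)), ∀ i ∈ I, pvars (F i) ⊆ W := by
  classical
  have h1 : ∃ s : Finset (Fin m), (s.biUnion fun i => pvars (F i)).card < s.card := by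
    by_contra hcon
    push Not at hcon
    exact h (satisfiable_of_hall F hcon)
  obtain ⟨s, hs⟩ := h1
  obtain ⟨I, hIs, hI⟩ := Finset.exists_subset_card_eq (Nat.succ_le_of_lt hs)
  refine ⟨(s.biUnion fun i => pvars (F i)).card, ?_, I, ?_, s.biUnion fun i => pvars (F i), ?_, ?_⟩
  · rw [Finset.mem_range]
    have := Finset.card_le_univ (s.biUnion fun i => pvars (F i))
    rw [Fintype.card_fin] at this
    omega
  · rw [Finset.mem_powersetCard]
    exact ⟨Finset.subset_univ _, hI⟩
  · rw [Finset.mem_powersetCard]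
    exact ⟨Finset.subset_univ _, rfl⟩
  · intro i hi
    exact Finset.subset_biUnion_of_mem (fun i => pvars (F i)) (hIs hi)

open Classical in
/-- the clauses all of whose variables are in `W` -/
noncomputable def insideW (k n : ℕ) (W : Finset (Fin n)) : Finset (PClause k n) :=
  Finset.univ.filter fun C => pvars C ⊆ W

open Classical in
theorem card_fiber (k n : ℕ) (S : Finset (Fin n)) (hS : S.card = k) :
    (Finset.univ.filter fun C : PClause k n => pvars C = S).card = 2 ^ k := by
  rw [← hS, ← Finset.card_powerset]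
  subst hS
  symm
  have key : ∀ T ⊆ S, ((T ×ˢ ({true} : Finset Bool)) ∪ ((S \ T) ×ˢ ({false} : Finset Bool))).card
      = S.card ∧ (((T ×ˢ ({true} : Finset Bool)) ∪ ((S \ T) ×ˢ ({false} : Finset Bool))).image
        Prod.fst) = S := by
    intro T hT
    constructor
    · rw [Finset.card_union_of_disjoint]
      · rw [Finset.card_product, Finset.card_product, Finset.card_singleton,
          Finset.card_singleton, mul_one, mul_one, Finset.card_sdiff_of_subset hT]
        have := Finset.card_le_card hT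
        omega
      · rw [Finset.disjoint_left]
        rintro ⟨x, b⟩ h1 h2
        simp only [Finset.mem_product, Finset.mem_singleton] at h1 h2
        rw [h1.2] at h2
        exact Bool.noConfusion h2.2
    · ext x
      simp only [Finset.mem_image, Finset.mem_union, Finset.mem_product, Finset.mem_singleton,
        Finset.mem_sdiff, Prod.exists, exists_and_right, exists_eq_right]
      constructor
      · rintro ⟨b, h | h⟩
        · exact hT h.1
        · exact h.1.1
      · intro hx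
        by_cases hxT : x ∈ T
        · exact ⟨true, Or.inl ⟨hxT, rfl⟩⟩
        · exact ⟨false, Or.inr ⟨⟨hx, hxT⟩, rfl⟩⟩
  refine Finset.card_bij
    (fun T hT => ⟨(T ×ˢ ({true} : Finset Bool)) ∪ ((S \ T) ×ˢ ({false} : Finset Bool)),
      (key T (Finset.mem_powerset.1 hT)).1, by rw [(key T (Finset.mem_powerset.1 hT)).2]⟩)
    ?_ ?_ ?_
  · intro T hT
    rw [Finset.mem_filter]
    refine ⟨Finset.mem_univ _, ?_⟩
    exact (key T (Finset.mem_powerset.1 hT)).2
  · intro T hT T' hT' h
    have h2 := congrArg Subtype.val h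
    simp only at h2
    ext x
    have h3 : (x, true) ∈ ((T ×ˢ ({true} : Finset Bool)) ∪ ((S \ T) ×ˢ ({false} : Finset Bool)))
        ↔ (x, true) ∈ ((T' ×ˢ ({true} : Finset Bool)) ∪ ((S \ T') ×ˢ ({false} : Finset Bool))) := by
      rw [h2]
    simpa using h3
  · intro C hC
    rw [Finset.mem_filter] at hC
    have hCS : C.1.image Prod.fst = S := hC.2
    have hinj : Set.InjOn Prod.fst (C.1 : Set (Fin n × Bool)) := by
      rw [← Finset.card_image_iff, C.2.1, C.2.2]
    refine ⟨S.filter fun x => (x, true) ∈ C.1, ?_, ?_⟩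
    · rw [Finset.mem_powerset]
      exact Finset.filter_subset _ _
    · apply Subtype.ext
      simp only
      ext ⟨x, b⟩
      simp only [Finset.mem_union, Finset.mem_product, Finset.mem_filter, Finset.mem_singleton,
        Finset.mem_sdiff]
      have hmem : x ∈ S ↔ ∃ b, (x, b) ∈ C.1 := by
        rw [← Finset.ext_iff.1 hCS x]
        simp only [mem_image, Prod.exists, exists_and_right, Bool.exists_bool, exists_eq_right]
      constructor
      · rintro (⟨⟨_, h1⟩, rfl⟩ | ⟨⟨h1, h2⟩, rfl⟩)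
        · exact h1
        · obtain ⟨b, hb⟩ := hmem.1 h1
          cases b with
          | false => exact hb
          | true => exact absurd ⟨h1, hb⟩ h2
      · intro h
        have hxS : x ∈ S := hmem.2 ⟨b, h⟩
        cases b with
        | true => exact Or.inl ⟨⟨hxS, h⟩, rfl⟩
        | false =>
          refine Or.inr ⟨⟨hxS, ?_⟩, rfl⟩
          rintro ⟨_, h3⟩
          have := hinj h h3 rfl
          simp at this

theorem card_insideW (k n : ℕ) (W : Finset (Fin n)) :
    (insideW k n W).card = (W.card).choose k * 2 ^ k := by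
  classical
  have h1 : (insideW k n W).card
      = ∑ S ∈ Finset.powersetCard k W, ((insideW k n W).filter fun C => pvars C = S).card := by
    apply Finset.card_eq_sum_card_fiberwise
    intro C hC
    have hC' : pvars C ⊆ W := by
      have := Finset.mem_coe.1 hC
      unfold insideW at this
      rw [Finset.mem_filter] at this
      exact this.2
    rw [Finset.mem_coe, Finset.mem_powersetCard]
    exact ⟨hC', card_pvars C⟩
  rw [h1]
  have h2 : ∀ S ∈ Finset.powersetCard k W,
      ((insideW k n W).filter fun C => pvars C = S).card = 2 ^ k := by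
    intro S hS
    rw [Finset.mem_powersetCard] at hS
    rw [← card_fiber k n S hS.2]
    congr 1
    ext C
    simp only [insideW, Finset.mem_filter, Finset.mem_univ, true_and]
    constructor
    · rintro ⟨_, h⟩
      exact h
    · intro h
      exact ⟨by rw [h]; exact hS.1, h⟩
  rw [Finset.sum_congr rfl h2, Finset.sum_const, Finset.card_powersetCard, smul_eq_mul]

theorem card_pclause (k n : ℕ) : Fintype.card (PClause k n) = n.choose k * 2 ^ k := by
  classical
  have h := card_insideW k n Finset.univ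
  rw [Finset.card_univ, Fintype.card_fin] at h
  rw [← h, ← Finset.card_univ]
  congr 1
  ext C
  simp only [mem_univ, insideW, subset_univ, filter_true]

/-- `(u choose k) / (n choose k) ≤ (u / n) ^ k` -/
theorem choose_mul_pow_le (k : ℕ) {u n : ℕ} (h : u ≤ n) :
    u.choose k * n ^ k ≤ n.choose k * u ^ k := by
  have h1 : ∀ k, u.descFactorial k * n ^ k ≤ n.descFactorial k * u ^ k := by
    intro k
    induction k with
    | zero => simp
    | succ k ih =>
      rw [Nat.descFactorial_succ, Nat.descFactorial_succ, pow_succ, pow_succ]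
      have h2 : (u - k) * n ≤ (n - k) * u := by
        rcases le_or_gt k u with hk | hk
        · obtain ⟨a, rfl⟩ := Nat.exists_eq_add_of_le hk
          obtain ⟨b, rfl⟩ := Nat.exists_eq_add_of_le h
          have e1 : k + a - k = a := by omega
          have e2 : k + a + b - k = a + b := by omega
          rw [e1, e2]
          nlinarith only []
        · have : u - k = 0 := by omega
          rw [this, zero_mul]
          exact Nat.zero_le _
      calc (u - k) * u.descFactorial k * (n ^ k * n)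
          = ((u - k) * n) * (u.descFactorial k * n ^ k) := by ring
        _ ≤ ((n - k) * u) * (n.descFactorial k * u ^ k) := Nat.mul_le_mul h2 ih
        _ = (n - k) * n.descFactorial k * (u ^ k * u) := by ring
  have h2 := h1 k
  rw [Nat.descFactorial_eq_factorial_mul_choose, Nat.descFactorial_eq_factorial_mul_choose] at h2
  have h3 : k.factorial * (u.choose k * n ^ k) ≤ k.factorial * (n.choose k * u ^ k) := by
    calc k.factorial * (u.choose k * n ^ k) = k.factorial * u.choose k * n ^ k := by ring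
      _ ≤ k.factorial * n.choose k * u ^ k := h2
      _ = k.factorial * (n.choose k * u ^ k) := by ring
  exact Nat.le_of_mul_le_mul_left h3 (Nat.factorial_pos k)

open Classical in
theorem card_constrained {k n m : ℕ} (I : Finset (Fin m)) (W : Finset (Fin n)) :
    ((Finset.univ : Finset (Fin m → PClause k n)).filter
      fun F => ∀ i ∈ I, pvars (F i) ⊆ W).card
      = (insideW k n W).card ^ I.card * (Fintype.card (PClause k n)) ^ (m - I.card) := by
  have h1 : ((Finset.univ : Finset (Fin m → PClause k n)).filter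
      fun F => ∀ i ∈ I, pvars (F i) ⊆ W)
      = Fintype.piFinset (fun i => if i ∈ I then insideW k n W else Finset.univ) := by
    ext F
    simp only [Finset.mem_filter, Finset.mem_univ, true_and, Fintype.mem_piFinset]
    refine forall_congr' fun i => ?_
    by_cases hi : i ∈ I
    · simp only [hi, forall_const, ↓reduceIte, insideW, mem_filter, mem_univ, true_and]
    · simp only [hi, IsEmpty.forall_iff, ↓reduceIte, mem_univ]
  rw [h1, Fintype.card_piFinset]
  have h2 : ∀ i : Fin m, (if i ∈ I then insideW k n W else Finset.univ).card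
      = if i ∈ I then (insideW k n W).card else Fintype.card (PClause k n) := by
    intro i
    split_ifs
    · rfl
    · exact Finset.card_univ
  rw [Finset.prod_congr rfl fun i _ => h2 i, Finset.prod_ite, Finset.prod_const,
    Finset.prod_const]
  congr 2
  · congr 1
    ext i
    simp only [subset_univ, filter_mem_eq_of_subset]
  · have : (Finset.univ.filter fun i : Fin m => i ∉ I) = Iᶜ := by
      ext i
      simp only [mem_filter, mem_univ, true_and, mem_compl]
    rw [this, Finset.card_compl, Fintype.card_fin]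

open Classical in
/-- the union bound, in cardinalities -/
theorem card_unsat_le (k n m : ℕ) :
    (Fintype.card {F : Fin m → PClause k n // ¬ Satisfiable F} : ℝ)
      ≤ ∑ u ∈ Finset.range (n + 1), (m.choose (u + 1) : ℝ) * (n.choose u : ℝ) *
        (((u.choose k * 2 ^ k : ℕ) : ℝ) ^ (u + 1) *
          (Fintype.card (PClause k n) : ℝ) ^ (m - (u + 1))) := by
  classical
  have h1 : (Finset.univ.filter fun F : Fin m → PClause k n => ¬ Satisfiable F)
      ⊆ (Finset.range (n + 1)).biUnion fun u =>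
        (Finset.powersetCard (u + 1) (Finset.univ : Finset (Fin m))).biUnion fun I =>
          (Finset.powersetCard u (Finset.univ : Finset (Fin n))).biUnion fun W =>
            ((Finset.univ : Finset (Fin m → PClause k n)).filter
              fun F => ∀ i ∈ I, pvars (F i) ⊆ W) := by
    intro F hF
    rw [Finset.mem_filter] at hF
    obtain ⟨u, hu, I, hI, W, hW, h⟩ := exists_bad_of_unsat F hF.2
    simp only [Finset.mem_biUnion]
    exact ⟨u, hu, I, hI, W, hW, by simpa only [mem_filter, mem_univ, true_and] using h⟩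
  have h2 : (Fintype.card {F : Fin m → PClause k n // ¬ Satisfiable F})
      = (Finset.univ.filter fun F : Fin m → PClause k n => ¬ Satisfiable F).card := by
    rw [Fintype.card_subtype]
  have h3 : (Finset.univ.filter fun F : Fin m → PClause k n => ¬ Satisfiable F).card
      ≤ ∑ u ∈ Finset.range (n + 1), m.choose (u + 1) * n.choose u *
        ((u.choose k * 2 ^ k) ^ (u + 1) *
          (Fintype.card (PClause k n)) ^ (m - (u + 1))) := by
    refine (Finset.card_le_card h1).trans (Finset.card_biUnion_le.trans ?_)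
    refine Finset.sum_le_sum fun u _ => ?_
    refine Finset.card_biUnion_le.trans ?_
    have h4 : ∀ I ∈ Finset.powersetCard (u + 1) (Finset.univ : Finset (Fin m)),
        ((Finset.powersetCard u (Finset.univ : Finset (Fin n))).biUnion fun W =>
            ((Finset.univ : Finset (Fin m → PClause k n)).filter
              fun F => ∀ i ∈ I, pvars (F i) ⊆ W)).card
          ≤ n.choose u * ((u.choose k * 2 ^ k) ^ (u + 1) *
          (Fintype.card (PClause k n)) ^ (m - (u + 1))) := by
      intro I hI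
      rw [Finset.mem_powersetCard] at hI
      refine Finset.card_biUnion_le.trans ?_
      have h5 : ∀ W ∈ Finset.powersetCard u (Finset.univ : Finset (Fin n)),
          ((Finset.univ : Finset (Fin m → PClause k n)).filter
              fun F => ∀ i ∈ I, pvars (F i) ⊆ W).card
            = (u.choose k * 2 ^ k) ^ (u + 1) *
              (Fintype.card (PClause k n)) ^ (m - (u + 1)) := by
        intro W hW
        rw [Finset.mem_powersetCard] at hW
        rw [card_constrained, card_insideW, hI.2, hW.2]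
      rw [Finset.sum_congr rfl h5, Finset.sum_const, Finset.card_powersetCard,
        Finset.card_univ, Fintype.card_fin, smul_eq_mul]
    refine (Finset.sum_le_sum h4).trans ?_
    rw [Finset.sum_const, Finset.card_powersetCard, Finset.card_univ, Fintype.card_fin,
      smul_eq_mul, mul_assoc]
  rw [h2]
  exact_mod_cast h3

/-- one term of the first moment bound -/
theorem term_bound {k n m u : ℕ} (hk : 3 ≤ k) (hn : k ≤ n) (hu : u ≤ n) (hum : u + 1 ≤ m)
    (hm : (m : ℝ) ≤ (1 / 144) * n) :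
    (m.choose (u + 1) : ℝ) * (n.choose u : ℝ) *
        (((u.choose k * 2 ^ k : ℕ) : ℝ) ^ (u + 1) *
          (Fintype.card (PClause k n) : ℝ) ^ (m - (u + 1)))
      ≤ (Fintype.card (PClause k n) : ℝ) ^ m * ((1 / 144) * (1 / 2) ^ u / (n : ℝ) ^ 2) := by
  have hn0 : 0 < n := by omega
  have hn0' : (0 : ℝ) < n := by exact_mod_cast hn0
  set N : ℝ := (Fintype.card (PClause k n) : ℝ) with hN
  have hNval : N = (n.choose k : ℝ) * 2 ^ k := by
    rw [hN, card_pclause]
    push_cast
    ring
  have hchoose : (0 : ℝ) < (n.choose k : ℝ) := by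
    exact_mod_cast Nat.choose_pos hn
  have hNpos : 0 < N := by
    rw [hNval]
    (clear * - hchoose; positivity)
  -- the ratio
  have hratio : ((u.choose k * 2 ^ k : ℕ) : ℝ) ≤ N * ((u : ℝ) / n) ^ 3 := by
    have h1 : ((u.choose k : ℕ) : ℝ) * (n : ℝ) ^ k ≤ (n.choose k : ℝ) * (u : ℝ) ^ k := by
      exact_mod_cast choose_mul_pow_le k hu
    have h2 : ((u.choose k : ℕ) : ℝ) ≤ (n.choose k : ℝ) * ((u : ℝ) / n) ^ k := by
      rw [div_pow, ← mul_div_assoc, le_div_iff₀ (by positivity)]
      exact h1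
    have h3 : ((u : ℝ) / n) ^ k ≤ ((u : ℝ) / n) ^ 3 := by
      apply pow_le_pow_of_le_one (by (clear * - hn0; positivity))
      · rw [div_le_one hn0']
        exact_mod_cast hu
      · exact hk
    rw [hNval]
    push_cast
    calc ((u.choose k : ℕ) : ℝ) * 2 ^ k ≤ ((n.choose k : ℝ) * ((u : ℝ) / n) ^ k) * 2 ^ k := by
          (clear * - h2; gcongr)
      _ ≤ ((n.choose k : ℝ) * ((u : ℝ) / n) ^ 3) * 2 ^ k := by (clear * - h3 hchoose; gcongr)
      _ = (n.choose k : ℝ) * 2 ^ k * ((u : ℝ) / n) ^ 3 := by ring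
  have hexp : (u : ℝ) ^ u / (u.factorial : ℝ) ≤ 3 ^ u := by
    have h1 := Real.pow_div_factorial_le_exp (u : ℝ) (by (clear * -; positivity)) u
    have h2 : Real.exp (u : ℝ) ≤ 3 ^ u := by
      have h3 : Real.exp (u : ℝ) = Real.exp 1 ^ u := by
        rw [← Real.exp_nat_mul]
        simp
      rw [h3]
      have h4 : Real.exp 1 ≤ 3 := by linarith only [Real.exp_one_lt_d9]
      (clear * - h4; gcongr)
    exact h1.trans h2
  have hc1 : (m.choose (u + 1) : ℝ) ≤ ((1 / 144) * n) ^ (u + 1) / (u.factorial : ℝ) := by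
    have h1 : (m.choose (u + 1) : ℝ) ≤ (m : ℝ) ^ (u + 1) / ((u + 1).factorial : ℝ) :=
      Nat.choose_le_pow_div (u + 1) m
    have h2 : (m : ℝ) ^ (u + 1) / ((u + 1).factorial : ℝ)
        ≤ ((1 / 144) * n) ^ (u + 1) / (u.factorial : ℝ) := by
      have h3 : (u.factorial : ℝ) ≤ ((u + 1).factorial : ℝ) := by
        exact_mod_cast Nat.factorial_le (Nat.le_succ u)
      have h4 : (0 : ℝ) < (u.factorial : ℝ) := by exact_mod_cast Nat.factorial_pos u
      (clear * - hn0 hm h3; gcongr)
    exact h1.trans h2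
  have hc2 : (n.choose u : ℝ) ≤ (n : ℝ) ^ u / (u.factorial : ℝ) := Nat.choose_le_pow_div u n
  have hsplit : N ^ m = N ^ (u + 1) * N ^ (m - (u + 1)) := by
    rw [← pow_add]
    congr 1
    omega
  have hcube : (u : ℝ) ^ 3 ≤ 8 ^ u := by
    have h1 : (u : ℝ) ≤ 2 ^ u := by exact_mod_cast (Nat.lt_two_pow_self (n := u)).le
    calc (u : ℝ) ^ 3 ≤ (2 ^ u) ^ 3 := by (clear * - h1; gcongr)
      _ = 8 ^ u := by rw [← pow_mul, mul_comm, pow_mul]; norm_num
  have hfac : (0 : ℝ) < (u.factorial : ℝ) := by exact_mod_cast Nat.factorial_pos u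
  -- main estimate
  have hmain : ((1 / 144) * n : ℝ) ^ (u + 1) / (u.factorial : ℝ) * ((n : ℝ) ^ u / (u.factorial : ℝ))
      * (((u : ℝ) / n) ^ 3) ^ (u + 1) ≤ (1 / 144) * (1 / 2) ^ u / (n : ℝ) ^ 2 := by
    have e1 : ((1 / 144) * n : ℝ) ^ (u + 1) / (u.factorial : ℝ)
        * ((n : ℝ) ^ u / (u.factorial : ℝ)) * (((u : ℝ) / n) ^ 3) ^ (u + 1)
        = (1 / 144) ^ (u + 1) * ((u : ℝ) ^ u / (u.factorial : ℝ)) *
          ((u : ℝ) ^ u / (u.factorial : ℝ)) * ((u : ℝ) ^ 3) * (((u : ℝ) / n) ^ u / (n : ℝ) ^ 2) := by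
      have hA : (((u : ℝ) / n) ^ 3) ^ (u + 1) = (u : ℝ) ^ (3 * (u + 1)) / (n : ℝ) ^ (3 * (u + 1)) := by
        rw [← pow_mul, div_pow]
      have hB : ((u : ℝ) / n) ^ u = (u : ℝ) ^ u / (n : ℝ) ^ u := div_pow _ _ _
      have hC : ((1 / 144) * n : ℝ) ^ (u + 1) = (1 / 144) ^ (u + 1) * (n : ℝ) ^ (u + 1) :=
        mul_pow _ _ _
      have h5 : (n : ℝ) ^ (3 * (u + 1)) = (n : ℝ) ^ (u + 1) * (n : ℝ) ^ u * ((n : ℝ) ^ u * (n : ℝ) ^ 2) := by
        rw [← pow_add, ← pow_add, ← pow_add]
        congr 1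
        omega
      have h6 : (u : ℝ) ^ (3 * (u + 1)) = (u : ℝ) ^ u * (u : ℝ) ^ u * ((u : ℝ) ^ 3) * (u : ℝ) ^ u := by
        rw [← pow_add, ← pow_add, ← pow_add]
        congr 1
        omega
      rw [hA, hB, hC, h5, h6]
      (clear * - hn0; field_simp)
    rw [e1]
    have h7 : ((u : ℝ) / n) ^ u ≤ 1 := by
      apply pow_le_one₀ (by (clear * - hn0; positivity))
      rw [div_le_one hn0']
      exact_mod_cast hu
    calc (1 / 144) ^ (u + 1) * ((u : ℝ) ^ u / (u.factorial : ℝ)) *
          ((u : ℝ) ^ u / (u.factorial : ℝ)) * ((u : ℝ) ^ 3) * (((u : ℝ) / n) ^ u / (n : ℝ) ^ 2)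
        ≤ (1 / 144) ^ (u + 1) * 3 ^ u * 3 ^ u * 8 ^ u * (1 / (n : ℝ) ^ 2) := by (clear * - hexp hcube h7 hn0; gcongr)
      _ = (1 / 144) * (1 / 2) ^ u / (n : ℝ) ^ 2 := by
          rw [pow_succ]
          have h8 : ((1 / 144 : ℝ)) ^ u * 3 ^ u * 3 ^ u * 8 ^ u = (1 / 2) ^ u := by
            rw [← mul_pow, ← mul_pow, ← mul_pow]
            norm_num
          calc (1 / 144 : ℝ) ^ u * (1 / 144) * 3 ^ u * 3 ^ u * 8 ^ u * (1 / (n : ℝ) ^ 2)
              = ((1 / 144 : ℝ) ^ u * 3 ^ u * 3 ^ u * 8 ^ u) * ((1 / 144) * (1 / (n : ℝ) ^ 2)) := by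
                ring
            _ = (1 / 144) * (1 / 2) ^ u / (n : ℝ) ^ 2 := by rw [h8]; ring
  calc (m.choose (u + 1) : ℝ) * (n.choose u : ℝ) *
        (((u.choose k * 2 ^ k : ℕ) : ℝ) ^ (u + 1) * N ^ (m - (u + 1)))
      ≤ (((1 / 144) * n) ^ (u + 1) / (u.factorial : ℝ)) * ((n : ℝ) ^ u / (u.factorial : ℝ)) *
        ((N * ((u : ℝ) / n) ^ 3) ^ (u + 1) * N ^ (m - (u + 1))) := by
        (clear * - hc1 hc2 hn0 hratio hNpos; gcongr)
    _ = N ^ m * (((1 / 144) * n : ℝ) ^ (u + 1) / (u.factorial : ℝ)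
          * ((n : ℝ) ^ u / (u.factorial : ℝ)) * (((u : ℝ) / n) ^ 3) ^ (u + 1)) := by
        rw [hsplit, mul_pow]
        ring
    _ ≤ N ^ m * ((1 / 144) * (1 / 2) ^ u / (n : ℝ) ^ 2) := by
        (clear * - hmain hNpos; gcongr)

open Classical in
theorem one_sub_satProb_le {k n m : ℕ} (hk : 3 ≤ k) (hn : k ≤ n) (hm : (m : ℝ) ≤ (1 / 144) * n) :
    1 - 1 / (n : ℝ) ^ 2 ≤ satProb k n m := by
  have hn0 : 0 < n := by omega
  have hn0' : (0 : ℝ) < n := by exact_mod_cast hn0
  set N : ℝ := (Fintype.card (PClause k n) : ℝ) with hN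
  have hNval : N = (n.choose k : ℝ) * 2 ^ k := by
    rw [hN, card_pclause]
    push_cast
    ring
  have hchoose : (0 : ℝ) < (n.choose k : ℝ) := by
    exact_mod_cast Nat.choose_pos hn
  have hNpos : 0 < N := by
    rw [hNval]
    (clear * - hchoose; positivity)
  have htot : (Fintype.card (Fin m → PClause k n) : ℝ) = N ^ m := by
    rw [Fintype.card_fun, Fintype.card_fin]
    push_cast
    rfl
  have hbad : (Fintype.card {F : Fin m → PClause k n // ¬ Satisfiable F} : ℝ)
      ≤ N ^ m * (1 / (n : ℝ) ^ 2) := by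
    refine (card_unsat_le k n m).trans ?_
    have h1 : ∀ u ∈ Finset.range (n + 1), (m.choose (u + 1) : ℝ) * (n.choose u : ℝ) *
        (((u.choose k * 2 ^ k : ℕ) : ℝ) ^ (u + 1) *
          (Fintype.card (PClause k n) : ℝ) ^ (m - (u + 1)))
        ≤ N ^ m * (1 / (n : ℝ) ^ 2) * ((1 / 144) * (1 / 2) ^ u) := by
      intro u hu
      rw [Finset.mem_range] at hu
      rcases Nat.lt_or_ge m (u + 1) with hmu | hmu
      · rw [Nat.choose_eq_zero_of_lt hmu]
        simp only [Nat.cast_zero, zero_mul]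
        (clear * - hNpos hn0; positivity)
      · refine (term_bound hk hn (by omega) hmu hm).trans (le_of_eq ?_)
        rw [← hN]
        ring
    refine (Finset.sum_le_sum h1).trans ?_
    rw [← Finset.mul_sum, ← Finset.mul_sum]
    have h2 : ∑ u ∈ Finset.range (n + 1), (1 / 2 : ℝ) ^ u ≤ 2 := by
      have := geom_sum_eq (by norm_num : (1 / 2 : ℝ) ≠ 1) (n + 1)
      rw [this]
      have h3 : (0 : ℝ) < (1 / 2) ^ (n + 1) := by positivity
      rw [div_le_iff_of_neg (by norm_num)]
      linarith only [h3]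
    have h4 : (1 / 144 : ℝ) * ∑ u ∈ Finset.range (n + 1), (1 / 2 : ℝ) ^ u ≤ 1 := by linarith only [h2]
    calc N ^ m * (1 / (n : ℝ) ^ 2) * ((1 / 144) * ∑ u ∈ Finset.range (n + 1), (1 / 2 : ℝ) ^ u)
        ≤ N ^ m * (1 / (n : ℝ) ^ 2) * 1 := by (clear * - h4 hNpos hn0; gcongr)
      _ = N ^ m * (1 / (n : ℝ) ^ 2) := by ring
  have hsum : (Fintype.card {F : Fin m → PClause k n // Satisfiable F} : ℝ)
      + (Fintype.card {F : Fin m → PClause k n // ¬ Satisfiable F} : ℝ) = N ^ m := by
    rw [← htot]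
    rw [Fintype.card_subtype_compl]
    have h5 : Fintype.card {F : Fin m → PClause k n // Satisfiable F}
        ≤ Fintype.card (Fin m → PClause k n) := Fintype.card_subtype_le _
    rw [Nat.cast_sub h5]
    ring
  unfold satProb
  rw [htot, le_div_iff₀ (by (clear * - hNpos; positivity))]
  linarith

theorem satProb_le_one_bd622 (k n m : ℕ) : satProb k n m ≤ 1 := by
  classical
  unfold satProb
  apply div_le_one_of_le₀
  · exact_mod_cast Fintype.card_subtype_le _
  · positivity

/-- Random `k`-SAT with `k ≥ 3` is satisfiable with high probability at density `1/144`. -/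
theorem satProb_small (k : ℕ) (hk : 3 ≤ k) :
    ∃ c₀ : ℝ, 0 < c₀ ∧ Tendsto (fun n : ℕ => satProb k n ⌊c₀ * n⌋₊) atTop (𝓝 1) := by
  refine ⟨1 / 144, by norm_num, ?_⟩
  have h1 : Tendsto (fun n : ℕ => 1 - 1 / (n : ℝ) ^ 2) atTop (𝓝 (1 - 0)) := by
    apply Tendsto.const_sub
    have h2 : Tendsto (fun n : ℕ => (n : ℝ) ^ 2) atTop atTop :=
      (tendsto_pow_atTop (by norm_num)).comp tendsto_natCast_atTop_atTop
    simp only [one_div]
    exact h2.inv_tendsto_atTop
  rw [sub_zero] at h1
  refine tendsto_of_tendsto_of_tendsto_of_le_of_le' h1 tendsto_const_nhds ?_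
    (Eventually.of_forall fun n => satProb_le_one_bd622 _ _ _)
  filter_upwards [eventually_ge_atTop k] with n hn
  apply one_sub_satProb_le hk hn
  exact Nat.floor_le (by positivity)

end Vale.Agent.P170
end
end

section

section

/-!
Assembly: random `k`-SAT has a limiting threshold for every `k ≥ 3`.
-/

namespace Vale.Agent.P170

open Finset Filter Topology

theorem main (k : ℕ) (hk : 3 ≤ k) : ∃ α : ℝ, IsLimitingThreshold k α := by
  obtain ⟨j, rfl⟩ : ∃ j, k = j + 1 := ⟨k - 1, by omega⟩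
  have hj : 2 ≤ j := by omega
  obtain ⟨A, hA, H2⟩ := window_bound j hj (2 ^ (j + 1)) (one_le_pow₀ (by norm_num))
  have H4 : Tendsto (fun n => U j n (2 ^ (j + 1))) atTop (𝓝 1) := by
    have h1 : ∀ᶠ n : ℕ in atTop, 1 - (2 * Real.exp (-1)) ^ n ≤ U j n (2 ^ (j + 1)) := by
      filter_upwards [eventually_ge_atTop 1] with n hn
      have := one_sub_U_le j n hn (c := 2 ^ (j + 1)) (by positivity)
      have h2 : (2:ℝ) ^ (j + 1) * n / 2 ^ (j + 1) = n := by
        (clear * - hn; field_simp)
      rw [h2] at this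
      have h3 : (2:ℝ) ^ n * Real.exp (-(n:ℝ)) = (2 * Real.exp (-1)) ^ n := by
        rw [mul_pow, ← Real.exp_nat_mul]
        congr 2
        ring
      rw [h3] at this
      linarith only [this]
    have h2 : ∀ᶠ n : ℕ in atTop, U j n (2 ^ (j + 1)) ≤ 1 :=
      Eventually.of_forall (fun n => U_le_one j n (by positivity))
    have h3 : Tendsto (fun n : ℕ => 1 - (2 * Real.exp (-1)) ^ n) atTop (𝓝 (1 - 0)) := by
      apply Tendsto.const_sub
      apply tendsto_pow_atTop_nhds_zero_of_lt_one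
      · positivity
      · have : (2:ℝ) < Real.exp 1 := lt_trans (by norm_num) Real.exp_one_gt_d9
        rw [Real.exp_neg]
        rw [← div_eq_mul_inv, div_lt_one (Real.exp_pos 1)]
        exact this
    rw [sub_zero] at h3
    exact tendsto_of_tendsto_of_tendsto_of_le_of_le' h3 tendsto_const_nhds h1 h2
  obtain ⟨α, hα0, hlow, hhigh⟩ := exists_threshold (U j) (2 ^ (j + 1)) A (by positivity)
    (fun n c hc => U_nonneg j n hc) (fun n c hc => U_le_one j n hc)
    (fun n a b ha hab => U_mono j n ha hab)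
    (fun n₁ n₂ c h₁ h₂ hc => superadd j n₁ n₂ h₁ h₂ hc) H2
    (fun n c hc => le_one_sub_U j n hc) H4
  have hhigh' : ∀ c : ℝ, α < c → Tendsto (fun n : ℕ => satProb (j + 1) n ⌊c * n⌋₊) atTop (𝓝 0) := by
    intro c hc
    have h1 : α < (α + c) / 2 := by linarith only [hc]
    exact transfer_unsat j (c' := (α + c) / 2) (by linarith only [hα0, hc]) (by linarith only [hc]) (hhigh _ h1)
  refine ⟨α, ?_, ?_, hhigh'⟩
  · by_contra hneg
    have hα : α = 0 := le_antisymm (not_lt.mp hneg) hα0
    obtain ⟨c₀, hc₀, hlim⟩ := satProb_small (j + 1) hk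
    have h0 := hhigh' c₀ (by rw [hα]; exact hc₀)
    have := tendsto_nhds_unique hlim h0
    norm_num at this
  · intro c hc hcα
    have h1 : (c + α) / 2 < α := by linarith only [hcα]
    exact transfer_sat j (c' := (c + α) / 2) hc (by linarith only [hcα]) (hlow _ (by linarith only [hc, hcα]) h1)

end Vale.Agent.P170
end
end
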